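import Crest.Agent.R273.Pos_243
import Crest.Agent.T223.Hm0_77

/-!
# X261 / Hs (helper68): pointwise algebra of polyvectors

* `cs_psd` : Cauchy-Schwarz; `wedge_le` : `|β ∧ p|² ≤ |β|² |p|²`; `dual_le`;
* `Cv_rank`, `Cv_g_le`, `contr_le` : `|⟨t, i_γ w⟩|² ≤ a Cv(Θ; w)`.
-/

set_option autoImplicit false
set_option linter.style.haveILetI false

open Complex Matrix
open scoped Matrix ComplexConjugate ComplexOrder

namespace Crest.Agent.X261.Hs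

open Crest.Agent.R273.Fock_243 Crest.Agent.R273.Bkn_243 Crest.Agent.R273.Pos_243
open Crest.Agent.T223.Hm (hq)

variable {n : ℕ}

theorem cs_psd {κ : Type} [Fintype κ] {G : Matrix κ κ ℂ} (hG : G.PosSemidef) (p q : κ → ℂ) :
    ‖star p ⬝ᵥ (G *ᵥ q)‖ ^ 2 ≤ (star p ⬝ᵥ (G *ᵥ p)).re * (star q ⬝ᵥ (G *ᵥ q)).re := by
  have hc : ∀ u w : κ → ℂ, conj (star w ⬝ᵥ (G *ᵥ u)) = star u ⬝ᵥ (G *ᵥ w) := fun u w => by
    rw [← Complex.star_def, ← Matrix.star_dotProduct, Matrix.star_mulVec, hG.1.eq,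
      ← Matrix.dotProduct_mulVec]
  letI c : PreInnerProductSpace.Core ℂ (κ → ℂ) :=
    { inner := fun u w => star u ⬝ᵥ (G *ᵥ w)
      conj_inner_symm := hc
      re_inner_nonneg := fun u => (Complex.le_def.1 (hG.dotProduct_mulVec_nonneg u)).1
      add_left := fun u v w => by
        show star (u + v) ⬝ᵥ _ = _
        rw [star_add, add_dotProduct]
      smul_left := fun u w r => by
        show star (r • u) ⬝ᵥ _ = _
        rw [star_smul, smul_dotProduct]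
        rfl }
  have h1 := InnerProductSpace.Core.inner_mul_inner_self_le (𝕜 := ℂ) (F := κ → ℂ) p q
  have h2 : ‖star q ⬝ᵥ (G *ᵥ p)‖ = ‖star p ⬝ᵥ (G *ᵥ q)‖ := by rw [← hc, Complex.norm_conj]
  rw [sq]
  nth_rewrite 2 [← h2]
  exact h1

theorem star_eW' (γ : Fin n → ℂ) (a : FI n → ℂ) : star (eW γ *ᵥ a) = eW (star γ) *ᵥ star a := by
  rw [star_mulVec']
  unfold eW
  rw [K_map_conj, star_zero]

theorem star_iW' (γ : Fin n → ℂ) (a : FI n → ℂ) : star (iW γ *ᵥ a) = iW (star γ) *ᵥ star a := by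
  rw [star_mulVec']
  unfold iW
  rw [K_map_conj, star_zero]

theorem wedge_le {X : Matrix (Fin n) (Fin n) ℂ} (hX : X.PosSemidef) (β : Fin n → ℂ)
    (p : FI n → ℂ) : (star (eW β *ᵥ p) ⬝ᵥ (Gam X *ᵥ (eW β *ᵥ p))).re ≤
      (star β ⬝ᵥ (X *ᵥ β)).re * (star p ⬝ᵥ (Gam X *ᵥ p)).re := by
  have hs : star (Xᵀ *ᵥ star β) = X *ᵥ β := by
    rw [star_mulVec', star_star]
    congr 1
    exact hX.1
  have h1 : star (eW β *ᵥ p) ⬝ᵥ (Gam X *ᵥ (eW β *ᵥ p)) +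
      star (iW (Xᵀ *ᵥ star β) *ᵥ p) ⬝ᵥ (Gam X *ᵥ (iW (Xᵀ *ᵥ star β) *ᵥ p)) =
      (star β ⬝ᵥ (X *ᵥ β)) * (star p ⬝ᵥ (Gam X *ᵥ p)) := by
    rw [star_eW', star_iW', hs, dot_eW, dot_iW, ← dotProduct_add]
    simp only [Matrix.mulVec_mulVec]
    rw [Gam_eW, ← iW_Gam, ← Matrix.add_mulVec, ← mul_assoc, ← mul_assoc, ← add_mul, iW_eW,
      smul_mul_assoc, one_mul, Matrix.smul_mulVec, dotProduct_smul, smul_eq_mul]
    congr 1
    exact Finset.sum_congr rfl fun j _ => mul_comm _ _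
  have h2 := (Complex.le_def.1 ((Gam_posSemidef hX).dotProduct_mulVec_nonneg
    (iW (Xᵀ *ᵥ star β) *ᵥ p))).1
  have h3 := congrArg Complex.re h1
  have h4 := (Complex.le_def.1 (hX.dotProduct_mulVec_nonneg β)).2
  rw [Complex.add_re, Complex.mul_re, ← h4, Complex.zero_im, zero_mul, sub_zero] at h3
  rw [Complex.zero_re] at h2
  linarith

theorem dual_le {g : Matrix (Fin n) (Fin n) ℂ} (hg : g.PosDef) {α : Fin n → ℂ} {ε : ℝ}
    (hε : 0 ≤ ε) (h : ∀ v : Fin n → ℂ, ‖∑ a, α a * v a‖ ^ 2 ≤ ε * hq g v) :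
    (star (star α) ⬝ᵥ ((gᵀ)⁻¹ *ᵥ star α)).re ≤ ε := by
  have hi := hg.transpose.inv
  have h0 := Complex.le_def.1 (hi.posSemidef.dotProduct_mulVec_nonneg (star α))
  set s := star (star α) ⬝ᵥ ((gᵀ)⁻¹ *ᵥ star α) with hs
  have h1 := h ((gᵀ)⁻¹ *ᵥ star α)
  have e1 : ∑ a, α a * ((gᵀ)⁻¹ *ᵥ star α) a = s := by rw [hs, star_star]; rfl
  have e2 : hq g ((gᵀ)⁻¹ *ᵥ star α) = s.re := by
    unfold hq
    rw [Matrix.mulVec_mulVec, Matrix.mul_nonsing_inv _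
      (isUnit_iff_ne_zero.2 hg.transpose.det_pos.ne'), Matrix.one_mulVec, hs,
      Matrix.star_dotProduct, Complex.star_def, Complex.conj_re]
  have e3 : s.re ≤ ‖s‖ := Complex.re_le_norm s
  rw [e1, e2] at h1
  rw [Complex.zero_re] at h0
  have h2 := pow_le_pow_left₀ h0.1 e3 2
  by_contra hlt
  have h3 : ε < s.re := not_le.1 hlt
  nlinarith

theorem psd_of_hq {th : Matrix (Fin n) (Fin n) ℂ} (hh : th.IsHermitian)
    (h : ∀ ξ, 0 ≤ hq th ξ) : th.PosSemidef := by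
  have h1 : (thᵀ).PosSemidef := by
    refine .of_dotProduct_mulVec_nonneg hh.transpose fun ξ => Complex.le_def.2 ⟨h ξ, ?_⟩
    refine (Complex.conj_eq_iff_im.1 ?_).symm
    rw [← Complex.star_def, ← Matrix.star_dotProduct, Matrix.star_mulVec, hh.transpose.eq,
      ← Matrix.dotProduct_mulVec]
  exact h1.transpose

theorem hq_add (a b : Matrix (Fin n) (Fin n) ℂ) (ξ : Fin n → ℂ) :
    hq (a + b) ξ = hq a ξ + hq b ξ := by
  unfold hq
  rw [Matrix.transpose_add, Matrix.add_mulVec, dotProduct_add, Complex.add_re]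

theorem hq_smul (c : ℝ) (a : Matrix (Fin n) (Fin n) ℂ) (ξ : Fin n → ℂ) :
    hq ((c : ℂ) • a) ξ = c * hq a ξ := by
  unfold hq
  rw [Matrix.transpose_smul, Matrix.smul_mulVec, dotProduct_smul, smul_eq_mul,
    Complex.re_ofReal_mul]

/-- the rank one form `|⟨γ, ξ⟩|²` -/
def rk1 (γ : Fin n → ℂ) : Matrix (Fin n) (Fin n) ℂ := Matrix.of fun l k => conj (γ l) * γ k

theorem rk1_herm (γ : Fin n → ℂ) : (rk1 γ).IsHermitian := by
  ext a b
  simp [rk1, mul_comm]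

theorem hq_rk1 (γ ξ : Fin n → ℂ) : hq (rk1 γ) ξ = ‖star ξ ⬝ᵥ γ‖ ^ 2 := by
  have h1 : star ξ ⬝ᵥ ((rk1 γ)ᵀ *ᵥ ξ) = (star ξ ⬝ᵥ γ) * conj (star ξ ⬝ᵥ γ) := by
    simp only [dotProduct, Matrix.mulVec, rk1, Matrix.transpose_apply, Matrix.of_apply, map_sum,
      map_mul, Pi.star_apply, Complex.star_def, Complex.conj_conj, Finset.sum_mul, Finset.mul_sum]
    rw [Finset.sum_comm]
    exact Finset.sum_congr rfl fun _ _ => Finset.sum_congr rfl fun _ _ => by ring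
  unfold hq
  rw [h1, Complex.mul_conj, Complex.ofReal_re, Complex.normSq_eq_norm_sq]

theorem Cv_add (G : Matrix (FI n) (FI n) ℂ) (a b : Matrix (Fin n) (Fin n) ℂ) (v w : FI n → ℂ) :
    Cv G (a + b) v w = Cv G a v w + Cv G b v w := by
  simp only [Cv, Matrix.add_apply, add_mul, Finset.sum_add_distrib]

theorem Cv_smul' (G : Matrix (FI n) (FI n) ℂ) (c : ℂ) (a : Matrix (Fin n) (Fin n) ℂ)
    (v w : FI n → ℂ) : Cv G (c • a) v w = c * Cv G a v w := by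
  simp only [Cv, Matrix.smul_apply, smul_eq_mul, Finset.mul_sum, mul_assoc]

theorem Cv_rank (G : Matrix (FI n) (FI n) ℂ) (γ : Fin n → ℂ) (w : FI n → ℂ) :
    Cv G (rk1 γ) w w = star (iW (star γ) *ᵥ w) ⬝ᵥ (G *ᵥ (iW (star γ) *ᵥ w)) := by
  rw [star_iW', star_star, iW_eq_sum γ, iW_eq_sum (star γ), Matrix.sum_mulVec, Matrix.sum_mulVec,
    Matrix.mulVec_sum, sum_dotProduct]
  refine Finset.sum_congr rfl fun k _ => ?_
  rw [dotProduct_sum]
  refine Finset.sum_congr rfl fun l _ => ?_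
  rw [Matrix.smul_mulVec, Matrix.smul_mulVec, Matrix.mulVec_smul, smul_dotProduct,
    dotProduct_smul]
  simp only [rk1, Matrix.of_apply, smul_eq_mul, Pi.star_apply, Complex.star_def]
  ring

theorem Cv_g_le {g : Matrix (Fin n) (Fin n) ℂ} (hg : g.PosDef) (w : FI n → ℂ) :
    (Cv (Gam gᵀ) g w w).re ≤ n * (star w ⬝ᵥ (Gam gᵀ *ᵥ w)).re := by
  have hu : IsUnit (gᵀ).det := isUnit_iff_ne_zero.2 hg.transpose.det_pos.ne'
  have h1 : Cv (Gam gᵀ) g w w = ∑ l, star w ⬝ᵥ ((Gam gᵀ * (eW (ep l) * iW (ep l))) *ᵥ w) := by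
    unfold Cv
    rw [Finset.sum_comm]
    refine Finset.sum_congr rfl fun l _ => ?_
    rw [← mul_assoc, Gam_eW, eW_eq_sum (gᵀ *ᵥ ep l), Finset.sum_mul, Finset.sum_mul,
      Matrix.sum_mulVec, dotProduct_sum]
    refine Finset.sum_congr rfl fun k _ => ?_
    rw [dot_iW, smul_mul_assoc, smul_mul_assoc, Matrix.smul_mulVec, dotProduct_smul, smul_eq_mul,
      Matrix.mulVec_mulVec, Matrix.mulVec_mulVec, Matrix.mulVec_single_one]
    rfl
  have h2 : T1 (Gam gᵀ) ((gᵀ)⁻¹)ᵀ (fun k => eW (ep k) *ᵥ w) (fun k => eW (ep k) *ᵥ w) =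
      ∑ l, star w ⬝ᵥ ((Gam gᵀ * (iW (ep l) * eW (ep l))) *ᵥ w) := by
    unfold T1
    refine Finset.sum_congr rfl fun l _ => ?_
    have e1 : Gam gᵀ * iW (ep l) = iW (((gᵀ)⁻¹)ᵀ *ᵥ ep l) * Gam gᵀ := by
      rw [iW_Gam, Matrix.mulVec_mulVec, ← Matrix.transpose_mul, Matrix.nonsing_inv_mul _ hu,
        Matrix.transpose_one, Matrix.one_mulVec]
    rw [← mul_assoc, e1, iW_eq_sum (((gᵀ)⁻¹)ᵀ *ᵥ ep l), Finset.sum_mul, Finset.sum_mul,
      Matrix.sum_mulVec, dotProduct_sum]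
    refine Finset.sum_congr rfl fun k _ => ?_
    rw [star_eW, dot_eW, smul_mul_assoc, smul_mul_assoc, Matrix.smul_mulVec, dotProduct_smul,
      smul_eq_mul, Matrix.mulVec_mulVec, Matrix.mulVec_mulVec, Matrix.mulVec_single_one]
    rfl
  have h3 := (Complex.le_def.1 (T1_nonneg (Gam_posSemidef hg.transpose.posSemidef)
    hg.transpose.inv.posSemidef.transpose (fun k => eW (ep k) *ᵥ w))).1
  have h4 : Cv (Gam gᵀ) g w w + T1 (Gam gᵀ) ((gᵀ)⁻¹)ᵀ (fun k => eW (ep k) *ᵥ w)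
      (fun k => eW (ep k) *ᵥ w) = (n : ℝ) * (star w ⬝ᵥ (Gam gᵀ *ᵥ w)) := by
    rw [h1, h2, ← Finset.sum_add_distrib]
    have e2 : ∀ l : Fin n, star w ⬝ᵥ ((Gam gᵀ * (eW (ep l) * iW (ep l))) *ᵥ w) +
        star w ⬝ᵥ ((Gam gᵀ * (iW (ep l) * eW (ep l))) *ᵥ w) = star w ⬝ᵥ (Gam gᵀ *ᵥ w) := by
      intro l
      rw [← dotProduct_add, ← Matrix.add_mulVec, ← mul_add, add_comm, iW_eW]
      simp [Pi.single_apply]
    simp only [e2]
    simp
  have h5 := congrArg Complex.re h4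
  rw [Complex.add_re, Complex.re_ofReal_mul] at h5
  rw [Complex.zero_re] at h3
  linarith

/-- the pointwise a-priori inequality -/
theorem contr_le {G : Matrix (FI n) (FI n) ℂ} (hG : G.PosSemidef) {th : Matrix (Fin n) (Fin n) ℂ}
    (hh : th.IsHermitian) {γ : Fin n → ℂ} {t : FI n → ℂ} {a : ℝ}
    (h : ∀ ξ, (star t ⬝ᵥ (G *ᵥ t)).re * ‖star ξ ⬝ᵥ γ‖ ^ 2 ≤ a * hq th ξ) (w : FI n → ℂ) :
    ‖star t ⬝ᵥ (G *ᵥ (iW (star γ) *ᵥ w))‖ ^ 2 ≤ a * (Cv G th w w).re := by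
  set b := (star t ⬝ᵥ (G *ᵥ t)).re with hb
  have h1 : ((a : ℂ) • th + ((-b : ℝ) : ℂ) • rk1 γ).PosSemidef := by
    refine psd_of_hq ?_ fun ξ => ?_
    · unfold Matrix.IsHermitian
      rw [Matrix.conjTranspose_add, Matrix.conjTranspose_smul, Matrix.conjTranspose_smul, hh.eq,
        (rk1_herm γ).eq, Complex.star_def, Complex.conj_ofReal, Complex.conj_ofReal]
    · rw [hq_add, hq_smul, hq_smul, hq_rk1]
      linarith [h ξ]
  have h2 := (Complex.le_def.1 (Cv_nonneg hG h1 w)).1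
  rw [Cv_add, Cv_smul', Cv_smul', Complex.add_re, Complex.re_ofReal_mul, Complex.re_ofReal_mul,
    Cv_rank, Complex.zero_re] at h2
  have h3 := cs_psd hG t (iW (star γ) *ᵥ w)
  linarith

end Crest.Agent.X261.Hs
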