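import Crest.Agent.X261.Hs.C
import Crest.Agent.X261.Hs.P
import Crest.Agent.R273.LimB_505

/-!
# X261 / Hs (helper68): test forms on a complete Kaehler manifold

* `cH`, `TC`, `TsC`, `lowC`, `highC` : the pre-Hilbert space of test forms and its operators;
* `hadjC`, `hTTC`, `bknC` : adjointness, `T T = 0`, the Bochner-Kodaira-Nakano identity;
* `cutP` : cut-off operators and mollifiers; `cH_tw` : change of weight.
-/

set_option autoImplicit false
set_option linter.unusedSectionVars false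
set_option linter.style.haveILetI false

open Set Filter Topology Complex MeasureTheory
open scoped ContDiff Matrix ComplexConjugate ComplexOrder

namespace Crest.Agent.X261.Hs

open Crest.Agent.R275 Crest.Agent.R275.Geo Crest.Agent.R275.Pai323 Crest.Agent.R275.Core144
open Crest.Agent.R275.OmT75 (dl)
open Crest.Agent.R273.Defs_333 Crest.Agent.R273.HM_333 Crest.Agent.R273.Kah_333
open Crest.Agent.R273.Vm_333 Crest.Agent.R273.NormC_505 Crest.Agent.R273.Mol_106
open Crest.Agent.R273.Fock_243 Crest.Agent.R273.Bkn_243 Crest.Agent.R273.Pos_243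
open Crest.Agent.R273.LamN127 Crest.Agent.R273.DVec_733 Crest.Agent.R273.DMet_733
open Crest.Agent.R273.DMetB_733 Crest.Agent.R273.BKNa_37 Crest.Agent.R273.BKNb_37
open Crest.Agent.R273.BKNc_37 Crest.Agent.R273.Lim_505
open Crest.Agent.R273.HDN_505 (HB HB_pos)
open Crest.Agent.R273.StV_37 (IsD tot tot_congr db_conj)
open Crest.Agent.T223.Hm (gl ix ix_mem Cs Cut hq gl_eq gl_sm gl_congr integral_gl dd_zero_off)
open Crest.Agent.X277.AN.Horm (nrm_sq nrm_cs le_of_sq_le_mul)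

noncomputable section

section abs

variable {S : Type*} [AddCommGroup S] [Module ℂ S] (c : InnerProductSpace.Core ℂ S)

theorem comm_adj {T Ts χ : S →ₗ[ℂ] S} (hadj : ∀ u w, c.inner (T u) w = c.inner u (Ts w))
    (hχ : ∀ u w, c.inner (χ u) w = c.inner u (χ w)) {η : ℝ} (hη : 0 ≤ η)
    (hT : ∀ u, nr c (T (χ u) - χ (T u)) ≤ η * nr c u) (u : S) :
    nr c (Ts (χ u) - χ (Ts u)) ≤ η * nr c u := by
  letI : NormedAddCommGroup S := c.toNormedAddCommGroup
  letI : InnerProductSpace ℂ S := .ofCore c.toCore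
  have n0 : ∀ u : S, nr c u = ‖u‖ := fun u => rfl
  have i0 : ∀ u w : S, c.inner u w = inner ℂ u w := fun u w => rfl
  simp only [n0, i0] at *
  obtain ⟨z, hz⟩ : ∃ z, z = Ts (χ u) - χ (Ts u) := ⟨_, rfl⟩
  rw [← hz]
  have h1 : inner ℂ z z = -inner ℂ (T (χ z) - χ (T z)) u := by
    have h0 : inner ℂ z z = inner ℂ z (Ts (χ u) - χ (Ts u)) := by rw [← hz]
    rw [h0, inner_sub_right, inner_sub_left, ← hadj z, ← hχ (T z), ← hχ z, ← hadj (χ z)]
    ring
  refine le_of_sq_le_mul (norm_nonneg _) (mul_nonneg hη (norm_nonneg _)) ?_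
  rw [← inner_self_eq_norm_sq (𝕜 := ℂ), h1]
  refine (RCLike.re_le_norm _).trans ?_
  rw [norm_neg]
  refine (norm_inner_le_norm _ _).trans ?_
  have h2 := mul_le_mul_of_nonneg_right (hT z) (norm_nonneg u)
  linarith

theorem inner_self_eq (u : S) : c.inner u u = ((nr c u ^ 2 : ℝ) : ℂ) := by
  letI : NormedAddCommGroup S := c.toNormedAddCommGroup
  letI : InnerProductSpace ℂ S := .ofCore c.toCore
  rw [Complex.ofReal_pow]
  exact inner_self_eq_norm_sq_to_K (𝕜 := ℂ) u

theorem inner_neg_right' (u w : S) : c.inner u (-w) = -c.inner u w := by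
  letI : NormedAddCommGroup S := c.toNormedAddCommGroup
  letI : InnerProductSpace ℂ S := .ofCore c.toCore
  exact inner_neg_right (𝕜 := ℂ) u w

theorem nr_neg (u : S) : nr c (-u) = nr c u := by
  letI : NormedAddCommGroup S := c.toNormedAddCommGroup
  exact norm_neg u

end abs

variable {n : ℕ} {M : Type} [TopologicalSpace M] {A : Atl n M} {N : LB A}

section low

variable (K : Kah A)

theorem low_cs {v : MV N} (hv : Cs v.1) : low K N v ∈ CS (BN N) := by
  obtain ⟨C, hC, h0⟩ := hv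
  refine ⟨C, hC, fun i x hx => ?_⟩
  rw [low_apply, h0 i x hx, Matrix.mulVec_zero, iB_zero]

/-- the test form of a test polyvector -/
def lowC (v : MV N) (hv : Cs v.1) : CS (BN N) := ⟨low K N v, low_cs K hv⟩

/-- the polyvector of a test form -/
def highC (u : CS (BN N)) : MV N := (low K N).symm u.1

theorem highC_cs (u : CS (BN N)) : Cs (highC K u).1 := by
  obtain ⟨C, hC, h0⟩ := u.2
  refine ⟨C, hC, fun i x hx => ?_⟩
  rw [highC, low_symm_apply, h0 i x hx, oB_zero, Matrix.mulVec_zero]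

theorem lowC_highC (u : CS (BN N)) : lowC K (highC K u) (highC_cs K u) = u :=
  Subtype.ext ((low K N).apply_symm_apply u.1)

theorem highC_lowC (v : MV N) (hv : Cs v.1) : highC K (lowC K v hv) = v :=
  (low K N).symm_apply_apply v

theorem exists_low (u : CS (BN N)) : ∃ (v : MV N) (hv : Cs v.1), u = lowC K v hv :=
  ⟨_, _, (lowC_highC K u).symm⟩

variable [T2Space M] (h : HM ((KB A)⁻¹ * N))

/-- `∂̄` on test forms -/
def TC (N : LB A) : CS (BN N) →ₗ[ℂ] CS (BN N) := fopC (FOp.nab (BN N))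

/-- the formal adjoint on test forms -/
def TsC : CS (BN N) →ₗ[ℂ] CS (BN N) := fopC (dsF K h)

theorem TC_coe (u : CS (BN N)) : (TC N u).1 = nabL (BN N) u.1 := rfl

theorem TsC_coe (u : CS (BN N)) : (TsC K h u).1 = dsL K h u.1 := rfl

theorem hTTC (u : CS (BN N)) : TC N (TC N u) = 0 := Subtype.ext (nab_nab_BN N u.1)

theorem dlt_eq_high (v : MV N) (hv : Cs v.1) : dlt h v = highC K (-TsC K h (lowC K v hv)) := by
  have h1 : (TsC K h (lowC K v hv)).1 = -(low K N (dlt h v)) := dsL_low K h v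
  rw [highC, Submodule.coe_neg, h1, neg_neg, LinearEquiv.symm_apply_apply]

include K in
theorem cs_dlt {v : MV N} (hv : Cs v.1) : Cs (dlt h v).1 := by
  rw [dlt_eq_high K h v hv]
  exact highC_cs K _

theorem TsC_low (v : MV N) (hv : Cs v.1) :
    TsC K h (lowC K v hv) = -lowC K (dlt h v) (cs_dlt K h hv) := Subtype.ext (dsL_low K h v)

end low

variable [Countable A.ι] (vol : HM (KB A)⁻¹) (K : Kah A) (h : HM ((KB A)⁻¹ * N))

theorem pf_low (v w : MV N) (x : M) :
    pf vol (HB K h) (low K N v) (low K N w) x = gl vol (inG K h w.1 v.1) x :=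
  congrFun (gl_congr fun _ _ hx => HB_hd K h v w hx) x

theorem pf_scale {h h' : HM ((KB A)⁻¹ * N)} {ρ : M → ℝ}
    (hρ : ∀ i, ∀ x ∈ (A.e i).source, h'.w i x = h.w i x * ρ x) (u w : Sec (BN N)) (x : M) :
    pf vol (HB K h') u w x = ρ x * pf vol (HB K h) u w x := by
  rw [pf_eq vol _ u w (ix_mem x), pf_eq vol _ u w (ix_mem x), HB_hd_iB, HB_hd_iB,
    hρ _ x (ix_mem x)]
  push_cast
  ring

theorem pq_scale {h h' : HM ((KB A)⁻¹ * N)} {ρ : M → ℝ}
    (hρ : ∀ i, ∀ x ∈ (A.e i).source, h'.w i x = h.w i x * ρ x) (u : Sec (BN N)) (x : M) :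
    pq vol (HB K h') u x = ρ x * pq vol (HB K h) u x := by
  rw [pq, pf_scale vol K hρ, Complex.re_ofReal_mul, pq]

theorem pf_tw {Φ : M → ℝ} (hΦ : A.Sm Φ) (u w : Sec (BN N)) (x : M) :
    pf vol (HB K (tw h Φ hΦ)) u w x = Real.exp (-Φ x) * pf vol (HB K h) u w x :=
  pf_scale vol K (ρ := fun x => Real.exp (-Φ x)) (fun _ _ _ => rfl) u w x

theorem pq_tw {Φ : M → ℝ} (hΦ : A.Sm Φ) (u : Sec (BN N)) (x : M) :
    pq vol (HB K (tw h Φ hΦ)) u x = Real.exp (-Φ x) * pq vol (HB K h) u x :=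
  pq_scale vol K (ρ := fun x => Real.exp (-Φ x)) (fun _ _ _ => rfl) u x

theorem pf_mul_left {B : FBun A} (h : HDen B) {f : M → ℂ} (hf : A.Sm f) (u : CS B) (w : Sec B)
    (x : M) : pf vol h (mulC B hf u).1 w x = conj (f x) * pf vol h u.1 w x := by
  rw [← pf_conj, pf_mul_right, map_mul, pf_conj]

variable [T2Space M]

/-- the commutator of `∂̄` with a cut-off function -/
theorem pq_comm_le {χ : M → ℝ} (hs : A.Sm fun x => (χ x : ℂ)) {ε : ℝ} (hε : 0 ≤ ε)
    (hχ : ∀ i, ∀ x ∈ (A.e i).source, ∀ v : Fin n → ℂ,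
      ‖∑ a, dl A i a (fun y => (χ y : ℂ)) x * v a‖ ^ 2 ≤ ε * hq (K.g i x) v)
    (u : CS (BN N)) (x : M) :
    pq vol (HB K h) (TC N (mulC _ hs u) - mulC _ hs (TC N u)).1 x ≤ ε * pq vol (HB K h) u.1 x := by
  have hx := ix_mem (A := A) x
  set i := ix A x with hi
  have e1 : oB ((TC N (mulC _ hs u) - mulC _ hs (TC N u)).1.1 i x) =
      eW (star fun a => dl A i a (fun y => (χ y : ℂ)) x) *ᵥ oB (u.1.1 i x) := by
    have h1 : (TC N (mulC _ hs u) - mulC _ hs (TC N u)).1.1 i x =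
        nab (BN N) (fmul (fun x => (χ x : ℂ)) u.1.1) i x - (χ x : ℂ) • nab (BN N) u.1.1 i x := rfl
    rw [h1, nab_fmul (BN N) hs u.1.2 hx, add_sub_cancel_right, cdC, Matrix.sum_mulVec, oB_sum,
      eW_eq_sum, Matrix.sum_mulVec]
    refine Finset.sum_congr rfl fun a _ => ?_
    rw [Matrix.smul_mulVec, Matrix.smul_mulVec, oB_smul, BN_e, ← iB_oB N (u.1.1 i x), kB_iB, one_smul,
      oB_iB, oB_iB, Pi.star_apply, Complex.star_def, ← db_conj]
    simp only [Complex.conj_ofReal]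
  rw [pq_eq vol _ _ hx, pq_eq vol _ _ hx, HB_hd_iB, HB_hd_iB, e1, Complex.re_ofReal_mul,
    Complex.re_ofReal_mul, mul_left_comm ε, mul_left_comm ε]
  refine mul_le_mul_of_nonneg_left (mul_le_mul_of_nonneg_left ?_ (h.pos i x hx).le)
    (inv_pos.2 (vol.pos i x hx)).le
  have hp := (K.pos i x hx).transpose.inv.posSemidef
  refine (wedge_le hp _ _).trans (mul_le_mul_of_nonneg_right (dual_le (K.pos i x hx) hε (hχ i x hx))
    (Complex.le_def.1 ((Gam_posSemidef hp).dotProduct_mulVec_nonneg _)).1)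

variable [MeasurableSpace M] [BorelSpace M]

/-- the inner product of the test forms -/
abbrev cH : InnerProductSpace.Core ℂ (CS (BN N)) := c1 vol (HB K h) (HB_pos K h)

theorem cH_low (v w : MV N) (hv : Cs v.1) (hw : Cs w.1) :
    (cH vol K h).inner (lowC K v hv) (lowC K w hw) =
      ∫ x, gl vol (inG K h w.1 v.1) x ∂(vm vol) := by
  rw [c1_inner]
  exact integral_congr_ae (Eventually.of_forall fun x => pf_low vol K h v w x)

theorem nr_low_sq (v : MV N) (hv : Cs v.1) :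
    nr (cH vol K h) (lowC K v hv) ^ 2 = ∫ x, (gl vol (inG K h v.1 v.1) x).re ∂(vm vol) := by
  rw [nrm_c1_sq]
  exact integral_congr_ae (Eventually.of_forall fun x => congrArg Complex.re (pf_low vol K h v v x))

/-- change of weight -/
theorem cH_tw {Φ Ψ : M → ℝ} (hΦ : A.Sm Φ) (hΨ : A.Sm Ψ)
    (hs : A.Sm fun x => (Real.exp (Φ x - Ψ x) : ℂ)) (u w : CS (BN N)) :
    (cH vol K (tw h Φ hΦ)).inner u (mulC _ hs w) = (cH vol K (tw h Ψ hΨ)).inner u w := by
  rw [c1_inner, c1_inner]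
  refine integral_congr_ae (Eventually.of_forall fun x => ?_)
  rw [pf_mul_right, pf_tw, pf_tw, ← mul_assoc, ← Complex.ofReal_mul, ← Real.exp_add]
  congr 3
  ring

theorem sm_expC {Φ Ψ : M → ℝ} (hΦ : A.Sm Φ) (hΨ : A.Sm Ψ) :
    A.Sm fun x => (Real.exp (Φ x - Ψ x) : ℂ) := fun i =>
  Complex.ofRealCLM.contDiff.comp_contDiffOn
    (Real.contDiff_exp.comp_contDiffOn ((hΦ i).sub (hΨ i)))

theorem nr_tw_mono {Φ Ψ : M → ℝ} (hΦ : A.Sm Φ) (hΨ : A.Sm Ψ) (hle : ∀ x, Ψ x ≤ Φ x)
    (u : CS (BN N)) : nr (cH vol K (tw h Φ hΦ)) u ≤ nr (cH vol K (tw h Ψ hΨ)) u := by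
  have h1 := nrm_le_of_pt vol (HB K (tw h Φ hΦ)) (HB_pos K _) wg_one (HB_pos K (tw h Ψ hΨ)) wg_one
    (u := u) (u' := u) zero_le_one fun x => by
      rw [one_pow, one_mul, one_mul, one_mul, pq_tw, pq_tw]
      exact mul_le_mul_of_nonneg_right (Real.exp_le_exp.2 (neg_le_neg (hle x)))
        (pq_nonneg vol _ _ x)
  rwa [one_mul] at h1

variable (P : Part A)

theorem inner_tot {B : FBun A} (h : HDen B) (hp : h.Pos) (u w : CS B) {C : Set M}
    (hC : IsCompact C) (h0 : ∀ i, ∀ x ∉ C, w.1.1 i x = 0) :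
    (c1 vol h hp).inner u w = tot P (Fn P hC) (h.hd u.1.1 w.1.1) := by
  rw [c1_inner]
  refine (integral_gl P (hd_isD h u.1 w.1) hC (fun i x _ hx => ?_) (Finset.Subset.refl _)).2
  show star _ ⬝ᵥ (_ *ᵥ w.1.1 i x) = 0
  rw [h0 i x hx, Matrix.mulVec_zero, dotProduct_zero]

theorem inner_pair (v : MV N) (hv : Cs v.1) (u : CS (BN N)) {C : Set M} (hC : IsCompact C)
    (h0 : ∀ i, ∀ x ∉ C, u.1.1 i x = 0) :
    (cH vol K h).inner (lowC K v hv) u = pairF (DN N) P (Fn P hC) u.1 (cj h v) := by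
  obtain ⟨w, hw, rfl⟩ := exists_low K u
  rw [inner_tot vol P _ _ _ _ hC h0]
  refine tot_congr P _ fun i _ x hx => ?_
  exact (HB_hd K h v w hx).trans (dn_low_cj h K w v i x).symm

include P in
/-- adjointness -/
theorem hadjC (u w : CS (BN N)) :
    (cH vol K h).inner (TC N u) w = (cH vol K h).inner u (TsC K h w) := by
  obtain ⟨w, hw, rfl⟩ := exists_low K w
  obtain ⟨C, hC, h0⟩ := u.2
  rw [TsC_low]
  refine Eq.trans ?_ (inner_neg_right' (cH vol K h) u _).symm
  rw [← (cH vol K h).conj_inner_symm (TC N u),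
    ← (cH vol K h).conj_inner_symm u, inner_pair vol K h P w hw (TC N u) hC
      (nab_offZ hC.isClosed h0), inner_pair vol K h P _ _ u hC h0, TC_coe,
    pairF_stokes (DN N) P u.1 _ hC (Finset.Subset.refl _) h0, nab_cj, map_neg, map_neg]

theorem inT_off {v : A.ι → M → FI n → ℂ} {i : A.ι} {x : M} (h0 : v i x = 0) :
    inT K h v v i x = 0 := by
  simp [inT, Cv, h0]

theorem inD_off {v : A.ι → M → FI n → ℂ} {C : Set M} (hC : IsCompact C)
    (h0 : ∀ i, ∀ x ∉ C, v i x = 0) {i : A.ι} {x : M} (hx : x ∈ (A.e i).source) (hxC : x ∉ C) :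
    inD K h v v i x = 0 := by
  have h1 : ∀ k, dbV v i k x = 0 := fun k => funext fun T =>
    dd_zero_off (s := I) (a := k) (f := fun y => v i y T) hC
      (fun y hy => by simp only [h0 i y hy, Pi.zero_apply]) hx hxC
  simp [inD, T1, h1]

include P in
theorem integrable_inT (w : MV N) (hw : Cs w.1) :
    Integrable (gl vol (inT K h w.1 w.1)) (vm vol) := by
  obtain ⟨C, hC, h0⟩ := hw
  exact (integral_gl P (inT_isD h (isV w) (isV w)) hC (fun i x _ hx => inT_off K h (h0 i x hx))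
    (Finset.Subset.refl _)).1

include P in
theorem integrable_inD (w : MV N) (hw : Cs w.1) :
    Integrable (gl vol (inD K h w.1 w.1)) (vm vol) := by
  obtain ⟨C, hC, h0⟩ := hw
  exact (integral_gl P (inD_isD h (isV w) (isV w)) hC (fun i x hi hx => inD_off K h hC h0 hi hx)
    (Finset.Subset.refl _)).1

include P in
/-- **the Bochner-Kodaira-Nakano identity** for test forms -/
theorem bknC (w : MV N) (hw : Cs w.1) :
    ∫ x, gl vol (inD K h w.1 w.1) x ∂(vm vol) + ∫ x, gl vol (inT K h w.1 w.1) x ∂(vm vol) =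
      ((nr (cH vol K h) (TC N (lowC K w hw)) ^ 2 +
        nr (cH vol K h) (TsC K h (lowC K w hw)) ^ 2 : ℝ) : ℂ) := by
  obtain ⟨C, hC, h0⟩ := id hw
  have hl : ∀ i, ∀ x ∉ C, (lowC K w hw).1.1 i x = 0 := fun i x hx => by
    show (low K N w).1 i x = 0
    rw [low_apply, h0 i x hx, Matrix.mulVec_zero, iB_zero]
  have hd : ∀ i, ∀ x ∉ C, (lowC K (dlt h w) (cs_dlt K h hw)).1.1 i x = 0 := fun i x hx => by
    have h1 : (cj h (dlt h w)).1 i x = 0 := by
      have h2 : nab _ (cj h w).1 i x = 0 := nab_offZ hC.isClosed (fun i x hx => by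
        rw [cj_apply, h0 i x hx, star_zero, smul_zero, Matrix.mulVec_zero, iB_zero]) i x hx
      have h3 : (nabL _ (cj h w)).1 i x = 0 := h2
      rw [nab_cj, Submodule.coe_neg, Pi.neg_apply, Pi.neg_apply, neg_eq_zero] at h3
      exact h3
    have h4 : (dlt h w).1 i x = 0 := by
      have h5 : dlt h w = (cj h).symm (cj h (dlt h w)) := ((cj h).symm_apply_apply _).symm
      rw [h5]
      show star (((h.w i x : ℂ))⁻¹ • (R273.Berezin_505.Sb ℂ n *ᵥ oB ((cj h (dlt h w)).1 i x))) = 0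
      rw [h1, oB_zero, Matrix.mulVec_zero, smul_zero, star_zero]
    show (low K N (dlt h w)).1 i x = 0
    rw [low_apply, h4, Matrix.mulVec_zero, iB_zero]
  rw [(integral_gl P (inD_isD h (isV w) (isV w)) hC (fun i x hi hx => inD_off K h hC h0 hi hx)
      (Finset.Subset.refl _)).2,
    (integral_gl P (inT_isD h (isV w) (isV w)) hC (fun i x _ hx => inT_off K h (h0 i x hx))
      (Finset.Subset.refl _)).2, bkn P K h (isV w) (isV w) hC (Finset.Subset.refl _) h0,
    Complex.ofReal_add, TsC_low, nr_neg, ← inner_self_eq, ← inner_self_eq,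
    inner_tot vol P _ _ _ (TC N (lowC K w hw)) hC (nab_offZ hC.isClosed hl),
    inner_tot vol P _ _ _ _ hC hd]
  congr 1
  · exact tot_congr P _ fun i _ x hx => (HB_hd_nab K h w w hx).symm
  · refine tot_congr P _ fun i _ x hx => ?_
    refine Eq.trans ?_ (HB_hd K h (dlt h w) (dlt h w) hx).symm
    unfold inG
    rw [dlt_eq_delV h w hx]

include P in
/-- the curvature term is bounded by the energy -/
theorem bknC_le (w : MV N) (hw : Cs w.1) :
    ∫ x, (gl vol (inT K h w.1 w.1) x).re ∂(vm vol) ≤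
      nr (cH vol K h) (TsC K h (lowC K w hw)) ^ 2 + nr (cH vol K h) (TC N (lowC K w hw)) ^ 2 := by
  have h1 := congrArg Complex.re (bknC vol K h P w hw)
  have e1 := integral_re (𝕜 := ℂ) (integrable_inT vol K h P w hw)
  have e2 := integral_re (𝕜 := ℂ) (integrable_inD vol K h P w hw)
  simp only [RCLike.re_to_complex] at e1 e2
  rw [Complex.add_re, Complex.ofReal_re, ← e1, ← e2] at h1
  have h2 : 0 ≤ ∫ x, (gl vol (inD K h w.1 w.1) x).re ∂(vm vol) := integral_nonneg fun x => by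
    show 0 ≤ ((vol.w (ix A x) x)⁻¹ • inD K h w.1 w.1 (ix A x) x).re
    rw [Complex.smul_re, smul_eq_mul]
    exact mul_nonneg (inv_pos.2 (vol.pos _ x (ix_mem x))).le
      (Complex.le_def.1 (R273.BKNd_37.inD_nonneg K h w.1 _ (ix_mem x))).1
  linarith

include P in
/-- **cut-off operators and mollifiers** on a complete manifold -/
theorem cutP (hc : Cut K) (g : CS (BN N)) (q : CS (BN N) → ℝ)
    (hq : ∀ (χ : M → ℝ) (hs : A.Sm fun x => (χ x : ℂ)), (∀ x, 0 ≤ χ x ∧ χ x ≤ 1) →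
      ∀ u, q (mulC _ hs u) ≤ q u) :
    CutP (nr (cH vol K h)) (cH vol K h).inner (TC N) (TsC K h) g q := by
  intro η hη
  obtain ⟨C, hC, h0⟩ := g.2
  obtain ⟨χ, hχ, hcs, h1, h01, hd⟩ := hc C hC (η ^ 2) (by positivity)
  have hs : A.Sm fun x => (χ x : ℂ) := fun i => Complex.ofRealCLM.contDiff.comp_contDiffOn (hχ i)
  have hT : ∀ u, nr (cH vol K h) (TC N (mulC _ hs u) - mulC _ hs (TC N u)) ≤
      η * nr (cH vol K h) u := fun u =>
    nrm_le_of_pt vol _ (HB_pos K h) wg_one (HB_pos K h) wg_one hη.le fun x => by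
      rw [one_mul, one_mul]
      exact pq_comm_le vol K h hs (sq_nonneg η) hd u x
  refine ⟨mulC _ hs, fun u => ?_, fun u => ?_, hq χ hs h01, hT,
    comm_adj _ (hadjC vol K h P) (fun u w => ?_) hη.le hT,
    molP_mul P vol _ (HB_pos K h) _ _ hχ hcs hs⟩
  · rw [c1_inner, c1_inner]
    refine integral_congr_ae (Eventually.of_forall fun x => ?_)
    rw [pf_mul_right]
    by_cases hx : x ∈ C
    · rw [h1 x hx, Complex.ofReal_one, one_mul]
    · rw [pf_zero_left vol _ _ fun i => h0 i x hx, mul_zero]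
  · have h2 := nrm_le_of_pt vol _ (HB_pos K h) wg_one (HB_pos K h) wg_one (u := mulC _ hs u)
      (u' := u) zero_le_one fun x => by
        rw [one_pow, one_mul, one_mul, one_mul, pq_mul, Complex.norm_real,
          Real.norm_of_nonneg (h01 x).1]
        exact mul_le_of_le_one_left (pq_nonneg vol _ _ x) (pow_le_one₀ (h01 x).1 (h01 x).2)
    rwa [one_mul] at h2
  · rw [c1_inner, c1_inner]
    refine integral_congr_ae (Eventually.of_forall fun x => ?_)
    rw [pf_mul_right, pf_mul_left, Complex.conj_ofReal]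

end

end Crest.Agent.X261.Hs
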