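import Crest.Agent.X277.AN.HormA

/-!
# X261 / Hs (helper68): the abstract step of the `L²` theorem on a complete manifold

* `MolP`, `CutP` : finite rank mollifiers converging to a cut-off operator;
* `proj_cut`, `proj_cut_core` : the a-priori inequality applied to approximate projections;
* `dem_mov` : Demailly's limit argument with moving data.
-/

set_option autoImplicit false
set_option linter.style.haveILetI false

open Filter Topology
open scoped InnerProductSpace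

namespace Crest.Agent.X261.Hs

open Crest.Agent.R273.AbsStep392 Crest.Agent.X277.AN.Horm

section defs

variable {S : Type*} [AddCommGroup S] [Module ℂ S]

/-- finite rank operators `J N` which converge to `c` and almost commute with `T`, `Ts` -/
def MolP (nr : S → ℝ) (ip : S → S → ℂ) (T Ts c : S →ₗ[ℂ] S) : Prop :=
  ∃ (J : ℕ → S →ₗ[ℂ] S) (C : ℝ), (∀ N u, nr (J N u) ≤ C * nr u) ∧
    (∀ u, Tendsto (fun N => nr (J N u - c u)) atTop (𝓝 0)) ∧
    (∀ N u, nr (T (J N u) - J N (T u)) ≤ C * nr u) ∧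
    (∀ u, Tendsto (fun N => nr (T (J N u) - T (c u))) atTop (𝓝 0)) ∧
    (∀ N u, nr (Ts (J N u) - J N (Ts u)) ≤ C * nr u) ∧
    (∀ u, Tendsto (fun N => nr (Ts (J N u) - Ts (c u))) atTop (𝓝 0)) ∧
    ∀ N, ∃ (m : ℕ) (s e : Fin m → S), ∀ v, J N v = ∑ k, ip (s k) v • e k

/-- cut-off operators with small commutators -/
def CutP (nr : S → ℝ) (ip : S → S → ℂ) (T Ts : S →ₗ[ℂ] S) (g : S) (q : S → ℝ) : Prop :=
  ∀ η > 0, ∃ c : S →ₗ[ℂ] S, (∀ u, ip g (c u) = ip g u) ∧ (∀ u, nr (c u) ≤ nr u) ∧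
    (∀ u, q (c u) ≤ q u) ∧ (∀ u, nr (T (c u) - c (T u)) ≤ η * nr u) ∧
    (∀ u, nr (Ts (c u) - c (Ts u)) ≤ η * nr u) ∧ MolP nr ip T Ts c

end defs

/-- the a-priori inequality applied to approximate projections on the closed vectors -/
theorem proj_cut {S : Type*} [NormedAddCommGroup S] [InnerProductSpace ℂ S]
    (T Ts : S →ₗ[ℂ] S) (hadj : ∀ u w, ⟪T u, w⟫_ℂ = ⟪u, Ts w⟫_ℂ) (hTT : ∀ u, T (T u) = 0)
    (g : S) (hg : T g = 0) {D Cq : ℝ} (hD : 0 ≤ D) (q : S → ℝ) (hq0 : ∀ u, 0 ≤ q u)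
    (hq : ∀ u v, |q u - q v| ≤ Cq * ‖u - v‖)
    (hcut : CutP (fun u => ‖u‖) (fun u v => ⟪u, v⟫_ℂ) T Ts g q)
    (hG : ∀ v : S, ‖⟪g, v⟫_ℂ‖ ^ 2 ≤ D * (‖Ts v‖ ^ 2 + ‖T v‖ ^ 2 + q v ^ 2))
    (w : S) {τ : ℝ} (hτ : 0 < τ) :
    ∃ c : S, T c = 0 ∧ (∀ z, T z = 0 → ‖w - c‖ ^ 2 ≤ ‖w - z‖ ^ 2 + τ) ∧
      ‖c‖ ^ 2 ≤ ‖w‖ ^ 2 + τ ∧ ‖⟪g, w⟫_ℂ‖ ^ 2 ≤ D * (‖Ts w‖ ^ 2 + q c ^ 2) + τ := by
  obtain ⟨c', d, e, hcZ, hcc, horth, hd, hdle, he, hele⟩ := exists_proj_seq (LinearMap.ker T) w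
  have hqc : CauchySeq (fun N => q (c' N)) := by
    rw [Metric.cauchySeq_iff] at hcc ⊢
    intro δ hδ
    obtain ⟨N, hN⟩ := hcc (δ / (|Cq| + 1)) (by positivity)
    refine ⟨N, fun m hm k hk => ?_⟩
    have h1 := hN m hm k hk
    rw [dist_eq_norm] at h1
    rw [Real.dist_eq]
    refine (hq _ _).trans_lt ?_
    have h2 : Cq * ‖c' m - c' k‖ ≤ (|Cq| + 1) * ‖c' m - c' k‖ :=
      mul_le_mul_of_nonneg_right ((le_abs_self _).trans (by linarith)) (norm_nonneg _)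
    refine h2.trans_lt ?_
    rw [lt_div_iff₀ (by positivity)] at h1
    linarith
  obtain ⟨l, hl⟩ := cauchySeq_tendsto_of_complete hqc
  have key : ∀ η > 0, ‖⟪g, w⟫_ℂ‖ ^ 2 ≤ D * ((‖Ts w‖ + η * e) ^ 2 + (η * e) ^ 2 + l ^ 2) := by
    intro η hη
    obtain ⟨c, cg, cn, cq, cT, cTs, J, C, F1b, F1, F2b, F2, F2sb, F2s, F3⟩ := hcut η hη
    simp only at cg cn cT cTs F1b F1 F2b F2 F2sb F2s F3
    have hfix : ∀ N, Tendsto (fun k => J N (Ts (w - c' k))) atTop (𝓝 0) := by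
      intro N
      obtain ⟨m, s, e', hse⟩ := F3 N
      have h1 : (fun k => J N (Ts (w - c' k))) = fun k => ∑ l, ⟪T (s l), w - c' k⟫_ℂ • e' l := by
        funext k
        rw [hse]
        exact Finset.sum_congr rfl fun l _ => by rw [hadj]
      rw [h1]
      have h2 : Tendsto (fun k => ∑ l, ⟪T (s l), w - c' k⟫_ℂ • e' l) atTop
          (𝓝 (∑ l, (0 : ℂ) • e' l)) :=
        tendsto_finsetSum _ fun l _ => (horth _ (hTT (s l))).smul_const (e' l)
      simpa using h2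
    have hch : ∀ N : ℕ, ∃ k ≥ N, ‖J N (Ts (w - c' k))‖ < 1 / ((N : ℝ) + 1) := by
      intro N
      obtain ⟨n0, hn0⟩ := Metric.tendsto_atTop.1 (hfix N) (1 / ((N : ℝ) + 1)) (by positivity)
      refine ⟨max N n0, le_max_left _ _, ?_⟩
      have := hn0 (max N n0) (le_max_right _ _)
      rwa [dist_zero_right] at this
    choose φ hφ1 hφ2 using hch
    have hφ : Tendsto φ atTop atTop := tendsto_atTop_mono hφ1 tendsto_id
    set v : ℕ → S := fun N => c' (φ N) with hv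
    have hvc : CauchySeq v := hcc.comp_tendsto hφ
    have hTv : ∀ N, T (v N) = 0 := fun N => hcZ (φ N)
    have hve : Tendsto (fun N => ‖v N‖) atTop (𝓝 e) := he.comp hφ
    have F1' : ∀ u, Tendsto (fun N => J N u - c u) atTop (𝓝 0) := fun u =>
      tendsto_zero_iff_norm_tendsto_zero.2 (F1 u)
    have hcv : Tendsto (fun N => J N (v N) - c (v N)) atTop (𝓝 0) := by
      have h := tendsto_of_cauchy (fun N => J N - c) (C + 1)
        (fun N u => by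
          have h1 : ‖(J N - c : S →ₗ[ℂ] S) u‖ ≤ ‖J N u‖ + ‖c u‖ := by
            simpa using norm_sub_le (J N u) (c u)
          have h2 := F1b N u
          have h3 := cn u
          linarith)
        (fun u => by simpa using F1' u) v hvc
      simpa using h
    have comm : ∀ R : S →ₗ[ℂ] S, (∀ N u, ‖R (J N u) - J N (R u)‖ ≤ C * ‖u‖) →
        (∀ u, ‖R (c u) - c (R u)‖ ≤ η * ‖u‖) →
        (∀ u, Tendsto (fun N => ‖R (J N u) - R (c u)‖) atTop (𝓝 0)) →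
        Tendsto (fun N => ‖(R (J N (v N)) - J N (R (v N))) - (R (c (v N)) - c (R (v N)))‖) atTop
          (𝓝 0) := by
      intro R h1 h2 h3
      have h := tendsto_of_cauchy (fun N => (R ∘ₗ J N - J N ∘ₗ R) - (R ∘ₗ c - c ∘ₗ R)) (C + η)
        (fun N u => by
          have h4 := norm_sub_le (R (J N u) - J N (R u)) (R (c u) - c (R u))
          have h5 := h1 N u
          have h6 := h2 u
          simp only [LinearMap.sub_apply, LinearMap.comp_apply]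
          linarith)
        (fun u => by
          have h4 := (tendsto_zero_iff_norm_tendsto_zero.2 (h3 u)).sub (F1' (R u))
          rw [sub_zero] at h4
          refine h4.congr fun N => ?_
          simp only [LinearMap.sub_apply, LinearMap.comp_apply]
          abel) v hvc
      exact tendsto_zero_iff_norm_tendsto_zero.1 h
    have hT1 := comm T F2b cT F2
    have hTs := comm Ts F2sb cTs F2s
    have h2 : Tendsto (fun N => ‖J N (Ts (w - v N))‖) atTop (𝓝 0) :=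
      squeeze_zero (fun _ => norm_nonneg _) (fun N => (hφ2 N).le)
        tendsto_one_div_add_atTop_nhds_zero_nat
    have hgl : Tendsto (fun N => ⟪g, J N (v N)⟫_ℂ) atTop (𝓝 ⟪g, w⟫_ℂ) := by
      have h1 : Tendsto (fun N => ⟪g, J N (v N) - c (v N)⟫_ℂ) atTop (𝓝 ⟪g, (0 : S)⟫_ℂ) :=
        tendsto_const_nhds.inner hcv
      have h2 : Tendsto (fun N => ⟪g, w - v N⟫_ℂ) atTop (𝓝 0) := (horth g hg).comp hφ
      have h3 := (h1.sub h2).add_const ⟪g, w⟫_ℂ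
      rw [inner_zero_right, sub_zero, zero_add] at h3
      refine h3.congr fun N => ?_
      rw [inner_sub_right, inner_sub_right, cg]
      ring
    set β : ℕ → ℝ := fun N =>
      ‖(T (J N (v N)) - J N (T (v N))) - (T (c (v N)) - c (T (v N)))‖ + η * ‖v N‖ with hβ
    set α : ℕ → ℝ := fun N =>
      ‖(Ts (J N (v N)) - J N (Ts (v N))) - (Ts (c (v N)) - c (Ts (v N)))‖ + η * ‖v N‖ +
        ‖J N (Ts w) - c (Ts w)‖ + ‖Ts w‖ + ‖J N (Ts (w - v N))‖ with hα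
    set γ : ℕ → ℝ := fun N => Cq * ‖J N (v N) - c (v N)‖ + q (v N) with hγ
    have lβ : Tendsto β atTop (𝓝 (0 + η * e)) := hT1.add (hve.const_mul η)
    have lα : Tendsto α atTop (𝓝 (0 + η * e + 0 + ‖Ts w‖ + 0)) :=
      (((hTs.add (hve.const_mul η)).add (F1 (Ts w))).add_const _).add h2
    have lγ : Tendsto γ atTop (𝓝 (Cq * 0 + l)) :=
      ((tendsto_zero_iff_norm_tendsto_zero.1 hcv).const_mul Cq).add (hl.comp hφ)
    have hlim := le_of_tendsto_of_tendsto' (hgl.norm.pow 2)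
      ((((lα.pow 2).add (lβ.pow 2)).add (lγ.pow 2)).const_mul D) fun N => by
        refine (hG _).trans (mul_le_mul_of_nonneg_left ?_ hD)
        have b1 : ‖T (J N (v N))‖ ≤ β N := by
          have e1 : T (J N (v N)) = ((T (J N (v N)) - J N (T (v N))) -
              (T (c (v N)) - c (T (v N)))) + (T (c (v N)) - c (T (v N))) := by
            rw [hTv, map_zero]; abel
          conv_lhs => rw [e1]
          exact (norm_add_le _ _).trans (add_le_add le_rfl (cT _))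
        have b2 : ‖Ts (J N (v N))‖ ≤ α N := by
          have e1 : Ts (J N (v N)) = ((Ts (J N (v N)) - J N (Ts (v N))) -
              (Ts (c (v N)) - c (Ts (v N)))) + (Ts (c (v N)) - c (Ts (v N))) +
              (J N (Ts w) - c (Ts w)) + c (Ts w) - J N (Ts (w - v N)) := by
            rw [map_sub, map_sub]; abel
          conv_lhs => rw [e1]
          refine (norm_sub_le _ _).trans (add_le_add ((norm_add_le _ _).trans (add_le_add
            ((norm_add_le _ _).trans (add_le_add ((norm_add_le _ _).trans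
              (add_le_add le_rfl (cTs _))) le_rfl)) (cn _))) le_rfl)
        have b3 : q (J N (v N)) ≤ γ N := by
          have h3 := (abs_le.1 (hq (J N (v N)) (c (v N)))).2
          have h4 := cq (v N)
          simp only [hγ]
          linarith
        exact add_le_add (add_le_add (pow_le_pow_left₀ (norm_nonneg _) b2 2)
          (pow_le_pow_left₀ (norm_nonneg _) b1 2)) (pow_le_pow_left₀ (hq0 _) b3 2)
    refine hlim.trans (le_of_eq ?_)
    ring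
  have hmain : ‖⟪g, w⟫_ℂ‖ ^ 2 ≤ D * (‖Ts w‖ ^ 2 + l ^ 2) := by
    have h1 : Tendsto (fun η : ℝ => D * ((‖Ts w‖ + η * e) ^ 2 + (η * e) ^ 2 + l ^ 2)) (𝓝[>] 0)
        (𝓝 (D * ((‖Ts w‖ + 0 * e) ^ 2 + (0 * e) ^ 2 + l ^ 2))) :=
      tendsto_nhdsWithin_of_tendsto_nhds (Continuous.tendsto (by fun_prop) 0)
    have h2 := ge_of_tendsto h1 (eventually_nhdsWithin_of_forall fun η hη => key η hη)
    refine h2.trans (le_of_eq ?_)
    ring
  have e1 : ∀ᶠ N in atTop, ‖w - c' N‖ ^ 2 < d ^ 2 + τ :=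
    (hd.pow 2).eventually (eventually_lt_nhds (by linarith))
  have e2 : ∀ᶠ N in atTop, ‖c' N‖ ^ 2 < e ^ 2 + τ :=
    (he.pow 2).eventually (eventually_lt_nhds (by linarith))
  have e3 : ∀ᶠ N in atTop, D * (‖Ts w‖ ^ 2 + l ^ 2) - τ < D * (‖Ts w‖ ^ 2 + q (c' N) ^ 2) :=
    (((hl.pow 2).const_add (‖Ts w‖ ^ 2)).const_mul D).eventually
      (eventually_gt_nhds (by linarith))
  obtain ⟨N, h1, h2, h3⟩ := (e1.and (e2.and e3)).exists
  have hd0 : 0 ≤ d := ge_of_tendsto' hd fun k => norm_nonneg _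
  have he0 : 0 ≤ e := ge_of_tendsto' he fun k => norm_nonneg _
  refine ⟨c' N, hcZ N, fun z hz => ?_, ?_, by linarith⟩
  · have h4 := pow_le_pow_left₀ hd0 (hdle z hz) 2
    linarith
  · have h4 := pow_le_pow_left₀ he0 hele 2
    linarith

section core

variable {S : Type*} [AddCommGroup S] [Module ℂ S]

theorem nrm_add_le (c : InnerProductSpace.Core ℂ S) (u v : S) :
    nrm c (u + v) ≤ nrm c u + nrm c v := by
  letI : NormedAddCommGroup S := c.toNormedAddCommGroup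
  exact norm_add_le u v

theorem nrm_sub_le (c : InnerProductSpace.Core ℂ S) (u v : S) :
    nrm c (u - v) ≤ nrm c u + nrm c v := by
  letI : NormedAddCommGroup S := c.toNormedAddCommGroup
  exact norm_sub_le u v

theorem nrm_abs_sub (c : InnerProductSpace.Core ℂ S) (u v : S) :
    |nrm c u - nrm c v| ≤ nrm c (u - v) := by
  letI : NormedAddCommGroup S := c.toNormedAddCommGroup
  exact abs_norm_sub_norm_le u v

theorem nrm_sum_le (c : InnerProductSpace.Core ℂ S) {σ : Type*} (t : Finset σ) (u : σ → S) :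
    nrm c (∑ i ∈ t, u i) ≤ ∑ i ∈ t, nrm c (u i) := by
  letI : NormedAddCommGroup S := c.toNormedAddCommGroup
  exact norm_sum_le t u

/-- `proj_cut` for an inner product given by a `Core` -/
theorem proj_cut_core (c : InnerProductSpace.Core ℂ S)
    (T Ts : S →ₗ[ℂ] S) (hadj : ∀ u w, c.inner (T u) w = c.inner u (Ts w))
    (hTT : ∀ u, T (T u) = 0) (g : S) (hg : T g = 0) {D Cq : ℝ} (hD : 0 ≤ D) (q : S → ℝ)
    (hq0 : ∀ u, 0 ≤ q u) (hq : ∀ u v, |q u - q v| ≤ Cq * nrm c (u - v))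
    (hcut : CutP (nrm c) c.inner T Ts g q)
    (hG : ∀ v : S, ‖c.inner g v‖ ^ 2 ≤ D * (nrm c (Ts v) ^ 2 + nrm c (T v) ^ 2 + q v ^ 2))
    (w : S) {τ : ℝ} (hτ : 0 < τ) :
    ∃ y : S, T y = 0 ∧ (∀ z, T z = 0 → nrm c (w - y) ^ 2 ≤ nrm c (w - z) ^ 2 + τ) ∧
      nrm c y ^ 2 ≤ nrm c w ^ 2 + τ ∧
      ‖c.inner g w‖ ^ 2 ≤ D * (nrm c (Ts w) ^ 2 + q y ^ 2) + τ := by
  letI : NormedAddCommGroup S := c.toNormedAddCommGroup
  letI : InnerProductSpace ℂ S := .ofCore c.toCore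
  exact proj_cut T Ts hadj hTT g hg hD q hq0 hq hcut hG w hτ

/-- **Demailly's limit argument**, moving data `g μ` -/
theorem dem_mov (c : ℕ → InnerProductSpace.Core ℂ S) (T : S →ₗ[ℂ] S) (Ts : ℕ → S → S)
    (hadj : ∀ μ u w, (c μ).inner (T u) w = (c μ).inner u (Ts μ w))
    (mono : ∀ μ μ', μ ≤ μ' → ∀ u, nrm (c μ) u ≤ nrm (c μ') u)
    (R : ℕ → S → S) (hR : ∀ μ u w, (c μ).inner u (R μ w) = (c 0).inner u w)
    (g : ℕ → S) {D ε Cq : ℝ} (hD : 0 ≤ D) (hε : 0 ≤ ε) (hCq : 0 ≤ Cq) (q : ℕ → S → ℝ)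
    (hq : ∀ μ0 w, ∀ δ > 0, ∀ᶠ μ in atTop, ∀ v, q μ v ^ 2 ≤ ε * nrm (c μ) v ^ 2 + δ +
      Cq * (nrm (c μ) v ^ 2 - nrm (c μ0) v ^ 2) + Cq * nrm (c μ0) (v - w) ^ 2)
    (hproj : ∀ μ w, ∀ τ > 0, ∃ y : S, T y = 0 ∧
      (∀ z, T z = 0 → nrm (c μ) (w - y) ^ 2 ≤ nrm (c μ) (w - z) ^ 2 + τ) ∧
      nrm (c μ) y ^ 2 ≤ nrm (c μ) w ^ 2 + τ ∧
      ‖(c μ).inner (g μ) w‖ ^ 2 ≤ D * (nrm (c μ) (Ts μ w) ^ 2 + q μ y ^ 2) + τ) (w : S)
    {η : ℝ} (hη : 0 < η) : ∀ᶠ μ in atTop,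
    ‖(c 0).inner (g μ) w‖ ^ 2 ≤ D * (nrm (c 0) (Ts 0 w) ^ 2 + ε * nrm (c 0) w ^ 2) + η := by
  have hRw : ∀ μ, nrm (c μ) (R μ w) ≤ nrm (c 0) w := by
    intro μ
    refine le_of_sq_le_mul (nrm_nonneg _ _) (nrm_nonneg _ _) ?_
    rw [nrm_sq, hR]
    refine (Complex.re_le_norm _).trans ((nrm_cs _ _ _).trans ?_)
    exact mul_le_mul_of_nonneg_right (mono 0 μ (Nat.zero_le _) _) (nrm_nonneg _ _)
  have hTsw : ∀ μ, nrm (c μ) (Ts μ (R μ w)) ≤ nrm (c 0) (Ts 0 w) := by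
    intro μ
    refine le_of_sq_le_mul (nrm_nonneg _ _) (nrm_nonneg _ _) ?_
    rw [nrm_sq, ← hadj, hR, hadj]
    refine (Complex.re_le_norm _).trans ((nrm_cs _ _ _).trans ?_)
    exact mul_le_mul_of_nonneg_right (mono 0 μ (Nat.zero_le _) _) (nrm_nonneg _ _)
  set F : ℕ → S → ℝ := fun μ v => 2 * ((c 0).inner v w).re - nrm (c μ) v ^ 2 with hF
  have hFd : ∀ μ v, nrm (c μ) (R μ w - v) ^ 2 = nrm (c μ) (R μ w) ^ 2 - F μ v := by
    intro μ v
    rw [nrm_sub_sq, hR, hF]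
    ring
  have hFle : ∀ μ v, F μ v ≤ nrm (c 0) w ^ 2 := by
    intro μ v
    have h1 := hFd μ v
    have h2 := pow_le_pow_left₀ (nrm_nonneg _ _) (hRw μ) 2
    nlinarith [sq_nonneg (nrm (c μ) (R μ w - v))]
  have hFmono : ∀ μ μ', μ ≤ μ' → ∀ v, F μ' v ≤ F μ v := by
    intro μ μ' h v
    have h2 := pow_le_pow_left₀ (nrm_nonneg _ _) (mono μ μ' h v) 2
    simp only [hF]
    linarith
  set a : ℕ → ℝ := fun μ => sSup (F μ '' {v | T v = 0}) with ha
  have hbdd : ∀ μ, BddAbove (F μ '' {v | T v = 0}) := fun μ =>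
    ⟨nrm (c 0) w ^ 2, by rintro _ ⟨v, -, rfl⟩; exact hFle μ v⟩
  have hne : ∀ μ, (F μ '' {v | T v = 0}).Nonempty := fun μ => ⟨_, 0, map_zero T, rfl⟩
  have hFa : ∀ μ v, T v = 0 → F μ v ≤ a μ := fun μ v hv => le_csSup (hbdd μ) ⟨v, hv, rfl⟩
  have ha0 : ∀ μ, 0 ≤ a μ := by
    intro μ
    refine le_trans (le_of_eq ?_) (hFa μ 0 (map_zero T))
    have h1 : (c 0).inner 0 w = 0 := by
      have h2 := (c 0).smul_left 0 w 0
      rwa [zero_smul, map_zero, zero_mul] at h2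
    have h3 : (c μ).inner 0 0 = 0 := by
      have h2 := (c μ).smul_left 0 0 0
      rwa [zero_smul, map_zero, zero_mul] at h2
    simp only [hF]
    rw [nrm_sq, h1, h3]
    simp
  set δ : ℝ := η / (D * (ε + 1 + 8 * Cq) + 1) with hδ
  have hden : 0 < D * (ε + 1 + 8 * Cq) + 1 := by positivity
  have hδ0 : 0 < δ := div_pos hη hden
  obtain ⟨μ0, hμ0⟩ : ∃ μ0, ∀ μ, a μ0 ≤ a μ + δ := by
    have hb : BddBelow (Set.range a) := ⟨0, by rintro _ ⟨μ, rfl⟩; exact ha0 μ⟩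
    obtain ⟨_, ⟨μ0, rfl⟩, h1⟩ := exists_lt_of_csInf_lt (Set.range_nonempty a)
      (show sInf (Set.range a) < sInf (Set.range a) + δ by linarith)
    exact ⟨μ0, fun μ => by linarith [csInf_le hb ⟨μ, rfl⟩]⟩
  obtain ⟨_, ⟨c0, hc0, rfl⟩, hc0a⟩ := exists_lt_of_lt_csSup (hne μ0)
    (show a μ0 - δ < sSup (F μ0 '' {v | T v = 0}) by simp only [ha]; linarith)
  filter_upwards [eventually_ge_atTop μ0, hq μ0 c0 δ hδ0] with μ hμ hμq
  obtain ⟨y, hy0, hy1, hy2, hy3⟩ := hproj μ (R μ w) δ hδ0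
  have hya : a μ ≤ F μ y + δ := by
    refine csSup_le (hne μ) ?_
    rintro _ ⟨z, hz, rfl⟩
    have h1 := hy1 z hz
    rw [hFd, hFd] at h1
    linarith
  have k1 : nrm (c μ) y ^ 2 - nrm (c μ0) y ^ 2 ≤ 2 * δ := by
    have h1 := hFa μ0 y hy0
    have h2 := hμ0 μ
    simp only [hF] at h1 hya
    linarith
  have k2 : nrm (c μ0) (y - c0) ^ 2 ≤ 6 * δ := by
    have h1 := hFa μ0 ((1 / 2 : ℂ) • (y + c0)) (by
      have h0 : T c0 = 0 := hc0
      rw [map_smul, map_add, hy0, h0, add_zero, smul_zero])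
    have h2 := hFmono μ0 μ hμ y
    have h3 := hμ0 μ
    simp only [hF] at h1 h2 hya hc0a
    rw [nrm_mid, inner_mid] at h1
    linarith
  have k3 := hμq y
  have k4 := pow_le_pow_left₀ (nrm_nonneg _ _) (hRw μ) 2
  have k5 := pow_le_pow_left₀ (nrm_nonneg _ _) (hTsw μ) 2
  have k6 : q μ y ^ 2 ≤ ε * nrm (c 0) w ^ 2 + δ * (ε + 1 + 8 * Cq) := by
    have h1 : ε * nrm (c μ) y ^ 2 ≤ ε * (nrm (c 0) w ^ 2 + δ) :=
      mul_le_mul_of_nonneg_left (by linarith) hε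
    have h2 := mul_le_mul_of_nonneg_left k1 hCq
    have h3 := mul_le_mul_of_nonneg_left k2 hCq
    nlinarith
  rw [hR] at hy3
  have k7 : D * (nrm (c μ) (Ts μ (R μ w)) ^ 2 + q μ y ^ 2) ≤
      D * (nrm (c 0) (Ts 0 w) ^ 2 + ε * nrm (c 0) w ^ 2 + δ * (ε + 1 + 8 * Cq)) :=
    mul_le_mul_of_nonneg_left (by linarith) hD
  have k8 : δ * (D * (ε + 1 + 8 * Cq) + 1) = η := div_mul_cancel₀ _ hden.ne'
  nlinarith

end core

end Crest.Agent.X261.Hs
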