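import Crest.Agent.X261.Hs.A
import Crest.Agent.R273.MolF_106
import Crest.Agent.T223.HmB_61

/-!
# X261 / Hs (helper68): compactly supported sections on a non-compact manifold

* `CS B` : compactly supported smooth sections; `pf`, `pq` : pointwise pairing and length;
* `core vol h hp hρ` : the inner product `∫ ρ ⟨u, w⟩` for a measurable weight `ρ`;
* `nrm_ext_le`, `nv_loc_le` : comparison with the torus norms in one chart.
-/

set_option autoImplicit false
set_option linter.unusedSectionVars false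
set_option linter.style.haveILetI false

open Set Filter Topology Complex MeasureTheory
open scoped ContDiff Matrix ComplexConjugate ComplexOrder

namespace Crest.Agent.X261.Hs

open Crest.Agent.R275 Crest.Agent.R275.Geo Crest.Agent.R275.Tor812 Crest.Agent.R275.TorS666
  Crest.Agent.R275.C1d194 Crest.Agent.R275.Pai323 Crest.Agent.R275.Core144
open Crest.Agent.R275.SerG398 (lint dens)
open Crest.Agent.R273.Defs_333 Crest.Agent.R273.Vm_333 Crest.Agent.R273.L2K_774
  Crest.Agent.R273.NormC_505 Crest.Agent.R273.Mol_106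
open Crest.Agent.R273.StV_37 (IsD tot tot_loc)
open Crest.Agent.T223.Hm (gl ix ix_mem Cs gl_eq gl_sm integrable_of_sm integral_gl)
open Crest.Agent.X277.AN.Horm (nrm_sq)

noncomputable section

variable {n : ℕ} {M : Type} [TopologicalSpace M] {A : Atl n M} {B B' : FBun A}

/-- the norm of an inner product core -/
abbrev nr {S : Type*} [AddCommGroup S] [Module ℂ S] (c : InnerProductSpace.Core ℂ S) (u : S) : ℝ :=
  R273.AbsStep392.nrm c u

/-- compactly supported smooth sections -/
def CS (B : FBun A) : Submodule ℂ (Sec B) where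
  carrier := {u | Cs u.1}
  add_mem' := by
    rintro u v ⟨K, hK, h1⟩ ⟨L, hL, h2⟩
    refine ⟨K ∪ L, hK.union hL, fun i x hx => ?_⟩
    simp only [mem_union, not_or] at hx
    show u.1 i x + v.1 i x = 0
    rw [h1 i x hx.1, h2 i x hx.2, add_zero]
  zero_mem' := ⟨∅, isCompact_empty, fun _ _ _ => rfl⟩
  smul_mem' := by
    rintro c u ⟨K, hK, h1⟩
    refine ⟨K, hK, fun i x hx => ?_⟩
    show c • u.1 i x = 0
    rw [h1 i x hx, smul_zero]

theorem ext_mem_CS {κ : Type} [Fintype κ] {j : A.ι} {b : M → Matrix B.κ κ ℂ} (hb : IsAmp A j b)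
    (f : κ → SPer (RI n)) : extS B j hb f ∈ CS B :=
  ⟨tsupport b, hb.cpt, fun _ _ hx => ext_zero_off B j hx f⟩

/-- extension from one chart, into the compactly supported sections -/
def extC {κ : Type} [Fintype κ] {j : A.ι} {b : M → Matrix B.κ κ ℂ} (hb : IsAmp A j b) :
    (κ → SPer (RI n)) →ₗ[ℂ] CS B := (extS B j hb).codRestrict (CS B) (ext_mem_CS hb)

/-- localisation in one chart -/
def locC {κ : Type} [Fintype κ] {j : A.ι} {a : M → Matrix κ B.κ ℂ} (ha : IsAmp A j a) :
    CS B →ₗ[ℂ] (κ → SPer (RI n)) := C1c193.locL B j a ha ∘ₗ (CS B).subtype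

theorem fop_mem [T2Space M] (T : FOp B B') {u : Sec B} (hu : u ∈ CS B) : T.T u ∈ CS B' := by
  obtain ⟨K, hK, h0⟩ := hu
  refine ⟨K, hK, fun i x hx => ?_⟩
  by_cases hi : x ∈ (A.e i).source
  · have hev : u.1 i =ᶠ[𝓝 x] fun _ => 0 := by
      filter_upwards [hK.isClosed.isOpen_compl.mem_nhds hx] with y hy
      exact h0 i y hy
    rw [T.hT u i x hi, h0 i x hx, Matrix.mulVec_zero, add_zero]
    refine Finset.sum_eq_zero fun p _ => ?_
    rw [pdM_congr hi hev, pdM_const, Matrix.mulVec_zero]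
  · exact (T.T u).2.2.1 i x hi

/-- a first order operator on the compactly supported sections -/
def fopC [T2Space M] (T : FOp B B') : CS B →ₗ[ℂ] CS B' :=
  (T.T ∘ₗ (CS B).subtype).codRestrict (CS B') fun u => fop_mem T u.2

/-- multiplication by a smooth function -/
def mulC (B : FBun A) {f : M → ℂ} (hf : A.Sm f) : CS B →ₗ[ℂ] CS B where
  toFun u := ⟨⟨fmul f u.1.1, fmul_mem B hf u.1.2⟩, by
    obtain ⟨K, hK, h0⟩ := u.2
    refine ⟨K, hK, fun i x hx => ?_⟩
    show f x • u.1.1 i x = 0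
    rw [h0 i x hx, smul_zero]⟩
  map_add' u v := Subtype.ext (Subtype.ext (funext fun i => funext fun x =>
    smul_add (f x) (u.1.1 i x) (v.1.1 i x)))
  map_smul' c u := Subtype.ext (Subtype.ext (funext fun i => funext fun x =>
    smul_comm (f x) c (u.1.1 i x)))

theorem mulC_apply {f : M → ℂ} (hf : A.Sm f) (u : CS B) (i : A.ι) (x : M) :
    (mulC B hf u).1.1 i x = f x • u.1.1 i x := rfl

variable [Countable A.ι] (vol : HM (KB A)⁻¹) (h : HDen B)

theorem hd_isD (u w : Sec B) : IsD A (h.hd u.1 w.1) :=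
  ⟨(h.isDn u.2 w.2).sm, (h.isDn u.2 w.2).tr⟩

/-- the pointwise pairing -/
def pf (u w : Sec B) (x : M) : ℂ := gl vol (h.hd u.1 w.1) x

/-- the pointwise squared length -/
def pq (u : Sec B) (x : M) : ℝ := (pf vol h u u x).re

theorem pf_def (u w : Sec B) (x : M) : pf vol h u w x =
    ((vol.w (ix A x) x)⁻¹ : ℝ) * (star (u.1 (ix A x) x) ⬝ᵥ (h.H (ix A x) x *ᵥ w.1 (ix A x) x)) :=
  Complex.real_smul

theorem pf_eq (u w : Sec B) {i : A.ι} {x : M} (hx : x ∈ (A.e i).source) :
    pf vol h u w x = (vol.w i x : ℂ)⁻¹ * h.hd u.1 w.1 i x := gl_eq (hd_isD h u w).tr hx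

theorem pq_eq (u : Sec B) {i : A.ι} {x : M} (hx : x ∈ (A.e i).source) :
    pq vol h u x = (vol.w i x)⁻¹ * (h.hd u.1 u.1 i x).re := by
  rw [pq, pf_eq vol h u u hx, ← Complex.ofReal_inv, Complex.re_ofReal_mul]

theorem pf_sm (u w : Sec B) : A.Sm (pf vol h u w) := gl_sm (hd_isD h u w)

theorem pf_cont (u w : Sec B) : Continuous (pf vol h u w) := continuous_of_sm (pf_sm vol h u w)

theorem pq_cont (u : Sec B) : Continuous (pq vol h u) :=
  Complex.continuous_re.comp (pf_cont vol h u u)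

theorem pf_conj (u w : Sec B) (x : M) : conj (pf vol h u w x) = pf vol h w u x := by
  rw [pf_eq vol h u w (ix_mem x), pf_eq vol h w u (ix_mem x), map_mul, map_inv₀,
    Complex.conj_ofReal, h.hd_conj _ _ (ix_mem x)]

theorem pf_add_left (u u' w : Sec B) (x : M) :
    pf vol h (u + u') w x = pf vol h u w x + pf vol h u' w x := by
  simp only [pf_def, Submodule.coe_add, Pi.add_apply, star_add, add_dotProduct, mul_add]

theorem pf_smul_left (c : ℂ) (u w : Sec B) (x : M) :
    pf vol h (c • u) w x = conj c * pf vol h u w x := by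
  simp only [pf_def, Submodule.coe_smul, Pi.smul_apply, star_smul, smul_dotProduct, smul_eq_mul,
    Complex.star_def]
  ring

theorem pf_zero_left {u : Sec B} (w : Sec B) {x : M} (h0 : ∀ i, u.1 i x = 0) :
    pf vol h u w x = 0 := by
  rw [pf_def, h0, star_zero, zero_dotProduct, mul_zero]

theorem pf_zero_right (u : Sec B) {w : Sec B} {x : M} (h0 : ∀ i, w.1 i x = 0) :
    pf vol h u w x = 0 := by
  rw [pf_def, h0, Matrix.mulVec_zero, dotProduct_zero, mul_zero]

theorem pq_nonneg (u : Sec B) (x : M) : 0 ≤ pq vol h u x := by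
  rw [pq_eq vol h u (ix_mem x)]
  exact mul_nonneg (inv_pos.2 (vol.pos _ x (ix_mem x))).le
    (Complex.le_def.1 (h.hd_self_nonneg u.1 (ix_mem x))).1

theorem pf_self (u : Sec B) (x : M) : pf vol h u u x = (pq vol h u x : ℂ) :=
  (Complex.conj_eq_iff_re.1 (pf_conj vol h u u x)).symm

theorem pq_mul {f : M → ℂ} (hf : A.Sm f) (u : CS B) (x : M) :
    pq vol h (mulC B hf u).1 x = ‖f x‖ ^ 2 * pq vol h u.1 x := by
  rw [pq_eq vol h _ (ix_mem x), pq_eq vol h _ (ix_mem x)]
  have h1 : h.hd (mulC B hf u).1.1 (mulC B hf u).1.1 (ix A x) x =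
      ((‖f x‖ ^ 2 : ℝ) : ℂ) * h.hd u.1.1 u.1.1 (ix A x) x := hform_smul _ _ _
  rw [h1, Complex.re_ofReal_mul]
  ring

theorem pf_mul_right {f : M → ℂ} (hf : A.Sm f) (u : Sec B) (w : CS B) (x : M) :
    pf vol h u (mulC B hf w).1 x = f x * pf vol h u w.1 x := by
  rw [pf_def, pf_def, mulC_apply, Matrix.mulVec_smul, dotProduct_smul, smul_eq_mul]
  ring

theorem pq_add_le (u v : Sec B) (x : M) :
    pq vol h (u + v) x ≤ 2 * pq vol h u x + 2 * pq vol h v x := by
  have h0 := pq_nonneg vol h (u - v) x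
  have key : pq vol h (u + v) x + pq vol h (u - v) x = 2 * pq vol h u x + 2 * pq vol h v x := by
    simp only [pq, pf_def, Submodule.coe_add, Submodule.coe_sub, Pi.add_apply, Pi.sub_apply,
      star_add, star_sub, Matrix.mulVec_add, Matrix.mulVec_sub, add_dotProduct, sub_dotProduct,
      dotProduct_add, dotProduct_sub, Complex.re_ofReal_mul, Complex.add_re, Complex.sub_re]
    ring
  linarith

variable [T2Space M] [MeasurableSpace M] [BorelSpace M]

/-- admissible weights -/
structure Wg (ρ : M → ℝ) : Prop where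
  meas : Measurable ρ
  pos : ∀ x, 0 < ρ x
  bdd : ∀ K, IsCompact K → ∃ C, ∀ x ∈ K, ρ x ≤ C

theorem wg_one : Wg (fun _ : M => (1 : ℝ)) :=
  ⟨measurable_const, fun _ => one_pos, fun _ _ => ⟨1, fun _ _ => le_rfl⟩⟩

theorem integrable_wt {W : Type} [NormedAddCommGroup W] [NormedSpace ℝ W] {ρ : M → ℝ}
    (hm : Measurable ρ) (h0 : ∀ x, 0 ≤ ρ x) (hb : ∀ K, IsCompact K → ∃ C, ∀ x ∈ K, ρ x ≤ C)
    {f : M → W} (hf : Continuous f) {K : Set M} (hK : IsCompact K) (hz : ∀ x ∉ K, f x = 0) :
    Integrable (fun x => ρ x • f x) (vm vol) := by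
  have := isLocallyFinite_vm vol
  obtain ⟨C, hC⟩ := hb K hK
  have hi : Integrable f (vm vol) :=
    hf.integrable_of_hasCompactSupport (HasCompactSupport.intro hK hz)
  refine (hi.norm.const_mul C).mono' (hm.aestronglyMeasurable.smul hi.1)
    (Eventually.of_forall fun x => ?_)
  by_cases hx : x ∈ K
  · rw [norm_smul, Real.norm_of_nonneg (h0 x)]
    exact mul_le_mul_of_nonneg_right (hC x hx) (norm_nonneg _)
  · rw [hz x hx, smul_zero, norm_zero, mul_zero]

theorem integrable_pf {ρ : M → ℝ} (hρ : Wg ρ) (u w : CS B) :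
    Integrable (fun x => (ρ x : ℂ) * pf vol h u.1 w.1 x) (vm vol) := by
  obtain ⟨K, hK, h0⟩ := u.2
  have := integrable_wt vol hρ.meas (fun x => (hρ.pos x).le) hρ.bdd (pf_cont vol h u.1 w.1) hK
    fun x hx => pf_zero_left vol h _ fun i => h0 i x hx
  simpa only [Complex.real_smul] using this

theorem integrable_pq {ρ : M → ℝ} (hm : Measurable ρ) (h0 : ∀ x, 0 ≤ ρ x)
    (hb : ∀ K, IsCompact K → ∃ C, ∀ x ∈ K, ρ x ≤ C) (u : CS B) :
    Integrable (fun x => ρ x * pq vol h u.1 x) (vm vol) := by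
  obtain ⟨K, hK, hz⟩ := u.2
  exact integrable_wt vol hm h0 hb (pq_cont vol h u.1) hK fun x hx => by
    rw [pq, pf_zero_left vol h _ fun i => hz i x hx, Complex.zero_re]

/-- the weighted inner product -/
def ipw (ρ : M → ℝ) (u w : CS B) : ℂ := ∫ x, (ρ x : ℂ) * pf vol h u.1 w.1 x ∂(vm vol)

theorem ipw_self (ρ : M → ℝ) (u : CS B) :
    ipw vol h ρ u u = ((∫ x, ρ x * pq vol h u.1 x ∂(vm vol) : ℝ) : ℂ) := by
  rw [ipw, ← integral_complex_ofReal]
  refine integral_congr_ae (Eventually.of_forall fun x => ?_)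
  simp only [pf_self]
  push_cast
  rfl

/-- the inner product space core -/
@[reducible] def core (hp : h.Pos) {ρ : M → ℝ} (hρ : Wg ρ) : InnerProductSpace.Core ℂ (CS B) where
  inner u w := ipw vol h ρ u w
  conj_inner_symm u w := by
    show conj (ipw vol h ρ w u) = ipw vol h ρ u w
    rw [ipw, ipw, ← integral_conj]
    refine integral_congr_ae (Eventually.of_forall fun x => ?_)
    simp only [map_mul, Complex.conj_ofReal, pf_conj]
  re_inner_nonneg u := by
    show 0 ≤ (ipw vol h ρ u u).re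
    rw [ipw_self, Complex.ofReal_re]
    exact integral_nonneg fun x => mul_nonneg (hρ.pos x).le (pq_nonneg vol h _ x)
  add_left u u' w := by
    show ipw vol h ρ (u + u') w = ipw vol h ρ u w + ipw vol h ρ u' w
    rw [ipw, ipw, ipw, ← integral_add (integrable_pf vol h hρ u w) (integrable_pf vol h hρ u' w)]
    refine integral_congr_ae (Eventually.of_forall fun x => ?_)
    simp only [Submodule.coe_add, pf_add_left, mul_add]
  smul_left u w c := by
    show ipw vol h ρ (c • u) w = conj c * ipw vol h ρ u w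
    rw [ipw, ipw, ← integral_const_mul]
    refine integral_congr_ae (Eventually.of_forall fun x => ?_)
    simp only [Submodule.coe_smul, pf_smul_left]
    ring
  definite u hu := by
    have h1 : ipw vol h ρ u u = 0 := hu
    rw [ipw_self, Complex.ofReal_eq_zero, integral_eq_zero_iff_of_nonneg
      (fun x => mul_nonneg (hρ.pos x).le (pq_nonneg vol h _ x))
      (integrable_pq vol h hρ.meas (fun x => (hρ.pos x).le) hρ.bdd u)] at h1
    have := isOpenPos_vm vol
    have h2 : pq vol h u.1 =ᵐ[vm vol] fun _ => 0 := by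
      filter_upwards [h1] with x hx
      exact (mul_eq_zero.1 hx).resolve_left (hρ.pos x).ne'
    have h3 := (Continuous.ae_eq_iff_eq _ (pq_cont vol h u.1) continuous_const).1 h2
    apply Subtype.ext
    apply Subtype.ext
    funext i x
    by_cases hx : x ∈ (A.e i).source
    · have h4 := congrFun h3 x
      rw [pq_eq vol h _ hx] at h4
      have h5 := (mul_eq_zero.1 h4).resolve_left (inv_pos.2 (vol.pos i x hx)).ne'
      by_contra hne
      have h6 := (Complex.lt_def.1 ((hp i x hx).dotProduct_mulVec_pos (x := u.1.1 i x) hne)).1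
      exact h6.ne' h5
    · exact u.1.2.2.1 i x hx

theorem nrm_core_sq (hp : h.Pos) {ρ : M → ℝ} (hρ : Wg ρ) (u : CS B) :
    nr (core vol h hp hρ) u ^ 2 = ∫ x, ρ x * pq vol h u.1 x ∂(vm vol) := by
  rw [nrm_sq]
  show (ipw vol h ρ u u).re = _
  rw [ipw_self, Complex.ofReal_re]

theorem nrm_le_of_pt (hp : h.Pos) {ρ : M → ℝ} (hρ : Wg ρ) {h' : HDen B'} (hp' : h'.Pos)
    {ρ' : M → ℝ} (hρ' : Wg ρ') {u : CS B} {u' : CS B'} {C : ℝ} (hC : 0 ≤ C)
    (hle : ∀ x, ρ x * pq vol h u.1 x ≤ C ^ 2 * (ρ' x * pq vol h' u'.1 x)) :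
    nr (core vol h hp hρ) u ≤ C * nr (core vol h' hp' hρ') u' := by
  refine (abs_le_of_sq_le_sq' ?_ (mul_nonneg hC (X277.AN.Horm.nrm_nonneg _ _))).2
  rw [mul_pow, nrm_core_sq, nrm_core_sq, ← integral_const_mul]
  exact integral_mono (integrable_pq vol h hρ.meas (fun x => (hρ.pos x).le) hρ.bdd u)
    ((integrable_pq vol h' hρ'.meas (fun x => (hρ'.pos x).le) hρ'.bdd u').const_mul _) hle

/-- the norm without weight -/
abbrev c1 (hp : h.Pos) : InnerProductSpace.Core ℂ (CS B) := core vol h hp wg_one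

theorem nrm_c1_sq (hp : h.Pos) (u : CS B) :
    nr (c1 vol h hp) u ^ 2 = ∫ x, pq vol h u.1 x ∂(vm vol) := by
  rw [nrm_core_sq]
  simp only [one_mul]

theorem c1_inner (hp : h.Pos) (u w : CS B) :
    (c1 vol h hp).inner u w = ∫ x, pf vol h u.1 w.1 x ∂(vm vol) := by
  show ipw vol h _ u w = _
  simp only [ipw, Complex.ofReal_one, one_mul]

theorem integrable_pq1 (u : CS B) : Integrable (pq vol h u.1) (vm vol) := by
  have := integrable_pq vol h wg_one.meas (fun x => (wg_one.pos x).le) wg_one.bdd u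
  simpa only [one_mul] using this

theorem setInt_pq (u : Sec B) (j : A.ι) :
    ∫ x in (A.e j).source, pq vol h u x ∂(vm vol) =
      ∫ y in Ui A j, (h.hd u.1 u.1 j (sg A j y)).re := by
  rw [setIntegral_vm vol j (pq_cont vol h u).aestronglyMeasurable]
  refine setIntegral_congr_fun (C1d194.isOpen_Ui j).measurableSet fun y hy => ?_
  have h1 := vol.pos j _ (sg_mem hy)
  simp only [smul_eq_mul]
  rw [pq_eq vol h u (sg_mem hy), mul_inv_cancel_left₀ h1.ne']

theorem sum_sq_le_nv {κ : Type} [Fintype κ] (f : κ → SPer (RI n)) :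
    ∑ k, nrm 0 (f k) ^ 2 ≤ nv 0 f ^ 2 :=
  Finset.sum_sq_le_sq_sum_of_nonneg fun _ _ => nrm_nonneg _ _

/-- the extension from one chart is bounded -/
theorem nrm_ext_le (hp : h.Pos) {κ : Type} [Fintype κ] {j : A.ι} {b : M → Matrix B.κ κ ℂ}
    (hb : IsAmp A j b) : ∃ C, 0 ≤ C ∧ ∀ f, nr (c1 vol h hp) (extC hb f) ≤ C * nv 0 f := by
  obtain ⟨C, hC0, hC⟩ := exists_upper (H := fun x => (b x)ᴴ * h.H j x * b x) hb.cpt fun k l =>
    (continuousOn_of_smAt (FOp.smAt_matmul (m := fun x => (b x)ᴴ * h.H j x)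
      (FOp.smAt_matmul (m := fun x => (b x)ᴴ) (fun k l =>
        Complex.conjCLE.contDiff.comp_contDiffOn (hb.sm l k)) (h.sm j)) hb.sm k l)).mono hb.sub
  refine ⟨Real.sqrt C, Real.sqrt_nonneg _, fun f => ?_⟩
  refine (abs_le_of_sq_le_sq' ?_ (mul_nonneg (Real.sqrt_nonneg _) (nv_nonneg _ _))).2
  rw [mul_pow, Real.sq_sqrt hC0, nrm_c1_sq,
    ← setIntegral_eq_integral_of_forall_compl_eq_zero (s := (A.e j).source) fun x hx => by
      rw [pq, pf_zero_left vol h _ fun i => ext_off' B j hx b f, Complex.zero_re],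
    setInt_pq]
  have hk : ∀ k, IntegrableOn (fun y => ‖f k y‖ ^ 2) (box (0 : RI n → ℝ)) := fun k => by
    have h1 : Continuous fun y => ‖f k y‖ ^ 2 := ((f k).2.1.continuous.norm).pow 2
    refine (h1.continuousOn.integrableOn_compact (isCompact_Icc (a := 0) (b := 1))).mono_set ?_
    intro y hy
    exact ⟨fun p => (hy p).1.le, fun p => by simpa using (hy p).2⟩
  have hsub : Ui A j ⊆ box (0 : RI n → ℝ) := (Ui_sub j).trans Qo_subset_box
  have hs : IntegrableOn (fun y => C * ∑ k, ‖f k y‖ ^ 2) (box (0 : RI n → ℝ)) :=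
    (integrable_finsetSum _ fun k _ => hk k).const_mul C
  have h1 : ∫ y in Ui A j, (h.hd (extC hb f).1.1 (extC hb f).1.1 j (sg A j y)).re ≤
      ∫ y in Ui A j, C * ∑ k, ‖f k y‖ ^ 2 := by
    refine integral_mono_of_nonneg ?_ (hs.mono_set hsub) ?_
    · refine (ae_restrict_iff' (C1d194.isOpen_Ui j).measurableSet).2
        (Eventually.of_forall fun y hy => ?_)
      exact (Complex.le_def.1 (h.hd_self_nonneg _ (sg_mem hy))).1
    · refine (ae_restrict_iff' (C1d194.isOpen_Ui j).measurableSet).2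
        (Eventually.of_forall fun y hy => ?_)
      have e1 : (extC hb f).1.1 j (sg A j y) = b (sg A j y) *ᵥ fun l => f l y := by
        refine (ext_self B j (sg_mem hy) b f).trans ?_
        rw [sg, (A.e j).right_inv hy, rc_cc]
      show Complex.re (star _ ⬝ᵥ (_ *ᵥ _)) ≤ _
      rw [e1]
      by_cases hx : sg A j y ∈ tsupport b
      · have h2 := hC _ hx fun l => f l y
        rwa [← Matrix.mulVec_mulVec, ← Matrix.mulVec_mulVec, Matrix.dotProduct_mulVec,
          ← Matrix.star_mulVec] at h2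
      · rw [amp_zero hx, Matrix.zero_mulVec, star_zero, zero_dotProduct, Complex.zero_re]
        positivity
  refine h1.trans ((setIntegral_mono_set hs (Eventually.of_forall fun y => by positivity)
    hsub.eventuallyLE).trans ?_)
  rw [integral_const_mul, integral_finsetSum _ fun k _ => hk k]
  refine mul_le_mul_of_nonneg_left (le_trans (le_of_eq ?_) (sum_sq_le_nv f)) hC0
  exact Finset.sum_congr rfl fun k _ => (nrm_zero_sq (f k)).symm

/-- the localisation in one chart is bounded -/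
theorem nv_loc_le (hp : h.Pos) {κ : Type} [Fintype κ] {j : A.ι} {a : M → Matrix κ B.κ ℂ}
    (ha : IsAmp A j a) : ∃ C, 0 ≤ C ∧ ∀ u, nv 0 (locC ha u) ≤ C * nr (c1 vol h hp) u := by
  obtain ⟨C, hC0, hC⟩ := exists_upper (H := fun x => (a x)ᴴ * a x) ha.cpt fun k l =>
    (continuousOn_of_smAt (FOp.smAt_matmul (m := fun x => (a x)ᴴ) (fun k l =>
        Complex.conjCLE.contDiff.comp_contDiffOn (ha.sm l k)) ha.sm k l)).mono ha.sub
  obtain ⟨c, hc0, hc⟩ := exists_lower ha.cpt (fun k l =>
    (continuousOn_of_smAt (h.sm j k l)).mono ha.sub) fun x hx => hp j x (ha.sub hx)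
  have hD : 0 ≤ C / c := div_nonneg hC0 hc0.le
  refine ⟨Fintype.card κ * Real.sqrt (C / c), by positivity, fun u => ?_⟩
  have hk : ∀ k, nrm 0 (locC ha u k) ≤ Real.sqrt (C / c) * nr (c1 vol h hp) u := by
    intro k
    refine (abs_le_of_sq_le_sq' ?_ (mul_nonneg (Real.sqrt_nonneg _)
      (X277.AN.Horm.nrm_nonneg _ _))).2
    have e0 : locC ha u k = loc A j a (u.1.1 j) k := rfl
    rw [mul_pow, Real.sq_sqrt hD, nrm_c1_sq, e0, nrm_zero_sq, loc_eq ha (u.1.2.1 j), l2_perz,
      ← setIntegral_eq_integral_of_forall_compl_eq_zero (s := Ui A j) fun y hy => by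
        rw [C1d194.rd_off hy, norm_zero, sq, mul_zero]]
    set G : M → ℝ := fun x => (vol.w j x)⁻¹ * ‖(a x *ᵥ u.1.1 j x) k‖ ^ 2 with hG
    have hGc : Continuous G := by
      refine ContinuousOn.continuous_of_tsupport_subset ?_ (A.e j).open_source
        ((closure_minimal (fun x hx => ?_) (isClosed_tsupport a)).trans ha.sub)
      · refine ((continuousOn_of_smAt (vol.sm j)).inv₀ fun x hx => (vol.pos j x hx).ne').mul ?_
        refine (ContinuousOn.norm (continuousOn_of_smAt (i := j) ?_)).pow 2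
        exact ContDiffOn.sum fun l _ => (ha.sm k l).mul (u.1.2.1 j l)
      · by_contra hx'
        refine hx ?_
        simp only [hG]
        rw [amp_zero hx', Matrix.zero_mulVec, Pi.zero_apply, norm_zero, sq, mul_zero, mul_zero]
    have e1 : ∫ y in Ui A j, ‖rd A j (fun x => (a x *ᵥ u.1.1 j x) k) y‖ ^ 2 =
        ∫ x in (A.e j).source, G x ∂(vm vol) := by
      rw [setIntegral_vm vol j hGc.aestronglyMeasurable]
      refine setIntegral_congr_fun (C1d194.isOpen_Ui j).measurableSet fun y hy => ?_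
      have h1 := vol.pos j _ (sg_mem hy)
      simp only [smul_eq_mul, hG]
      rw [C1d194.rd_of_mem hy, mul_inv_cancel_left₀ h1.ne']
      rfl
    have h1 : ∫ x in (A.e j).source, pq vol h u.1 x ∂(vm vol) ≤ ∫ x, pq vol h u.1 x ∂(vm vol) :=
      setIntegral_le_integral (integrable_pq1 vol h u)
        (Eventually.of_forall (pq_nonneg vol h _))
    refine le_trans ?_ (mul_le_mul_of_nonneg_left h1 hD)
    rw [e1, ← integral_const_mul]
    refine integral_mono_of_nonneg ?_ ((integrable_pq1 vol h u).integrableOn.const_mul _) ?_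
    · refine (ae_restrict_iff' (A.e j).open_source.measurableSet).2
        (Eventually.of_forall fun x hx => ?_)
      exact mul_nonneg (inv_pos.2 (vol.pos j x hx)).le (sq_nonneg _)
    refine (ae_restrict_iff' (A.e j).open_source.measurableSet).2
        (Eventually.of_forall fun x hxj => ?_)
    show (vol.w j x)⁻¹ * _ ≤ C / c * pq vol h u.1 x
    rw [pq_eq vol h _ hxj, mul_left_comm]
    refine mul_le_mul_of_nonneg_left ?_ (inv_pos.2 (vol.pos j x hxj)).le
    show _ ≤ C / c * Complex.re (star _ ⬝ᵥ (_ *ᵥ _))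
    by_cases hx : x ∈ tsupport a
    · have h2 := hC _ hx (u.1.1 j x)
      have h3 := hc _ hx (u.1.1 j x)
      rw [← Matrix.mulVec_mulVec, Matrix.dotProduct_mulVec, ← Matrix.star_mulVec] at h2
      have h4 : (star (a x *ᵥ u.1.1 j x) ⬝ᵥ
          (a x *ᵥ u.1.1 j x)).re = nsq (a x *ᵥ u.1.1 j x) :=
        nsq_eq_re _
      have h5 : ‖(a x *ᵥ u.1.1 j x) k‖ ^ 2 ≤
          nsq (a x *ᵥ u.1.1 j x) :=
        Finset.single_le_sum (f := fun k => ‖(a x *ᵥ u.1.1 j x) k‖ ^ 2)
          (fun _ _ => sq_nonneg _) (Finset.mem_univ k)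
      rw [h4] at h2
      refine h5.trans (h2.trans ?_)
      rw [div_mul_eq_mul_div, le_div_iff₀ hc0, mul_assoc, mul_comm _ c]
      exact mul_le_mul_of_nonneg_left h3 hC0
    · rw [amp_zero hx, Matrix.zero_mulVec, Pi.zero_apply, norm_zero, sq, mul_zero]
      exact mul_nonneg hD (Complex.le_def.1 (h.hd_self_nonneg _ hxj)).1
  refine (Finset.sum_le_sum fun k _ => hk k).trans (le_of_eq ?_)
  rw [Finset.sum_const, Finset.card_univ, nsmul_eq_mul, mul_assoc]

end

end Crest.Agent.X261.Hs
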