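import Crest.Agent.X261.Hs.B

/-!
# X261 / Hs (helper68): finite rank mollifiers converging to a cut-off function

* `molP_mul` : for a smooth real function `χ` with compact support and two first order operators,
  `MolP` holds with `c` the multiplication by `χ`.
-/

set_option autoImplicit false
set_option linter.unusedSectionVars false
set_option linter.style.haveILetI false

open Set Filter Topology Complex MeasureTheory
open scoped ContDiff Matrix ComplexConjugate ComplexOrder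

namespace Crest.Agent.X261.Hs

open Crest.Agent.R275 Crest.Agent.R275.Geo Crest.Agent.R275.Tor812 Crest.Agent.R275.TorS666
  Crest.Agent.R275.C1d194 Crest.Agent.R275.Pai323 Crest.Agent.R275.Core144
  Crest.Agent.R275.RetC666
open Crest.Agent.R275.SerG398 (lint dens)
open Crest.Agent.R273.Defs_333 Crest.Agent.R273.Vm_333 Crest.Agent.R273.L2K_774
  Crest.Agent.R273.NormC_505 Crest.Agent.R273.Mol_106 Crest.Agent.R273.TorM_106
open Crest.Agent.R273.StV_37 (IsD tot tot_loc)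
open Crest.Agent.T223.Hm (gl ix ix_mem Cs gl_eq gl_sm integrable_of_sm integral_gl)

noncomputable section

section abs

variable {S : Type*} [AddCommGroup S] [Module ℂ S] (c : InnerProductSpace.Core ℂ S)

theorem nr_zero : nr c 0 = 0 := by
  letI : NormedAddCommGroup S := c.toNormedAddCommGroup
  exact norm_zero (E := S)

theorem nr_nonneg (u : S) : 0 ≤ nr c u := X277.AN.Horm.nrm_nonneg c u

theorem sum_aux {G σ : Type*} [AddCommGroup G] [Fintype σ] (a b : σ → G) (x y : G) :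
    ∑ p, a p + x - (∑ p, b p + y) = ∑ p, (a p - b p) + (x - y) := by
  rw [Finset.sum_sub_distrib]
  abel

theorem molP_zero (T Ts : S →ₗ[ℂ] S) : MolP (nr c) c.inner T Ts 0 := by
  refine ⟨fun _ => 0, 0, fun N u => ?_, fun u => ?_, fun N u => ?_, fun u => ?_, fun N u => ?_,
    fun u => ?_, fun N => ⟨0, Fin.elim0, Fin.elim0, fun v => by simp⟩⟩ <;>
  simp [nr_zero]

theorem molP_add {T Ts c₁ c₂ : S →ₗ[ℂ] S} (h₁ : MolP (nr c) c.inner T Ts c₁)
    (h₂ : MolP (nr c) c.inner T Ts c₂) : MolP (nr c) c.inner T Ts (c₁ + c₂) := by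
  obtain ⟨J, C, a1, a2, a3, a4, a5, a6, a7⟩ := h₁
  obtain ⟨J', C', b1, b2, b3, b4, b5, b6, b7⟩ := h₂
  have lim : ∀ {f g k : ℕ → S}, (∀ N, k N = f N + g N) →
      Tendsto (fun N => nr c (f N)) atTop (𝓝 0) → Tendsto (fun N => nr c (g N)) atTop (𝓝 0) →
      Tendsto (fun N => nr c (k N)) atTop (𝓝 0) := by
    intro f g k hk hf hg
    have h1 := hf.add hg
    rw [add_zero] at h1
    exact squeeze_zero (fun _ => nr_nonneg c _) (fun N => by rw [hk]; exact nrm_add_le c _ _) h1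
  have bd : ∀ {f g k u : S}, k = f + g → nr c f ≤ C * nr c u → nr c g ≤ C' * nr c u →
      nr c k ≤ (C + C') * nr c u := by
    intro f g k u hk hf hg
    rw [hk, add_mul]
    exact (nrm_add_le c _ _).trans (add_le_add hf hg)
  refine ⟨fun N => J N + J' N, C + C', fun N u => bd rfl (a1 N u) (b1 N u),
    fun u => lim (fun N => ?_) (a2 u) (b2 u), fun N u => bd ?_ (a3 N u) (b3 N u),
    fun u => lim (fun N => ?_) (a4 u) (b4 u), fun N u => bd ?_ (a5 N u) (b5 N u),
    fun u => lim (fun N => ?_) (a6 u) (b6 u), fun N => ?_⟩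
  iterate 5
    simp only [LinearMap.add_apply, map_add]
    abel
  obtain ⟨m, s, e, hse⟩ := a7 N
  obtain ⟨m', s', e', hse'⟩ := b7 N
  refine ⟨m + m', Fin.append s s', Fin.append e e', fun v => ?_⟩
  rw [Fin.sum_univ_add, LinearMap.add_apply, hse, hse']
  simp only [Fin.append_left, Fin.append_right]

theorem molP_sum {T Ts : S →ₗ[ℂ] S} {σ : Type*} (t : Finset σ) {f : σ → S →ₗ[ℂ] S}
    (h : ∀ i ∈ t, MolP (nr c) c.inner T Ts (f i)) : MolP (nr c) c.inner T Ts (∑ i ∈ t, f i) :=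
  Finset.sum_induction f (MolP (nr c) c.inner T Ts) (fun _ _ => molP_add c) (molP_zero c T Ts) h

end abs

variable {n : ℕ} {M : Type} [TopologicalSpace M] {A : Atl n M} {B B' : FBun A}

section ops

variable [T2Space M] {κ : Type} [Fintype κ] {j : A.ι}

theorem fop_extC (T : FOp B B') {b : M → Matrix B.κ κ ℂ} (hb : IsAmp A j b)
    (f : κ → SPer (RI n)) :
    fopC T (extC hb f) = (∑ p, extC (T.amp_a p hb) (pdv κ p f)) + extC (T.amp_b hb) f := by
  apply Subtype.ext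
  rw [Submodule.coe_add, Submodule.coe_sum]
  exact T.T_ext hb f

theorem locC_fop (T : FOp B B') {m : M → Matrix κ B'.κ ℂ} (hm : IsAmp A j m) (u : CS B) :
    locC hm (fopC T u) = (∑ p, pdv κ p (locC (T.ampR_a p hm) u)) + locC (T.ampR_b hm) u := by
  funext k
  rw [Pi.add_apply, Finset.sum_apply]
  exact T.loc_T hm u.1 k

variable (P : Part A) {θ : M → ℝ}

/-- the mollifier of one chart -/
def Jc (hθ : IsAmp A j (fun x => (θ x : ℂ) • (1 : Matrix B.κ B.κ ℂ))) (N : ℕ) :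
    CS B →ₗ[ℂ] CS B := extC (IsAmp.chi P B j) ∘ₗ FNv B.κ n N ∘ₗ locC hθ

theorem Jc_apply (hθ : IsAmp A j (fun x => (θ x : ℂ) • (1 : Matrix B.κ B.κ ℂ))) (N : ℕ)
    (u : CS B) : Jc P hθ N u = extC (IsAmp.chi P B j) (FNv B.κ n N (locC hθ u)) := rfl

theorem extC_locC (hθ : IsAmp A j (fun x => (θ x : ℂ) • (1 : Matrix B.κ B.κ ℂ)))
    (h1 : ∀ x, P.χ j x * θ x = θ x) (hs : A.Sm fun x => (θ x : ℂ))
    (h0 : ∀ x ∉ (A.e j).source, θ x = 0) (u : CS B) :
    extC (IsAmp.chi P B j) (locC hθ u) = mulC B hs u := by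
  apply Subtype.ext
  apply Subtype.ext
  funext i x
  rw [mulC_apply]
  show ext B j (P.chi B.κ j) (loc A j _ (u.1.1 j)) i x = _
  by_cases hi : x ∈ (A.e i).source
  · by_cases hj : x ∈ (A.e j).source
    · rw [ext_of_mem B j hi hj, u.1.2.2.2 i j x ⟨hi, hj⟩, ← Matrix.mulVec_smul]
      congr 1
      have e1 : (fun l => loc A j (fun x => (θ x : ℂ) • (1 : Matrix B.κ B.κ ℂ)) (u.1.1 j) l
          (rc (A.e j x))) = (θ x : ℂ) • u.1.1 j x := by
        funext l
        rw [loc_apply_rc hθ (u.1.2.1 j) l hj, Matrix.smul_mulVec, Matrix.one_mulVec]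
      rw [e1, Part.chi, Matrix.smul_mulVec, Matrix.one_mulVec, smul_smul, ← Complex.ofReal_mul, h1]
    · rw [ext_off' B j hj, h0 x hj, Complex.ofReal_zero, zero_smul]
  · rw [ext_off B j hi, u.1.2.2.1 i x hi, smul_zero]

theorem comm_Jc (T : FOp B B) (hθ : IsAmp A j (fun x => (θ x : ℂ) • (1 : Matrix B.κ B.κ ℂ)))
    (h1 : ∀ x, P.χ j x * θ x = θ x) (N : ℕ) (u : CS B) :
    fopC T (Jc P hθ N u) - Jc P hθ N (fopC T u) =
      (∑ p, (extC (IsAmp.chi P B j)
          (mulS (ampT (T.ampR_a p (IsAmp.chi P B j))) (pdv B.κ p (FNv B.κ n N (locC hθ u))) -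
          FNv B.κ n N (pdv B.κ p (mulS (ampT (T.ampR_a p (IsAmp.chi P B j))) (locC hθ u)))) -
        extC (T.amp_a p (IsAmp.chi P B j))
          (mulS (ampT (IsAmp.chi P B j)) (pdv B.κ p (FNv B.κ n N (locC hθ u))) -
          FNv B.κ n N (pdv B.κ p (mulS (ampT (IsAmp.chi P B j)) (locC hθ u)))))) +
      (extC (T.amp_b (IsAmp.chi P B j)) (FNv B.κ n N (locC hθ u)) -
        extC (IsAmp.chi P B j) (FNv B.κ n N (locC (T.ampR_b hθ) u))) := by
  have hcolC : ∀ x, ((P.χ j x : ℝ) : ℂ) * ((θ x : ℝ) : ℂ) = ((θ x : ℝ) : ℂ) := by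
    intro x; rw [← ofReal_mul, h1]
  set g := locC hθ u with hg
  have hX : mulS (ampT (IsAmp.chi P B j)) g = g := by
    show mulS _ (loc A j _ (u.1.1 j)) = loc A j _ (u.1.1 j)
    rw [mulS_loc (IsAmp.chi P B j) hθ (u.1.2.1 j)]
    congr 1
    funext x
    simp only [Part.chi, Matrix.smul_mul, Matrix.one_mul, smul_smul]
    rw [hcolC]
  have hC : ∀ p, mulS (ampT (T.ampR_a p (IsAmp.chi P B j))) g = locC (T.ampR_a p hθ) u := by
    intro p
    show mulS _ (loc A j _ (u.1.1 j)) = loc A j _ (u.1.1 j)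
    rw [mulS_loc (T.ampR_a p (IsAmp.chi P B j)) hθ (u.1.2.1 j)]
    congr 1
    funext x
    simp only [Part.chi, Matrix.smul_mul, Matrix.one_mul, Matrix.mul_smul,
      Matrix.mul_one, smul_smul]
    rw [mul_comm, hcolC]
  have hE : ∀ p (f : B.κ → SPer (RI n)),
      extC (IsAmp.chi P B j) (mulS (ampT (T.ampR_a p (IsAmp.chi P B j))) f) =
      extC (T.amp_a p (IsAmp.chi P B j)) (mulS (ampT (IsAmp.chi P B j)) f) := by
    intro p f
    apply Subtype.ext
    apply Subtype.ext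
    show ext B j _ (mulS _ f) = ext B j _ (mulS _ f)
    rw [ext_mulS, ext_mulS]
    congr 1
    funext x
    simp only [Part.chi, Matrix.smul_mul, Matrix.one_mul, Matrix.mul_smul, Matrix.mul_one]
  rw [Jc_apply, Jc_apply, fop_extC, locC_fop, map_add, map_add, map_sum, map_sum, ← hg]
  simp only [map_sub, hE, hX, hC, pdv_FNv, sub_sub_sub_cancel_left]
  exact sum_aux (G := CS B) (σ := RI n) _ _ _ _

end ops

variable [Countable A.ι] [T2Space M] [MeasurableSpace M] [BorelSpace M] (P : Part A)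
  (vol : HM (KB A)⁻¹) (h : HDen B) (hp : h.Pos) {j : A.ι} {θ : M → ℝ}

theorem comm_Jc_le (T : FOp B B) (hθ : IsAmp A j (fun x => (θ x : ℂ) • (1 : Matrix B.κ B.κ ℂ)))
    (h1 : ∀ x, P.χ j x * θ x = θ x) : ∃ C, 0 ≤ C ∧ ∀ N u,
      nr (c1 vol h hp) (fopC T (Jc P hθ N u) - Jc P hθ N (fopC T u)) ≤ C * nr (c1 vol h hp) u := by
  obtain ⟨C1, h10, h1'⟩ := nrm_ext_le vol h hp (IsAmp.chi P B j)
  choose C2 h20 h2 using fun p => nrm_ext_le vol h hp (T.amp_a p (IsAmp.chi P B j))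
  obtain ⟨C3, h30, h3⟩ := nrm_ext_le vol h hp (T.amp_b (IsAmp.chi P B j))
  obtain ⟨C4, h40, h4⟩ := nv_loc_le vol h hp (T.ampR_b hθ)
  obtain ⟨C5, h50, h5⟩ := nv_loc_le vol h hp hθ
  choose D1 d10 d1 using fun p : RI n => nv_commD_le (ampT (T.ampR_a p (IsAmp.chi P B j))) p
  choose D2 d20 d2 using fun p : RI n => nv_commD_le (ampT (IsAmp.chi P B j)) p
  refine ⟨(∑ p, (C1 * (D1 p * C5) + C2 p * (D2 p * C5))) + (C3 * C5 + C1 * C4), ?_, fun N u => ?_⟩
  · refine add_nonneg (Finset.sum_nonneg fun p _ => ?_) (by positivity)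
    have := d10 p
    have := d20 p
    have := h20 p
    positivity
  rw [comm_Jc P T hθ h1, add_mul, add_mul, Finset.sum_mul]
  refine (nrm_add_le _ _ _).trans (add_le_add ((nrm_sum_le _ _ _).trans
    (Finset.sum_le_sum fun p _ => ?_)) ((nrm_sub_le _ _ _).trans (add_le_add ?_ ?_)))
  · rw [add_mul, mul_assoc, mul_assoc, mul_assoc, mul_assoc]
    refine (nrm_sub_le _ _ _).trans (add_le_add ((h1' _).trans ?_) ((h2 p _).trans ?_))
    · exact mul_le_mul_of_nonneg_left ((d1 p N _).trans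
        (mul_le_mul_of_nonneg_left (h5 u) (d10 p))) h10
    · exact mul_le_mul_of_nonneg_left ((d2 p N _).trans
        (mul_le_mul_of_nonneg_left (h5 u) (d20 p))) (h20 p)
  · rw [mul_assoc]
    exact (h3 _).trans (mul_le_mul_of_nonneg_left ((nv_FNv_le 0 N _).trans (h5 u)) h30)
  · rw [mul_assoc]
    exact (h1' _).trans (mul_le_mul_of_nonneg_left ((nv_FNv_le 0 N _).trans (h4 u)) h10)

theorem tendsto_extC {κ : Type} [Fintype κ] {b : M → Matrix B.κ κ ℂ} (hb : IsAmp A j b)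
    (g : κ → SPer (RI n)) :
    Tendsto (fun N => nr (c1 vol h hp) (extC hb (FNv κ n N g - g))) atTop (𝓝 0) := by
  obtain ⟨C, -, hC⟩ := nrm_ext_le vol h hp hb
  have h1 := (tendsto_FNv 0 g).const_mul C
  rw [mul_zero] at h1
  exact squeeze_zero (fun _ => nr_nonneg _ _) (fun N => hC _) h1

theorem tendsto_fop_extC (T : FOp B B) {κ : Type} [Fintype κ] {b : M → Matrix B.κ κ ℂ}
    (hb : IsAmp A j b) (g : κ → SPer (RI n)) :
    Tendsto (fun N => nr (c1 vol h hp) (fopC T (extC hb (FNv κ n N g)) - fopC T (extC hb g)))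
      atTop (𝓝 0) := by
  have h1 := (tendsto_finsetSum Finset.univ fun p _ =>
    tendsto_extC vol h hp (T.amp_a p hb) (pdv κ p g)).add (tendsto_extC vol h hp (T.amp_b hb) g)
  rw [Finset.sum_const_zero, add_zero] at h1
  refine squeeze_zero (fun _ => nr_nonneg _ _) (fun N => ?_) h1
  have e : fopC T (extC hb (FNv κ n N g)) - fopC T (extC hb g) =
      fopC T (extC hb (FNv κ n N g - g)) := by rw [map_sub, map_sub]
  rw [e, fop_extC]
  refine (nrm_add_le _ _ _).trans (add_le_add ((nrm_sum_le _ _ _).trans (le_of_eq ?_)) le_rfl)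
  refine Finset.sum_congr rfl fun p _ => ?_
  rw [map_sub (pdv κ p), pdv_FNv]

theorem fc_loc' {κ₁ κ₂ : Type} [Fintype κ₂] {a : M → Matrix κ₁ κ₂ ℂ} (ha : IsAmp A j a)
    {v : M → κ₂ → ℂ} (hv : ∀ l, A.SmAt j (fun x => v x l)) (l : κ₁) (k : RI n → ℤ) :
    fc (loc A j a v l) k = lint A j (fun x => ch (-k) (rc (A.e j x)) * (a x *ᵥ v x) l) := by
  have h1 : fc (loc A j a v l) k = SerG398.ip (chS (-k)) (loc A j a v l) := by
    have h2 := TorE812.ip_chS (loc A j a v l) (-k)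
    rw [neg_neg] at h2
    rw [← h2, TorE812.ip_comm]
    rfl
  rw [h1, C1d194.loc_eq ha hv, SerG398.ip_perz]
  unfold SerG398.lint
  congr 1
  funext x
  by_cases hx : x ∈ Ui A j
  · rw [C1d194.rd_of_mem hx, C1d194.rd_of_mem hx, (A.e j).right_inv hx, rc_cc]
    rfl
  · rw [C1d194.rd_off hx, C1d194.rd_off hx, mul_zero]

include hp in
theorem amp_rep' (hθ : IsAmp A j (fun x => (θ x : ℂ) • (1 : Matrix B.κ B.κ ℂ))) :
    IsAmp A j (fun x => ((θ x : ℂ) • (1 : Matrix B.κ B.κ ℂ)) * (h.H j x)⁻¹) :=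
  isAmp_mul_right hθ fun k l => smAt_inv (h.sm j) (fun x hx => (hp j x hx).det_pos.ne') k l

include P in
theorem ip_rep' (hθ : IsAmp A j (fun x => (θ x : ℂ) • (1 : Matrix B.κ B.κ ℂ))) (l : B.κ)
    (k : RI n → ℤ) (v : CS B) :
    (c1 vol h hp).inner (extC (amp_rep' h hp hθ) (Pi.single l (chS k))) v =
      fc (locC hθ v l) k := by
  have ha := amp_rep' h hp hθ
  have hr : (extC ha (Pi.single l (chS k))).1.1 = ext B j (fun x => ((θ x : ℂ) •
      (1 : Matrix B.κ B.κ ℂ)) * (h.H j x)⁻¹) (Pi.single l (chS k)) := extS_coe B j ha _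
  generalize extC ha (Pi.single l (chS k)) = r at hr
  have e0 : locC hθ v l = loc A j _ (v.1.1 j) l := rfl
  have hoff : ∀ i, ∀ x ∉ tsupport (fun x => ((θ x : ℂ) • (1 : Matrix B.κ B.κ ℂ)) * (h.H j x)⁻¹),
      h.hd r.1.1 v.1.1 i x = 0 := fun i x hx => by
    have h0 : r.1.1 i x = 0 := by rw [hr]; exact ext_zero_off B j hx _
    show star (r.1.1 i x) ⬝ᵥ _ = 0
    rw [h0, star_zero, zero_dotProduct]
  rw [c1_inner, e0, fc_loc' hθ (v.1.2.1 j)]
  refine ((integral_gl (vol := vol) P (hd_isD h r.1 v.1) ha.cpt (fun i x _ hx => hoff i x hx)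
    (Finset.Subset.refl _)).2.trans
    (tot_loc P (hd_isD h r.1 v.1) ha.cpt ha.sub (Finset.Subset.refl _) hoff)).trans ?_
  refine lint_congr fun x hx => ?_
  have hH := (hp j x hx)
  have hdet : IsUnit (h.H j x).det := isUnit_iff_ne_zero.2 hH.det_pos.ne'
  have hsrc : r.1.1 j x = (((θ x : ℂ) • (1 : Matrix B.κ B.κ ℂ)) * (h.H j x)⁻¹) *ᵥ
      Pi.single l (ch k (rc (A.e j x))) := by
    rw [hr, ext_self B j hx]
    congr 1
    funext m
    by_cases hm : m = l
    · subst hm; simp only [Pi.single_eq_same]; rfl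
    · simp only [Pi.single_eq_of_ne hm]; rfl
  show star (r.1.1 j x) ⬝ᵥ (h.H j x *ᵥ v.1.1 j x) = _
  rw [hsrc, Matrix.star_mulVec, Matrix.conjTranspose_mul, Matrix.conjTranspose_nonsing_inv,
    hH.isHermitian.eq, Matrix.dotProduct_mulVec, Matrix.vecMul_vecMul]
  have h2 : ((θ x : ℂ) • (1 : Matrix B.κ B.κ ℂ))ᴴ = (θ x : ℂ) • (1 : Matrix B.κ B.κ ℂ) := by
    simp [Matrix.conjTranspose_smul]
  have h3 : (h.H j x)⁻¹ * ((θ x : ℂ) • (1 : Matrix B.κ B.κ ℂ))ᴴ * h.H j x =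
      (θ x : ℂ) • (1 : Matrix B.κ B.κ ℂ) := by
    rw [h2]
    simp only [Matrix.mul_smul, Matrix.mul_one, Matrix.smul_mul]
    rw [Matrix.nonsing_inv_mul _ hdet]
  rw [h3, ← Matrix.dotProduct_mulVec]
  have h4 : star (Pi.single l (ch k (rc (A.e j x))) : B.κ → ℂ) =
      Pi.single l (ch (-k) (rc (A.e j x))) := by
    rw [← conj_ch]
    funext m
    by_cases hm : m = l
    · subst hm; simp
    · simp [hm]
  rw [h4, single_dotProduct]

theorem Jc_finite (hθ : IsAmp A j (fun x => (θ x : ℂ) • (1 : Matrix B.κ B.κ ℂ))) (N : ℕ) :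
    ∃ (m : ℕ) (s e : Fin m → CS B), ∀ v,
      Jc P hθ N v = ∑ α, (c1 vol h hp).inner (s α) v • e α := by
  let X := B.κ × (SN (d := RI n) N)
  let E : X ≃ Fin (Fintype.card X) := Fintype.equivFin X
  let s : X → CS B := fun a => extC (amp_rep' h hp hθ) (Pi.single a.1 (chS a.2.1))
  let e : X → CS B := fun a => (mN N a.2.1 : ℂ) • extC (IsAmp.chi P B j) (Pi.single a.1 (chS a.2.1))
  refine ⟨Fintype.card X, fun α => s (E.symm α), fun α => e (E.symm α), fun v => ?_⟩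
  rw [Equiv.sum_comp E.symm (fun a : X => (c1 vol h hp).inner (s a) v • e a),
    Fintype.sum_prod_type, Jc_apply, FNv_eq_sum, map_sum]
  refine Finset.sum_congr rfl fun l _ => ?_
  rw [map_sum, ← Finset.sum_coe_sort (SN N)]
  refine Finset.sum_congr rfl fun k _ => ?_
  simp only [s, e]
  rw [ip_rep' P vol h hp hθ, map_smul, mul_comm, mul_smul]
  congr 3
  congr!

theorem molP_chart (T Ts : FOp B B)
    (hθ : IsAmp A j (fun x => (θ x : ℂ) • (1 : Matrix B.κ B.κ ℂ)))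
    (h1 : ∀ x, P.χ j x * θ x = θ x) (hs : A.Sm fun x => (θ x : ℂ))
    (h0 : ∀ x ∉ (A.e j).source, θ x = 0) :
    MolP (nr (c1 vol h hp)) (c1 vol h hp).inner (fopC T) (fopC Ts) (mulC B hs) := by
  obtain ⟨C1, h10, h1'⟩ := nrm_ext_le vol h hp (IsAmp.chi P B j)
  obtain ⟨C5, h50, h5⟩ := nv_loc_le vol h hp hθ
  obtain ⟨C2, h20, h2⟩ := comm_Jc_le P vol h hp T hθ h1
  obtain ⟨C3, h30, h3⟩ := comm_Jc_le P vol h hp Ts hθ h1
  have bd : ∀ {a C : ℝ} {u : CS B}, a ≤ C * nr (c1 vol h hp) u → C ≤ C1 * C5 + C2 + C3 →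
      a ≤ (C1 * C5 + C2 + C3) * nr (c1 vol h hp) u := fun ha hC =>
    ha.trans (mul_le_mul_of_nonneg_right hC (nr_nonneg _ _))
  have h15 : 0 ≤ C1 * C5 := mul_nonneg h10 h50
  refine ⟨Jc P hθ, C1 * C5 + C2 + C3, fun N u => bd (C := C1 * C5) ?_ (by linarith), fun u => ?_,
    fun N u => bd (h2 N u) (by linarith), fun u => ?_, fun N u => bd (h3 N u) (by linarith),
    fun u => ?_, Jc_finite P vol h hp hθ⟩
  · rw [mul_assoc]
    exact (h1' _).trans (mul_le_mul_of_nonneg_left ((nv_FNv_le 0 N _).trans (h5 u)) h10)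
  · refine (tendsto_extC vol h hp (IsAmp.chi P B j) (locC hθ u)).congr fun N => ?_
    rw [map_sub, extC_locC P hθ h1 hs h0, Jc_apply]
  · refine (tendsto_fop_extC vol h hp T (IsAmp.chi P B j) (locC hθ u)).congr fun N => ?_
    rw [extC_locC P hθ h1 hs h0, Jc_apply]
  · refine (tendsto_fop_extC vol h hp Ts (IsAmp.chi P B j) (locC hθ u)).congr fun N => ?_
    rw [extC_locC P hθ h1 hs h0, Jc_apply]

include P in
/-- **finite rank mollifiers** for the multiplication by a cut-off function -/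
theorem molP_mul (T Ts : FOp B B) {χ : M → ℝ} (hχ : A.Sm χ) (hc : HasCompactSupport χ)
    (hs : A.Sm fun x => (χ x : ℂ)) :
    MolP (nr (c1 vol h hp)) (c1 vol h hp).inner (fopC T) (fopC Ts) (mulC B hs) := by
  have hK : IsCompact (tsupport χ) := hc
  have sm : ∀ j i, A.SmAt i fun x => P.ψ j x * χ x := fun j i => (P.ψ_sm j i).mul (hχ i)
  have smc : ∀ j, A.Sm fun x => ((P.ψ j x * χ x : ℝ) : ℂ) := fun j i => smAt_ofReal (sm j i)
  have hsub : ∀ j, tsupport (fun x => P.ψ j x * χ x) ⊆ tsupport (P.ψ j) := fun j =>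
    tsupport_mul_subset_left
  have e1 : mulC B hs = ∑ j ∈ Fn P hK, mulC B (smc j) := by
    ext u i x k
    rw [LinearMap.sum_apply, Submodule.coe_sum, Submodule.coe_sum, Finset.sum_apply,
      Finset.sum_apply, mulC_apply]
    simp only [mulC_apply]
    rw [← Finset.sum_smul, ← Complex.ofReal_sum, ← Finset.sum_mul]
    by_cases hx : x ∈ tsupport χ
    · rw [sum_psi P hK (Finset.Subset.refl _) hx, one_mul]
    · rw [image_eq_zero_of_notMem_tsupport hx, mul_zero]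
  rw [e1]
  refine molP_sum _ _ fun j _ => molP_chart P vol h hp T Ts
    (isAmp_bump_const (sm j j) ((P.ψ_cpt j).of_isClosed_subset (isClosed_tsupport _) (hsub j))
      ((hsub j).trans ((P.ψ_sub j).trans (P.χ_sub j))) 1) (fun x => ?_) (smc j) fun x hx => ?_
  · rw [← mul_assoc, P.chi_mul_psi]
  · rw [psi_off P hx, zero_mul]

end

end Crest.Agent.X261.Hs
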