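import Crest.Agent.X261.Hs.D
import Crest.Agent.X261.Hc.Dem
import Crest.Agent.X277.AN.HormB

/-!
# X261 / Hs (helper68): the Hoermander-Demailly inequality for forms of all degrees on a complete
Kaehler manifold, dual form

* `Wts` : decreasing weights with a vanishing loss of curvature; `Wts.equi` : equi-integrability;
* `apriC` : the a-priori inequality; `DatV.dual` : the dual inequality at one level `ε`.
-/

set_option autoImplicit false
set_option linter.unusedSectionVars false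
set_option linter.style.haveILetI false

open Set Filter Topology Complex MeasureTheory
open scoped ContDiff Matrix ComplexConjugate ComplexOrder

namespace Crest.Agent.X261.Hs

open Crest.Agent.R275 Crest.Agent.R275.Geo Crest.Agent.R275.Pai323 Crest.Agent.R275.Core144
open Crest.Agent.R273.Defs_333 Crest.Agent.R273.HM_333 Crest.Agent.R273.Kah_333
open Crest.Agent.R273.Vm_333 Crest.Agent.R273.NormC_505
open Crest.Agent.R273.Fock_243 Crest.Agent.R273.Bkn_243 Crest.Agent.R273.Pos_243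
open Crest.Agent.R273.LamN127 Crest.Agent.R273.DVec_733 Crest.Agent.R273.DMet_733
open Crest.Agent.R273.DMetB_733 Crest.Agent.R273.BKNa_37 Crest.Agent.R273.BKNb_37
open Crest.Agent.R273.BKNc_37 Crest.Agent.R273.Lim_505
open Crest.Agent.R273.HDN_505 (HB HB_pos)
open Crest.Agent.T223.Hm (gl ix ix_mem Cs Cut hq gl_eq gl_sm gl_congr integral_gl)
open Crest.Agent.X261.Hc (Cq hq_eq_qf)
open Crest.Agent.X277.AN.Horm (cs_meas)

noncomputable section

variable {n : ℕ} {M : Type} [TopologicalSpace M] {A : Atl n M} {N : LB A}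
variable [Countable A.ι] [T2Space M] [MeasurableSpace M] [BorelSpace M]

/-! ### seminorms with a measurable weight -/

section semi

variable {B : FBun A} (vol : HM (KB A)⁻¹) (h : HDen B) {ρ : M → ℝ}

theorem integrable_pf0 (hm : Measurable ρ) (h0 : ∀ x, 0 ≤ ρ x)
    (hb : ∀ K, IsCompact K → ∃ C, ∀ x ∈ K, ρ x ≤ C) (u w : CS B) :
    Integrable (fun x => (ρ x : ℂ) * pf vol h u.1 w.1 x) (vm vol) := by
  obtain ⟨K, hK, hz⟩ := u.2
  have := integrable_wt vol hm h0 hb (pf_cont vol h u.1 w.1) hK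
    fun x hx => pf_zero_left vol h _ fun i => hz i x hx
  simpa only [Complex.real_smul] using this

/-- the semi inner product of a nonnegative weight -/
@[reducible] def pcore (hm : Measurable ρ) (h0 : ∀ x, 0 ≤ ρ x)
    (hb : ∀ K, IsCompact K → ∃ C, ∀ x ∈ K, ρ x ≤ C) : PreInnerProductSpace.Core ℂ (CS B) where
  inner u w := ipw vol h ρ u w
  conj_inner_symm u w := by
    show conj (ipw vol h ρ w u) = ipw vol h ρ u w
    rw [ipw, ipw, ← integral_conj]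
    refine integral_congr_ae (Eventually.of_forall fun x => ?_)
    simp only [map_mul, Complex.conj_ofReal, pf_conj]
  re_inner_nonneg u := by
    show 0 ≤ (ipw vol h ρ u u).re
    rw [ipw_self, Complex.ofReal_re]
    exact integral_nonneg fun x => mul_nonneg (h0 x) (pq_nonneg vol h _ x)
  add_left u u' w := by
    show ipw vol h ρ (u + u') w = ipw vol h ρ u w + ipw vol h ρ u' w
    rw [ipw, ipw, ipw, ← integral_add (integrable_pf0 vol h hm h0 hb u w)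
      (integrable_pf0 vol h hm h0 hb u' w)]
    refine integral_congr_ae (Eventually.of_forall fun x => ?_)
    simp only [Submodule.coe_add, pf_add_left, mul_add]
  smul_left u w c := by
    show ipw vol h ρ (c • u) w = conj c * ipw vol h ρ u w
    rw [ipw, ipw, ← integral_const_mul]
    refine integral_congr_ae (Eventually.of_forall fun x => ?_)
    simp only [Submodule.coe_smul, pf_smul_left]
    ring

/-- the seminorm of a nonnegative weight -/
def qw (ρ : M → ℝ) (u : CS B) : ℝ := Real.sqrt (∫ x, ρ x * pq vol h u.1 x ∂(vm vol))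

theorem qw_sq (h0 : ∀ x, 0 ≤ ρ x) (u : CS B) :
    qw vol h ρ u ^ 2 = ∫ x, ρ x * pq vol h u.1 x ∂(vm vol) :=
  Real.sq_sqrt (integral_nonneg fun x => mul_nonneg (h0 x) (pq_nonneg vol h _ x))

theorem qw_abs_sub (hm : Measurable ρ) (h0 : ∀ x, 0 ≤ ρ x)
    (hb : ∀ K, IsCompact K → ∃ C, ∀ x ∈ K, ρ x ≤ C) (u v : CS B) :
    |qw vol h ρ u - qw vol h ρ v| ≤ qw vol h ρ (u - v) := by
  letI : PreInnerProductSpace.Core ℂ (CS B) := pcore vol h hm h0 hb
  letI : SeminormedAddCommGroup (CS B) :=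
    InnerProductSpace.Core.toSeminormedAddCommGroup (𝕜 := ℂ) (F := CS B)
  have e : ∀ y : CS B, qw vol h ρ y = ‖y‖ := fun y => by
    show _ = Real.sqrt (ipw vol h ρ y y).re
    rw [ipw_self, Complex.ofReal_re, qw]
  rw [e, e, e]
  exact abs_norm_sub_norm_le u v

theorem qw_le (hp : h.Pos) {C : ℝ} (hC : 0 ≤ C) (h0 : ∀ x, 0 ≤ ρ x) (hle : ∀ x, ρ x ≤ C)
    (u : CS B) : qw vol h ρ u ≤ Real.sqrt C * nr (c1 vol h hp) u := by
  refine Real.sqrt_le_iff.2 ⟨mul_nonneg (Real.sqrt_nonneg _) (nr_nonneg _ _), ?_⟩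
  rw [mul_pow, Real.sq_sqrt hC, nrm_c1_sq, ← integral_const_mul]
  exact integral_mono_of_nonneg
    (Eventually.of_forall fun x => mul_nonneg (h0 x) (pq_nonneg vol h _ x))
    ((integrable_pq1 vol h u).const_mul C)
    (Eventually.of_forall fun x => mul_le_mul_of_nonneg_right (hle x) (pq_nonneg vol h _ x))

theorem qw_mul_le (hm : Measurable ρ) (h0 : ∀ x, 0 ≤ ρ x)
    (hb : ∀ K, IsCompact K → ∃ C, ∀ x ∈ K, ρ x ≤ C) {χ : M → ℝ} (hs : A.Sm fun x => (χ x : ℂ))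
    (h01 : ∀ x, 0 ≤ χ x ∧ χ x ≤ 1) (u : CS B) : qw vol h ρ (mulC B hs u) ≤ qw vol h ρ u := by
  refine Real.sqrt_le_sqrt (integral_mono (integrable_pq vol h hm h0 hb _)
    (integrable_pq vol h hm h0 hb _) fun x => mul_le_mul_of_nonneg_left ?_ (h0 x))
  rw [pq_mul, Complex.norm_real, Real.norm_of_nonneg (h01 x).1]
  exact mul_le_of_le_one_left (pq_nonneg vol _ _ x) (pow_le_one₀ (h01 x).1 (h01 x).2)

end semi

/-! ### the a-priori inequality -/

section apri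

variable (vol : HM (KB A)⁻¹) (K : Kah A) (h : HM ((KB A)⁻¹ * N)) (P : Part A)

theorem duV_rank {v : A.ι → M → FI n → ℂ} (hv : ∀ i T, A.SmAt i fun x => v i x T) {i : A.ι}
    {x : M} (hx : x ∈ (A.e i).source) {γ : Fin n → ℂ} {t : FI n → ℂ}
    (hd : ∀ k, dbV v i k x = γ k • t) : duV K v i x = eW γ *ᵥ (GK K i x *ᵥ t) := by
  have hz := (A.e i).map_source hx
  rw [duV_eq, du_eq (smM_Kr K i hz) (kahAt K i hz) (smV_rV hv i hz), eW_eq_sum γ,
    Matrix.sum_mulVec]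
  refine Finset.sum_congr rfl fun k _ => ?_
  rw [← dbV_eq, hd, Matrix.mulVec_smul, Matrix.mulVec_smul, Matrix.smul_mulVec, Kr,
    (A.e i).left_inv hx]
  rfl

theorem pf_T_low (v w : MV N) {i : A.ι} {x : M} (hx : x ∈ (A.e i).source) {γ : Fin n → ℂ}
    {t : FI n → ℂ} (hd : ∀ k, dbV v.1 i k x = γ k • t) :
    pf vol (HB K h) (nabL (BN N) (low K N v)) (low K N w) x = (vol.w i x : ℂ)⁻¹ *
      (h.w i x * (star t ⬝ᵥ (GK K i x *ᵥ (iW (star γ) *ᵥ w.1 i x)))) := by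
  rw [pf_eq vol _ _ _ hx, HB_hd_iB, nab_low_eq_duV K v hx, duV_rank K v.2.1 hx hd, low_apply, oB_iB,
    Matrix.mulVec_mulVec (w.1 i x), GI_GK K hx, Matrix.one_mulVec, star_eW', dot_eW,
    Matrix.star_mulVec, GK_herm K hx, ← Matrix.dotProduct_mulVec]

include P in
/-- the a-priori inequality -/
theorem apriC {e κ : M → ℝ} (hm : Measurable e) (h0 : ∀ x, 0 ≤ e x)
    (hb : ∀ C, IsCompact C → ∃ c, ∀ x ∈ C, e x ≤ c)
    (hpos : ∀ i, ∀ x ∈ (A.e i).source, ∀ ξ, 0 ≤ hq (cur h i x) ξ + e x * hq (K.g i x) ξ)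
    (hκ : AEMeasurable κ (vm vol)) (hκ0 : ∀ x, 0 ≤ κ x) {D : ℝ} (hD0 : 0 ≤ D)
    (hD : ∫⁻ x, ENNReal.ofReal (κ x) ∂(vm vol) ≤ ENNReal.ofReal D) (v : MV N) (hv : Cs v.1)
    (hpt : ∀ᵐ x ∂(vm vol), ∃ i, x ∈ (A.e i).source ∧ ∃ (γ : Fin n → ℂ) (t : FI n → ℂ),
      (∀ k, dbV v.1 i k x = γ k • t) ∧ ∀ ξ : Fin n → ℂ,
        h.w i x * (star t ⬝ᵥ (GK K i x *ᵥ t)).re * ‖star ξ ⬝ᵥ γ‖ ^ 2 ≤
          κ x * vol.w i x * (hq (cur h i x) ξ + e x * hq (K.g i x) ξ)) (u : CS (BN N)) :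
    ‖(cH vol K h).inner (TC N (lowC K v hv)) u‖ ^ 2 ≤
      D * (nr (cH vol K h) (TsC K h u) ^ 2 + nr (cH vol K h) (TC N u) ^ 2 +
        qw vol (HB K h) (fun x => n * e x) u ^ 2) := by
  obtain ⟨w, hw, rfl⟩ := exists_low K u
  have hm' : Measurable fun x => (n : ℝ) * e x := hm.const_mul _
  have h0' : ∀ x, 0 ≤ (n : ℝ) * e x := fun x => mul_nonneg (Nat.cast_nonneg _) (h0 x)
  have hb' : ∀ C, IsCompact C → ∃ c, ∀ x ∈ C, (n : ℝ) * e x ≤ c := fun C hC => by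
    obtain ⟨c, hc⟩ := hb C hC
    exact ⟨n * c, fun x hx => mul_le_mul_of_nonneg_left (hc x hx) (Nat.cast_nonneg _)⟩
  have i1 := (integrable_inT vol K h P w hw).re
  have i2 := integrable_pq vol (HB K h) hm' h0' hb' (lowC K w hw)
  have hherm : ∀ i, ∀ x ∈ (A.e i).source, (cur h i x + (e x : ℂ) • K.g i x).IsHermitian :=
    fun i x hx => by
      unfold Matrix.IsHermitian
      rw [Matrix.conjTranspose_add, Matrix.conjTranspose_smul, (cur_herm h i hx).eq,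
        (K.pos i x hx).1.eq, Complex.star_def, Complex.conj_ofReal]
  have hG : ∀ i, ∀ x ∈ (A.e i).source, (GK K i x).PosSemidef := fun i x hx =>
    Gam_posSemidef (K.pos i x hx).transpose.posSemidef
  have key : ∀ i, ∀ x ∈ (A.e i).source, (vol.w i x)⁻¹ * (h.w i x *
      (Cv (GK K i x) (cur h i x + (e x : ℂ) • K.g i x) (w.1 i x) (w.1 i x)).re) ≤
      (gl vol (inT K h w.1 w.1) x).re + n * e x * pq vol (HB K h) (lowC K w hw).1 x := by
    intro i x hx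
    have e1 : pq vol (HB K h) (lowC K w hw).1 x = (vol.w i x)⁻¹ * (h.w i x *
        (star (w.1 i x) ⬝ᵥ (GK K i x *ᵥ w.1 i x)).re) := by
      rw [pq_eq vol _ _ hx]
      have h1 := HB_hd K h w w hx
      rw [show (HB K h).hd (lowC K w hw).1.1 (lowC K w hw).1.1 i x = _ from h1, inG,
        Complex.re_ofReal_mul]
      rfl
    rw [gl_eq (inT_isD h (isV w) (isV w)).tr hx, e1, ← Complex.ofReal_inv, Complex.re_ofReal_mul,
      inT, Complex.re_ofReal_mul, Cv_add, Cv_smul', Complex.add_re, Complex.re_ofReal_mul]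
    have h1 := mul_le_mul_of_nonneg_left (Cv_g_le (K.pos i x hx) (w.1 i x))
      (mul_nonneg (mul_nonneg (inv_pos.2 (vol.pos i x hx)).le (h.pos i x hx).le) (h0 x))
    unfold GK
    nlinarith
  have main := cs_meas (a := κ) (D := D)
    (f := fun x => pf vol (HB K h) (TC N (lowC K v hv)).1 (lowC K w hw).1 x)
    (b := fun x => (gl vol (inT K h w.1 w.1) x).re + n * e x * pq vol (HB K h) (lowC K w hw).1 x)
    (by simpa only [Complex.ofReal_one, one_mul] using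
      integrable_pf vol (HB K h) wg_one (TC N (lowC K v hv)) (lowC K w hw))
    (i1.add i2) (fun x => ?_) hκ hD0 hD ?_
  · rw [c1_inner]
    refine main.trans (mul_le_mul_of_nonneg_left ?_ hD0)
    have e2 := integral_add i1 i2
    simp only [RCLike.re_to_complex] at e2
    rw [e2, qw_sq vol _ h0']
    exact add_le_add (bknC_le vol K h P w hw) le_rfl
  · refine le_trans ?_ (key _ x (ix_mem x))
    refine mul_nonneg (inv_pos.2 (vol.pos _ x (ix_mem x))).le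
      (mul_nonneg (h.pos _ x (ix_mem x)).le (Complex.le_def.1 (Cv_nonneg (hG _ x (ix_mem x))
        (psd_of_hq (hherm _ x (ix_mem x)) fun ξ => ?_) _)).1)
    rw [hq_add, hq_smul]
    exact hpos _ x (ix_mem x) ξ
  · filter_upwards [hpt] with x ⟨i, hx, γ, t, hd, hle⟩
    have hw0 := h.pos i x hx
    have hv0 := vol.pos i x hx
    have h1 := contr_le (hG i x hx) (hherm i x hx) (γ := γ) (t := t)
      (a := κ x * vol.w i x / h.w i x) (fun ξ => by
        rw [hq_add, hq_smul, div_mul_eq_mul_div, le_div_iff₀ hw0]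
        linarith [hle ξ]) (w.1 i x)
    refine le_trans ?_ (mul_le_mul_of_nonneg_left (key i x hx) (hκ0 x))
    have e3 : pf vol (HB K h) (TC N (lowC K v hv)).1 (lowC K w hw).1 x = _ :=
      pf_T_low vol K h v w hx hd
    rw [e3, norm_mul, norm_mul, norm_inv, Complex.norm_real, Complex.norm_real,
      Real.norm_of_nonneg hw0.le, Real.norm_of_nonneg hv0.le, mul_pow, mul_pow]
    refine (mul_le_mul_of_nonneg_left (mul_le_mul_of_nonneg_left h1 (sq_nonneg _))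
      (sq_nonneg _)).trans (le_of_eq ?_)
    field_simp

end apri

/-! ### decreasing weights -/

/-- decreasing weights `Φ` with losses `ε + lam` -/
structure Wts {L : LB A} (h : HM L) (vol : HM (KB A)⁻¹) (K : Kah A) (ε : ℝ)
    (Φ lam : ℕ → M → ℝ) : Prop where
  sm : ∀ μ, A.Sm (Φ μ)
  anti : ∀ x, Antitone fun μ => Φ μ x
  lm : ∀ μ, Measurable (lam μ)
  l0 : ∀ μ x, 0 ≤ lam μ x
  lb : ∃ C, ∀ μ x, lam μ x ≤ C
  lim : ∀ᵐ x ∂(vm vol), Tendsto (fun μ => lam μ x) atTop (𝓝 0)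
  pos : ∀ μ i, ∀ x ∈ (A.e i).source, ∀ ξ, 0 ≤ Cq h K (Φ μ) (ε + lam μ x) i x ξ

/-- data `v μ` with `∂̄ v = γ ⊗ t`, `|t|² |γ|² ≤ κ`, `∫ κ ≤ D` -/
structure DatV (h : HM ((KB A)⁻¹ * N)) (vol : HM (KB A)⁻¹) (K : Kah A) (ε D : ℝ)
    (Φ lam κ : ℕ → M → ℝ) (v : ℕ → A.ι → M → FI n → ℂ) : Prop extends Wts h vol K ε Φ lam where
  vs : ∀ μ, IsV N (v μ)
  vc : ∀ μ, Cs (v μ)
  km : ∀ μ, AEMeasurable (κ μ) (vm vol)
  k0 : ∀ μ x, 0 ≤ κ μ x
  kD : ∀ μ, ∫⁻ x, ENNReal.ofReal (κ μ x) ∂(vm vol) ≤ ENNReal.ofReal D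
  db : ∀ μ, ∀ᵐ x ∂(vm vol), ∃ i, x ∈ (A.e i).source ∧ ∃ (γ : Fin n → ℂ) (t : FI n → ℂ),
    (∀ k, dbV (v μ) i k x = γ k • t) ∧ ∀ ξ : Fin n → ℂ,
      h.w i x * Real.exp (-Φ μ x) * (star t ⬝ᵥ (GK K i x *ᵥ t)).re * ‖star ξ ⬝ᵥ γ‖ ^ 2 ≤
        κ μ x * vol.w i x * Cq h K (Φ μ) (ε + lam μ x) i x ξ

variable {h : HM ((KB A)⁻¹ * N)} {vol : HM (KB A)⁻¹} {K : Kah A} {ε D : ℝ}
  {Φ lam κ : ℕ → M → ℝ} {v : ℕ → A.ι → M → FI n → ℂ}

theorem Cq_tw {L : LB A} (h : HM L) (K : Kah A) {Φ : M → ℝ} (hΦ : A.Sm Φ) (e : ℝ) {i : A.ι}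
    {x : M} (hx : x ∈ (A.e i).source) (ξ : Fin n → ℂ) :
    Cq h K Φ e i x ξ = hq (cur (tw h Φ hΦ) i x) ξ + e * hq (K.g i x) ξ := by
  rw [cur_tw h hΦ i hx, hq_add, hq_eq_qf, hq_eq_qf, hq_eq_qf, Cq]

theorem Wts.shift {L : LB A} {h : HM L} (H : Wts h vol K ε Φ lam) (m : ℕ) :
    Wts h vol K ε (fun μ => Φ (μ + m)) (fun μ => lam (μ + m)) where
  sm _ := H.sm _
  anti x _ _ hab := H.anti x (Nat.add_le_add_right hab m)
  lm _ := H.lm _
  l0 _ := H.l0 _
  lb := H.lb.imp fun _ hC _ => hC _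
  lim := H.lim.mono fun _ hx => hx.comp (tendsto_add_atTop_nat m)
  pos _ := H.pos _

theorem DatV.shift (H : DatV h vol K ε D Φ lam κ v) (m : ℕ) :
    DatV h vol K ε D (fun μ => Φ (μ + m)) (fun μ => lam (μ + m)) (fun μ => κ (μ + m))
      (fun μ => v (μ + m)) where
  toWts := H.toWts.shift m
  vs _ := H.vs _
  vc _ := H.vc _
  km _ := H.km _
  k0 _ := H.k0 _
  kD _ := H.kD _
  db _ := H.db _

/-- equi-integrability -/
theorem Wts.equi (H : Wts h vol K ε Φ lam) {Λ : ℝ} (hΛ0 : 0 ≤ Λ) (hΛ : ∀ μ x, lam μ x ≤ Λ)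
    (μ0 : ℕ) (w : CS (BN N)) {δ : ℝ} (hδ : 0 < δ) : ∀ᶠ μ in atTop, ∀ u : CS (BN N),
    ∫ x, (ε + lam μ x) * pq vol (HB K (tw h (Φ μ) (H.sm μ))) u.1 x ∂(vm vol) ≤
      ε * nr (cH vol K (tw h (Φ μ) (H.sm μ))) u ^ 2 + δ +
      2 * Λ * (nr (cH vol K (tw h (Φ μ) (H.sm μ))) u ^ 2 -
        nr (cH vol K (tw h (Φ μ0) (H.sm μ0))) u ^ 2) +
      2 * Λ * nr (cH vol K (tw h (Φ μ0) (H.sm μ0))) (u - w) ^ 2 := by
  set p : ℕ → CS (BN N) → M → ℝ := fun μ u => pq vol (HB K (tw h (Φ μ) (H.sm μ))) u.1 with hp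
  have hi : ∀ μ u, Integrable (p μ u) (vm vol) := fun μ u => integrable_pq1 vol _ u
  have hl : ∀ μ μ' u, Integrable (fun x => lam μ x * p μ' u x) (vm vol) := fun μ μ' u =>
    integrable_pq vol _ (H.lm μ) (H.l0 μ) (fun _ _ => ⟨Λ, fun x _ => hΛ μ x⟩) u
  have hp0 : ∀ μ u x, 0 ≤ p μ u x := fun μ u x => pq_nonneg vol _ _ x
  have hdom : Tendsto (fun μ => ∫ x, lam μ x * p μ0 w x ∂(vm vol)) atTop
      (𝓝 (∫ _x, (0 : ℝ) ∂(vm vol))) := by
    refine tendsto_integral_of_dominated_convergence (fun x => Λ * p μ0 w x)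
      (fun μ => (hl μ μ0 w).1) ((hi μ0 w).const_mul Λ)
      (fun μ => Eventually.of_forall fun x => ?_) ?_
    · rw [Real.norm_of_nonneg (mul_nonneg (H.l0 μ x) (hp0 _ _ x))]
      exact mul_le_mul_of_nonneg_right (hΛ μ x) (hp0 _ _ x)
    · filter_upwards [H.lim] with x hx
      have h1 := hx.mul_const (p μ0 w x)
      rwa [zero_mul] at h1
  rw [integral_zero] at hdom
  filter_upwards [eventually_ge_atTop μ0, hdom.eventually (eventually_lt_nhds (half_pos hδ))]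
    with μ hμ hμδ u
  rw [nrm_c1_sq, nrm_c1_sq, nrm_c1_sq]
  have e0 : ∫ x, (ε + lam μ x) * p μ u x ∂(vm vol) =
      ε * ∫ x, p μ u x ∂(vm vol) + ∫ x, lam μ x * p μ u x ∂(vm vol) := by
    rw [← integral_const_mul, ← integral_add ((hi μ u).const_mul ε) (hl μ μ u)]
    exact integral_congr_ae (Eventually.of_forall fun x => add_mul _ _ _)
  have e2 : ∫ x, lam μ x * p μ u x ∂(vm vol) ≤ ∫ x, (2 * (lam μ x * p μ0 w x) +
      2 * Λ * (p μ u x - p μ0 u x) + 2 * Λ * p μ0 (u - w) x) ∂(vm vol) := by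
    refine integral_mono (hl μ μ u) (((((hl μ μ0 w).const_mul 2)).add
      (((hi μ u).sub (hi μ0 u)).const_mul _)).add ((hi μ0 (u - w)).const_mul _)) fun x => ?_
    have p4 : p μ0 u x ≤ 2 * p μ0 (u - w) x + 2 * p μ0 w x := by
      have h1 := pq_add_le vol (HB K (tw h (Φ μ0) (H.sm μ0))) (u - w).1 w.1 x
      rwa [Submodule.coe_sub, sub_add_cancel] at h1
    have p5 : p μ0 u x ≤ p μ u x := by
      simp only [hp]
      rw [pq_tw, pq_tw]
      exact mul_le_mul_of_nonneg_right (Real.exp_le_exp.2 (neg_le_neg (H.anti x hμ)))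
        (pq_nonneg vol _ _ x)
    have p7 := H.l0 μ x
    have p8 := hΛ μ x
    have q1 : lam μ x * (p μ u x - p μ0 u x) ≤ 2 * Λ * (p μ u x - p μ0 u x) :=
      mul_le_mul_of_nonneg_right (by linarith) (by linarith)
    have q2 := mul_le_mul_of_nonneg_left p4 p7
    have q3 := mul_le_mul_of_nonneg_right p8 (hp0 μ0 (u - w) x)
    show lam μ x * p μ u x ≤ 2 * (lam μ x * p μ0 w x) +
      2 * Λ * (p μ u x - p μ0 u x) + 2 * Λ * p μ0 (u - w) x
    nlinarith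
  have j1 : Integrable (fun x => 2 * (lam μ x * p μ0 w x)) (vm vol) := (hl μ μ0 w).const_mul 2
  have j2 : Integrable (fun x => 2 * Λ * (p μ u x - p μ0 u x)) (vm vol) :=
    ((hi μ u).sub (hi μ0 u)).const_mul _
  have j3 : Integrable (fun x => 2 * Λ * p μ0 (u - w) x) (vm vol) := (hi μ0 (u - w)).const_mul _
  have j12 : Integrable (fun x => 2 * (lam μ x * p μ0 w x) + 2 * Λ * (p μ u x - p μ0 u x))
    (vm vol) := j1.add j2
  rw [integral_add j12 j3, integral_add j1 j2, integral_const_mul, integral_const_mul,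
    integral_const_mul, integral_sub (hi μ u) (hi μ0 u)] at e2
  show ∫ x, (ε + lam μ x) * p μ u x ∂(vm vol) ≤ ε * ∫ x, p μ u x ∂(vm vol) + δ +
    2 * Λ * (∫ x, p μ u x ∂(vm vol) - ∫ x, p μ0 u x ∂(vm vol)) +
    2 * Λ * ∫ x, p μ0 (u - w) x ∂(vm vol)
  linarith

/-! ### restriction to the chart domains -/

open Classical in
/-- a polyvector field as an element of `MV N` -/
def toMV {v : A.ι → M → FI n → ℂ} (hv : IsV N v) : MV N :=
  ⟨fun i x => if x ∈ (A.e i).source then v i x else 0, mem_MV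
    ⟨fun i T => (hv.sm i T).congr fun z hz => by
        simp only [if_pos ((A.e i).map_target hz)],
      fun i j x hx => by simp only [if_pos hx.1, if_pos hx.2]; exact hv.tr i j x hx⟩
    fun i x hx => if_neg hx⟩

theorem toMV_apply {v : A.ι → M → FI n → ℂ} (hv : IsV N v) {i : A.ι} {x : M}
    (hx : x ∈ (A.e i).source) : (toMV hv).1 i x = v i x := if_pos hx

theorem toMV_cs {v : A.ι → M → FI n → ℂ} (hv : IsV N v) (hc : Cs v) : Cs (toMV hv).1 := by
  obtain ⟨C, hC, h0⟩ := hc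
  refine ⟨C, hC, fun i x hx => ?_⟩
  by_cases hi : x ∈ (A.e i).source
  · rw [toMV_apply hv hi, h0 i x hx]
  · exact if_neg hi

theorem toMV_dbV {v : A.ι → M → FI n → ℂ} (hv : IsV N v) {i : A.ι} {x : M}
    (hx : x ∈ (A.e i).source) (k : Fin n) : dbV (toMV hv).1 i k x = dbV v i k x := by
  funext T
  refine T223.Hm.dd_congr (s := I) (a := k) (f := fun y => (toMV hv).1 i y T)
    (g := fun y => v i y T) hx ?_
  filter_upwards [(A.e i).open_source.mem_nhds hx] with y hy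
  rw [toMV_apply hv hy]

theorem toMV_delV {L : LB A} (h : HM L) {v : A.ι → M → FI n → ℂ} (hv : IsV N v) {i : A.ι} {x : M}
    (hx : x ∈ (A.e i).source) : delV h (toMV hv).1 i x = delV h v i x := by
  unfold delV
  congr 1
  refine Finset.sum_congr rfl fun l _ => ?_
  congr 1
  funext T
  rw [T223.Hm.dl_eq, T223.Hm.dl_eq]
  refine T223.Hm.dd_congr hx ?_
  filter_upwards [(A.e i).open_source.mem_nhds hx] with y hy
  rw [toMV_apply hv hy]

/-- the test form of a test polyvector -/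
def tf (K : Kah A) {v : A.ι → M → FI n → ℂ} (hv : IsV N v) (hc : Cs v) : CS (BN N) :=
  lowC K (toMV hv) (toMV_cs hv hc)

/-- **the dual inequality**, in the pre-Hilbert space of the first weight -/
theorem DatV.dual0 (H : DatV h vol K ε D Φ lam κ v) (P : Part A) (hcut : Cut K) (hε : 0 ≤ ε)
    (hD : 0 ≤ D) (w : CS (BN N)) {η : ℝ} (hη : 0 < η) : ∀ᶠ μ in atTop,
    ‖(cH vol K (tw h (Φ 0) (H.sm 0))).inner (TC N (tf K (H.vs μ) (H.vc μ))) w‖ ^ 2 ≤
      D * (nr (cH vol K (tw h (Φ 0) (H.sm 0))) (TsC K (tw h (Φ 0) (H.sm 0)) w) ^ 2 +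
        n * ε * nr (cH vol K (tw h (Φ 0) (H.sm 0))) w ^ 2) + η := by
  obtain ⟨Λ', hΛ'⟩ := H.lb
  set Λ := max Λ' 0 with hΛd
  have hΛ0 : 0 ≤ Λ := le_max_right _ _
  have hΛ : ∀ μ x, lam μ x ≤ Λ := fun μ x => (hΛ' μ x).trans (le_max_left _ _)
  have hn : (0 : ℝ) ≤ n := Nat.cast_nonneg _
  have e0 : ∀ μ x, 0 ≤ ε + lam μ x := fun μ x => add_nonneg hε (H.l0 μ x)
  have em : ∀ μ, Measurable fun x => ε + lam μ x := fun μ => (H.lm μ).const_add ε
  have e0' : ∀ μ x, 0 ≤ n * (ε + lam μ x) := fun μ x => mul_nonneg hn (e0 μ x)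
  have eb' : ∀ μ x, n * (ε + lam μ x) ≤ n * (ε + Λ) := fun μ x =>
    mul_le_mul_of_nonneg_left (add_le_add le_rfl (hΛ μ x)) hn
  refine dem_mov (fun μ => cH vol K (tw h (Φ μ) (H.sm μ))) (TC N)
    (fun μ => TsC K (tw h (Φ μ) (H.sm μ))) (fun μ => hadjC vol K _ P)
    (fun μ μ' hμ => nr_tw_mono vol K h _ _ fun x => H.anti x hμ)
    (fun μ => mulC _ (sm_expC (H.sm μ) (H.sm 0))) (fun μ => cH_tw vol K h _ _ _)
    (fun μ => TC N (tf K (H.vs μ) (H.vc μ))) hD (mul_nonneg hn hε) (Cq := n * (2 * Λ))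
    (by positivity)
    (fun μ => qw vol (HB K (tw h (Φ μ) (H.sm μ))) fun x => n * (ε + lam μ x))
    (fun μ0 w δ hδ => ?_) (fun μ w τ hτ => ?_) w hη
  · filter_upwards [H.toWts.equi hΛ0 hΛ μ0 w (δ := δ / (n + 1)) (by positivity)] with μ hμ u
    have h1 := mul_le_mul_of_nonneg_left (hμ u) hn
    have h2 : n * (δ / (n + 1)) ≤ δ := by
      rw [← mul_div_assoc, div_le_iff₀ (by positivity)]
      nlinarith
    have h3 : ∫ x, n * (ε + lam μ x) * pq vol (HB K (tw h (Φ μ) (H.sm μ))) u.1 x ∂(vm vol) =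
        n * ∫ x, (ε + lam μ x) * pq vol (HB K (tw h (Φ μ) (H.sm μ))) u.1 x ∂(vm vol) := by
      rw [← integral_const_mul]
      exact integral_congr_ae (Eventually.of_forall fun x => mul_assoc _ _ _)
    rw [qw_sq vol _ (e0' μ), h3]
    unfold nr at h1
    linarith
  · refine proj_cut_core (cH vol K (tw h (Φ μ) (H.sm μ))) (TC N)
      (TsC K (tw h (Φ μ) (H.sm μ))) (hadjC vol K (tw h (Φ μ) (H.sm μ)) P) hTTC
      (TC N (tf K (H.vs μ) (H.vc μ))) (hTTC _) hD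
      (qw vol (HB K (tw h (Φ μ) (H.sm μ))) fun x => n * (ε + lam μ x))
      (fun u => Real.sqrt_nonneg _) (Cq := Real.sqrt (n * (ε + Λ))) (fun u u' => ?_)
      (cutP vol K (tw h (Φ μ) (H.sm μ)) P hcut _ _ fun χ hs h01 u =>
        qw_mul_le vol _ ((em μ).const_mul _) (e0' μ)
        (fun _ _ => ⟨_, fun x _ => eb' μ x⟩) hs h01 u) (fun u => ?_) w hτ
    · exact (qw_abs_sub vol _ ((em μ).const_mul _) (e0' μ) (fun _ _ => ⟨_, fun x _ => eb' μ x⟩)
        u u').trans (qw_le vol _ (HB_pos K _) (by positivity) (e0' μ) (eb' μ) _)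
    · refine apriC vol K _ P (em μ) (e0 μ) (fun _ _ => ⟨_, fun x _ => add_le_add le_rfl (hΛ μ x)⟩)
        (fun i x hx ξ => ?_) (H.km μ) (H.k0 μ) hD (H.kD μ) _ _ ?_ u
      · rw [← Cq_tw h K (H.sm μ) _ hx]
        exact H.pos μ i x hx ξ
      · filter_upwards [H.db μ] with x ⟨i, hx, γ, t, hd, hle⟩
        refine ⟨i, hx, γ, t, fun k => (toMV_dbV _ hx k).trans (hd k), fun ξ => ?_⟩
        rw [← Cq_tw h K (H.sm μ) _ hx]
        exact hle ξ

end

end Crest.Agent.X261.Hs
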