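import Crest.Agent.X261.Hs.E
import Crest.Agent.X261.Jet.HLd

/-!
# X261 / Hs (helper68): the Hoermander-Demailly inequality with singular weights

* `DatV.dual`, `hs_lev` : the dual inequality for one level `ε`, at any weight `Φ m`;
* `hs_sing` : the limit inequality `|L|² ≤ D ∫ ρ |δ u|²`, `ρ ≥ limsup e^Φ`;
* `hs_scal`, `hs_hahn` : data `c ν μ • v₁`, and the Hahn-Banach form.
-/

set_option autoImplicit false
set_option linter.unusedSectionVars false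
set_option linter.style.haveILetI false

open Set Filter Topology Complex MeasureTheory
open scoped ContDiff Matrix ComplexConjugate ComplexOrder

namespace Crest.Agent.X261.Hs

open Crest.Agent.R275 Crest.Agent.R275.Geo Crest.Agent.R275.Pai323 Crest.Agent.R275.Core144
open Crest.Agent.R273.Defs_333 Crest.Agent.R273.HM_333 Crest.Agent.R273.Kah_333
open Crest.Agent.R273.Vm_333 Crest.Agent.R273.NormC_505
open Crest.Agent.R273.Fock_243 Crest.Agent.R273.Bkn_243 Crest.Agent.R273.Pos_243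
open Crest.Agent.R273.LamN127 Crest.Agent.R273.DVec_733 Crest.Agent.R273.DMet_733
open Crest.Agent.R273.DMetB_733 Crest.Agent.R273.BKNa_37 Crest.Agent.R273.BKNb_37
open Crest.Agent.R273.BKNc_37 Crest.Agent.R273.Lim_505
open Crest.Agent.R273.HDN_505 (HB HB_pos)
open Crest.Agent.T223.Hm (gl ix ix_mem Cs Cut hq gl_eq gl_sm gl_congr integral_gl)
open Crest.Agent.X261.Hc (Cq hq_eq_qf)
open Crest.Agent.X261.Jet.HL (Th WS nW pr)

noncomputable section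

theorem eq_of_inner {S : Type*} [AddCommGroup S] [Module ℂ S] (c : InnerProductSpace.Core ℂ S)
    {a b : S} (h : ∀ u, c.inner u a = c.inner u b) : a = b := by
  letI : NormedAddCommGroup S := c.toNormedAddCommGroup
  letI : InnerProductSpace ℂ S := .ofCore c.toCore
  exact ext_inner_left ℂ h

variable {n : ℕ} {M : Type} [TopologicalSpace M] {A : Atl n M} {N : LB A}
variable [Countable A.ι] [T2Space M] [MeasurableSpace M] [BorelSpace M]

theorem sm_exp1 {Φ : M → ℝ} (hΦ : A.Sm Φ) : A.Sm fun x => (Real.exp (Φ x) : ℂ) := fun i =>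
  Complex.ofRealCLM.contDiff.comp_contDiffOn (Real.contDiff_exp.comp_contDiffOn (hΦ i))

section tw

variable (vol : HM (KB A)⁻¹) (K : Kah A) (h : HM ((KB A)⁻¹ * N)) {Φ : M → ℝ} (hΦ : A.Sm Φ)

theorem cH_tw1 (u w : CS (BN N)) :
    (cH vol K (tw h Φ hΦ)).inner u (mulC _ (sm_exp1 hΦ) w) = (cH vol K h).inner u w := by
  rw [c1_inner, c1_inner]
  refine integral_congr_ae (Eventually.of_forall fun x => ?_)
  rw [pf_mul_right, pf_tw, ← mul_assoc, ← Complex.ofReal_mul, ← Real.exp_add, add_neg_cancel,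
    Real.exp_zero, Complex.ofReal_one, one_mul]

include vol in
/-- `δ_Φ (e^Φ w) = e^Φ δ w` -/
theorem TsC_tw1 (P : Part A) (w : CS (BN N)) :
    TsC K (tw h Φ hΦ) (mulC _ (sm_exp1 hΦ) w) = mulC _ (sm_exp1 hΦ) (TsC K h w) :=
  eq_of_inner (cH vol K (tw h Φ hΦ)) fun u => by
    rw [← hadjC vol K _ P, cH_tw1, cH_tw1, hadjC vol K _ P]

theorem nr_tw1 (u : CS (BN N)) : nr (cH vol K (tw h Φ hΦ)) (mulC _ (sm_exp1 hΦ) u) ^ 2 =
    ∫ x, Real.exp (Φ x) * pq vol (HB K h) u.1 x ∂(vm vol) := by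
  rw [nrm_c1_sq]
  refine integral_congr_ae (Eventually.of_forall fun x => ?_)
  rw [pq_mul, pq_tw, Complex.norm_real, Real.norm_of_nonneg (Real.exp_pos _).le, ← mul_assoc, sq,
    mul_assoc (Real.exp _), ← Real.exp_add, add_neg_cancel, Real.exp_zero, mul_one]

theorem nW_low (U : M → ℝ) (w : MV N) (hw : Cs w.1) : nW K h vol U w.1 =
    ∫ x, Real.exp (U x) * pq vol (HB K h) (lowC K w hw).1 x ∂(vm vol) :=
  integral_congr_ae (Eventually.of_forall fun x => by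
    have h1 := congrArg Complex.re (pf_low vol K h w w x)
    exact congrArg (fun t => Real.exp (U x) * t) h1.symm)

theorem pr_low (v w : MV N) (hv : Cs v.1) (hw : Cs w.1) :
    pr K h vol v.1 w.1 = (cH vol K h).inner (lowC K v hv) (lowC K w hw) :=
  (cH_low vol K h v w hv hw).symm

end tw

variable {h : HM ((KB A)⁻¹ * N)} {vol : HM (KB A)⁻¹} {K : Kah A}

/-- **the dual inequality** at one level `ε`, for the weight `Φ m` -/
theorem DatV.dual {ε D : ℝ} {Φ lam κ : ℕ → M → ℝ} {v : ℕ → A.ι → M → FI n → ℂ}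
    (H : DatV h vol K ε D Φ lam κ v) (P : Part A) (hcut : Cut K) (hε : 0 ≤ ε)
    (hD : 0 ≤ D) (m : ℕ) (u : CS (BN N)) {η : ℝ} (hη : 0 < η) : ∀ᶠ μ in atTop,
    ‖(cH vol K h).inner (tf K (H.vs μ) (H.vc μ)) (TsC K h u)‖ ^ 2 ≤
      D * (∫ x, Real.exp (Φ m x) * pq vol (HB K h) (TsC K h u).1 x ∂(vm vol) +
        n * ε * ∫ x, Real.exp (Φ m x) * pq vol (HB K h) u.1 x ∂(vm vol)) + η := by
  have h1 := (H.shift m).dual0 P hcut hε hD (mulC _ (sm_exp1 ((H.shift m).sm 0)) u) hη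
  rw [TsC_tw1 vol K h _ P, nr_tw1, nr_tw1] at h1
  rw [← map_add_atTop_eq_nat m, eventually_map]
  filter_upwards [h1] with μ hμ
  rw [cH_tw1, hadjC vol K h P] at hμ
  simp only [zero_add] at hμ
  exact hμ

theorem toMV_isV (v : MV N) : toMV (isV v) = v := Subtype.ext (funext fun i => funext fun x => by
  by_cases hx : x ∈ (A.e i).source
  · exact toMV_apply _ hx
  · rw [(toMV (isV v)).2.2.1 i x hx, v.2.2.1 i x hx])

theorem tf_isV (K : Kah A) (v : MV N) (hv : Cs v.1) : tf K (isV v) hv = lowC K v hv :=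
  Subtype.ext (congrArg (low K N) (toMV_isV v))

theorem Th_eq {L : LB A} (K : Kah A) (h : HM L) (U : M → ℝ) (e : ℝ) (i : A.ι) (x : M)
    (ξ : Fin n → ℂ) : Th K h U e i x ξ = Cq h K U e i x ξ := by
  rw [Th, Cq, hq_eq_qf, hq_eq_qf, hq_eq_qf]

theorem ws_wts {L : LB A} {h : HM L} {Φ lam : ℕ → ℕ → M → ℝ} {eps : ℕ → ℝ} {C0 : ℝ}
    (W : WS K h vol Φ lam eps C0) (ν : ℕ) : Wts h vol K (eps ν) (Φ ν) (lam ν) where
  sm := W.sm ν
  anti := W.anti ν
  lm := W.lm ν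
  l0 := W.l0 ν
  lb := W.lb ν
  lim := W.lim ν
  pos μ i x hx ξ := Th_eq K h _ _ i x ξ ▸ W.pos ν μ i x hx ξ

/-- data `v ν μ` with `∂̄ v = γ ⊗ t`, `|t|² |γ|²_Θ ≤ κ`, `∫ κ ≤ D` -/
structure DS (K : Kah A) (h : HM ((KB A)⁻¹ * N)) (vol : HM (KB A)⁻¹) (Φ lam : ℕ → ℕ → M → ℝ)
    (eps : ℕ → ℝ) (D : ℝ) (κ : ℕ → ℕ → M → ℝ) (v : ℕ → ℕ → MV N) : Prop where
  vc : ∀ ν μ, Cs (v ν μ).1
  km : ∀ ν μ, AEMeasurable (κ ν μ) (vm vol)
  k0 : ∀ ν μ x, 0 ≤ κ ν μ x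
  kD : ∀ ν μ, ∫⁻ x, ENNReal.ofReal (κ ν μ x) ∂(vm vol) ≤ ENNReal.ofReal D
  db : ∀ ν μ, ∀ᵐ x ∂(vm vol), ∃ i, x ∈ (A.e i).source ∧ ∃ (γ : Fin n → ℂ) (t : FI n → ℂ),
    (∀ k, dbV (v ν μ).1 i k x = γ k • t) ∧ ∀ ξ : Fin n → ℂ,
      h.w i x * Real.exp (-Φ ν μ x) * (star t ⬝ᵥ (GK K i x *ᵥ t)).re * ‖star ξ ⬝ᵥ γ‖ ^ 2 ≤
        κ ν μ x * vol.w i x * Th K h (Φ ν μ) (eps ν + lam ν μ x) i x ξ

variable {Φ lam κ : ℕ → ℕ → M → ℝ} {eps : ℕ → ℝ} {C0 D : ℝ} {v : ℕ → ℕ → MV N}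

theorem DS.datV (H : DS K h vol Φ lam eps D κ v) (W : WS K h vol Φ lam eps C0) (ν : ℕ) :
    DatV h vol K (eps ν) D (Φ ν) (lam ν) (κ ν) fun μ => (v ν μ).1 where
  toWts := ws_wts W ν
  vs μ := isV (v ν μ)
  vc := H.vc ν
  km := H.km ν
  k0 := H.k0 ν
  kD := H.kD ν
  db μ := by
    filter_upwards [H.db ν μ] with x ⟨i, hx, γ, t, h1, h2⟩
    exact ⟨i, hx, γ, t, h1, fun ξ => Th_eq K h _ _ i x ξ ▸ h2 ξ⟩

/-- the dual inequality at the level `ν` -/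
theorem hs_lev (W : WS K h vol Φ lam eps C0) (H : DS K h vol Φ lam eps D κ v) (P : Part A)
    (hcut : Cut K) (hD : 0 ≤ D) (ν m : ℕ) (u : CS (BN N)) {η : ℝ} (hη : 0 < η) : ∀ᶠ μ in atTop,
    ‖(cH vol K h).inner (lowC K (v ν μ) (H.vc ν μ)) (TsC K h u)‖ ^ 2 ≤
      D * (∫ x, Real.exp (Φ ν m x) * pq vol (HB K h) (TsC K h u).1 x ∂(vm vol) +
        n * eps ν * ∫ x, Real.exp (Φ ν m x) * pq vol (HB K h) u.1 x ∂(vm vol)) + η := by
  filter_upwards [(H.datV W ν).dual P hcut (W.e0 ν) hD m u hη] with μ hμ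
  rw [← tf_isV]
  exact hμ

/-- the weights are eventually almost below `ρ` in the mean -/
theorem mean_le {X : Type*} [MeasurableSpace X] {μ : Measure X} {E : ℕ → ℕ → X → ℝ}
    (hm : ∀ ν m, Measurable (E ν m)) (h0 : ∀ ν m x, 0 ≤ E ν m x)
    (ha : ∀ ν x, Antitone fun m => E ν m x) {C : ℝ} (hC : ∀ ν x, E ν 0 x ≤ C) {ρ f : X → ℝ}
    (hρ : AEMeasurable ρ μ) (hρ0 : ∀ x, 0 ≤ ρ x) (hf : Integrable f μ) (hf0 : ∀ x, 0 ≤ f x)
    (hi : Integrable (fun x => ρ x * f x) μ)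
    (hl : ∀ᵐ x ∂μ, ∀ δ > 0, ∀ᶠ ν in atTop, ∃ m, E ν m x ≤ ρ x + δ) {η : ℝ} (hη : 0 < η) :
    ∀ᶠ ν in atTop, ∃ m, ∫ x, E ν m x * f x ∂μ ≤ ∫ x, ρ x * f x ∂μ + η := by
  have hEC : ∀ ν m x, E ν m x ≤ C := fun ν m x => (ha ν x (Nat.zero_le m)).trans (hC ν x)
  have hbd : ∀ ν x, BddBelow (range fun m => E ν m x) := fun ν x =>
    ⟨0, by rintro _ ⟨m, rfl⟩; exact h0 ν m x⟩
  set F : ℕ → X → ℝ := fun ν x => ⨅ m, E ν m x with hF
  have hFm : ∀ ν, Measurable (F ν) := fun ν => Measurable.iInf (hm ν)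
  have hFl : ∀ ν x, Tendsto (fun m => E ν m x) atTop (𝓝 (F ν x)) := fun ν x =>
    tendsto_atTop_ciInf (ha ν x) (hbd ν x)
  have hFC : ∀ ν x, F ν x ≤ C := fun ν x => (ciInf_le (hbd ν x) 0).trans (hC ν x)
  have bd : ∀ (e : ℝ) x, e ≤ C → ‖max (e - ρ x) 0 * f x‖ ≤ max C 0 * f x := fun e x he => by
    rw [Real.norm_of_nonneg (mul_nonneg (le_max_right _ _) (hf0 x))]
    exact mul_le_mul_of_nonneg_right (max_le_max (by linarith [hρ0 x]) le_rfl) (hf0 x)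
  have ms : ∀ e : X → ℝ, Measurable e →
      AEStronglyMeasurable (fun x => max (e x - ρ x) 0 * f x) μ := fun e he =>
    (((he.aemeasurable.sub hρ).max aemeasurable_const).mul hf.1.aemeasurable).aestronglyMeasurable
  have l1 : Tendsto (fun ν => ∫ x, max (F ν x - ρ x) 0 * f x ∂μ) atTop (𝓝 (∫ _x, (0 : ℝ) ∂μ)) := by
    refine tendsto_integral_of_dominated_convergence _ (fun ν => ms _ (hFm ν))
      (hf.const_mul (max C 0)) (fun ν => Eventually.of_forall fun x => bd _ x (hFC ν x)) ?_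
    filter_upwards [hl] with x hx
    have h1 : Tendsto (fun ν => max (F ν x - ρ x) 0) atTop (𝓝 0) := by
      refine tendsto_order.2 ⟨fun a ha => Eventually.of_forall fun ν =>
        ha.trans_le (le_max_right _ _), fun a ha => ?_⟩
      filter_upwards [hx (a / 2) (half_pos ha)] with ν ⟨m, hm⟩
      have h2 : F ν x ≤ E ν m x := ciInf_le (hbd ν x) m
      exact max_lt (by linarith) ha
    have h2 := h1.mul_const (f x)
    rwa [zero_mul] at h2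
  rw [integral_zero] at l1
  filter_upwards [l1.eventually (eventually_lt_nhds hη)] with ν hν
  have l2 : Tendsto (fun m => ∫ x, max (E ν m x - ρ x) 0 * f x ∂μ) atTop
      (𝓝 (∫ x, max (F ν x - ρ x) 0 * f x ∂μ)) :=
    tendsto_integral_of_dominated_convergence _ (fun m => ms _ (hm ν m))
      (hf.const_mul (max C 0)) (fun m => Eventually.of_forall fun x => bd _ x (hEC ν m x))
      (Eventually.of_forall fun x =>
        (((hFl ν x).sub_const _).max tendsto_const_nhds).mul_const (f x))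
  obtain ⟨m, hm'⟩ := (l2.eventually (eventually_lt_nhds hν)).exists
  refine ⟨m, ?_⟩
  have i1 : Integrable (fun x => max (E ν m x - ρ x) 0 * f x) μ :=
    (hf.const_mul (max C 0)).mono' (ms _ (hm ν m))
      (Eventually.of_forall fun x => bd _ x (hEC ν m x))
  have e1 : ∫ x, E ν m x * f x ∂μ ≤ ∫ x, (ρ x * f x + max (E ν m x - ρ x) 0 * f x) ∂μ := by
    refine integral_mono_of_nonneg (Eventually.of_forall fun x => mul_nonneg (h0 ν m x) (hf0 x))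
      (hi.add i1) (Eventually.of_forall fun x => ?_)
    show E ν m x * f x ≤ ρ x * f x + max (E ν m x - ρ x) 0 * f x
    rw [← add_mul]
    exact mul_le_mul_of_nonneg_right (by linarith [le_max_left (E ν m x - ρ x) 0]) (hf0 x)
  rw [integral_add hi i1] at e1
  linarith

/-- **the Hoermander-Demailly inequality with a singular weight** -/
theorem hs_sing (W : WS K h vol Φ lam eps C0) (H : DS K h vol Φ lam eps D κ v) (P : Part A)
    (hcut : Cut K) (hD : 0 ≤ D) {ρ : M → ℝ} (hm : Measurable ρ) (h0 : ∀ x, 0 ≤ ρ x)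
    (hb : ∀ C, IsCompact C → ∃ c, ∀ x ∈ C, ρ x ≤ c)
    (hl : ∀ᵐ x ∂(vm vol), ∀ δ > 0, ∀ᶠ ν in atTop, ∃ m, Real.exp (Φ ν m x) ≤ ρ x + δ)
    (u : CS (BN N)) {L : ℂ} (hL : ∀ δ > 0, ∀ᶠ ν in atTop, ∃ᶠ μ in atTop,
      ‖(cH vol K h).inner (lowC K (v ν μ) (H.vc ν μ)) (TsC K h u) - L‖ ≤ δ) :
    ‖L‖ ^ 2 ≤ D * ∫ x, ρ x * pq vol (HB K h) (TsC K h u).1 x ∂(vm vol) := by
  set I := ∫ x, ρ x * pq vol (HB K h) (TsC K h u).1 x ∂(vm vol) with hI
  set J := ∫ x, Real.exp C0 * pq vol (HB K h) u.1 x ∂(vm vol) with hJ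
  have key : ∀ δ > 0, ‖L‖ ^ 2 ≤ D * (I + δ + δ) + δ + δ * (2 * ‖L‖ + δ) := by
    intro δ hδ
    have e1 := mean_le (μ := vm vol) (E := fun ν m x => Real.exp (Φ ν m x))
      (fun ν m => (continuous_of_sm (W.sm ν m)).measurable.exp) (fun _ _ _ => (Real.exp_pos _).le)
      (fun ν x _ _ hab => Real.exp_le_exp.2 (W.anti ν x hab)) (C := Real.exp C0)
      (fun ν x => Real.exp_le_exp.2 (W.le ν x)) hm.aemeasurable h0
      (integrable_pq1 vol (HB K h) (TsC K h u)) (fun x => pq_nonneg vol _ _ x)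
      (integrable_pq vol (HB K h) hm h0 hb (TsC K h u)) hl hδ
    have e2 : ∀ᶠ ν in atTop, n * eps ν * J < δ := by
      have h1 := (W.elim.const_mul (n : ℝ)).mul_const J
      rw [mul_zero, zero_mul] at h1
      exact h1.eventually (eventually_lt_nhds hδ)
    obtain ⟨ν, ⟨m, h1⟩, h2, h3⟩ := (e1.and (e2.and (hL δ hδ))).exists
    obtain ⟨μ, h4, h5⟩ := (h3.and_eventually (hs_lev W H P hcut hD ν m u hδ)).exists
    have h6 : ∫ x, Real.exp (Φ ν m x) * pq vol (HB K h) u.1 x ∂(vm vol) ≤ J :=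
      integral_mono_of_nonneg (Eventually.of_forall fun x =>
        mul_nonneg (Real.exp_pos _).le (pq_nonneg vol _ _ x))
        ((integrable_pq1 vol (HB K h) u).const_mul _) (Eventually.of_forall fun x =>
          mul_le_mul_of_nonneg_right (Real.exp_le_exp.2 ((W.anti ν x (Nat.zero_le m)).trans
            (W.le ν x))) (pq_nonneg vol _ _ x))
    have h7 := mul_le_mul_of_nonneg_left h6 (mul_nonneg (Nat.cast_nonneg n) (W.e0 ν))
    generalize (cH vol K h).inner (lowC K (v ν μ) (H.vc ν μ)) (TsC K h u) = a at h4 h5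
    have h8 : ‖a‖ ^ 2 ≤ D * (I + δ + δ) + δ :=
      h5.trans (add_le_add (mul_le_mul_of_nonneg_left (by linarith) hD) le_rfl)
    have h9 : ‖L‖ ≤ ‖a‖ + δ := by
      have := norm_sub_norm_le L a
      rw [norm_sub_rev] at this
      linarith
    have h10 : ‖a‖ ≤ ‖L‖ + δ := by linarith [norm_sub_norm_le a L]
    nlinarith [norm_nonneg L, norm_nonneg a]
  have hc : Tendsto (fun δ : ℝ => D * (I + δ + δ) + δ + δ * (2 * ‖L‖ + δ)) (𝓝[>] 0)
      (𝓝 (D * (I + 0 + 0) + 0 + 0 * (2 * ‖L‖ + 0))) :=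
    tendsto_nhdsWithin_of_tendsto_nhds (Continuous.tendsto (by fun_prop) 0)
  have h1 := ge_of_tendsto hc (eventually_nhdsWithin_of_forall key)
  simpa using h1

/-! ### scalar data -/

section scal

variable {B : FBun A} (vol : HM (KB A)⁻¹) (h : HDen B)

theorem integrable_cpf {c : M → ℂ} (hc : AEStronglyMeasurable c (vm vol)) (hb : ∀ x, ‖c x‖ ≤ 1)
    (g w : CS B) : Integrable (fun x => conj (c x) * pf vol h g.1 w.1 x) (vm vol) := by
  have h1 : Integrable (fun x => pf vol h g.1 w.1 x) (vm vol) := by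
    simpa only [Complex.ofReal_one, one_mul] using integrable_pf vol h wg_one g w
  refine h1.bdd_mul (c := 1) (Complex.continuous_conj.comp_aestronglyMeasurable hc)
    (Eventually.of_forall fun x => ?_)
  rw [Complex.norm_conj]
  exact hb x

theorem pf_add_right (u w w' : Sec B) (x : M) :
    pf vol h u (w + w') x = pf vol h u w x + pf vol h u w' x := by
  rw [← pf_conj, pf_add_left, map_add, pf_conj, pf_conj]

theorem pf_smul_right (c : ℂ) (u w : Sec B) (x : M) :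
    pf vol h u (c • w) x = c * pf vol h u w x := by
  rw [← pf_conj, pf_smul_left, map_mul, pf_conj, Complex.conj_conj]

/-- the pairing with the measurable section `c • g` -/
def lamC {c : M → ℂ} (hc : AEStronglyMeasurable c (vm vol)) (hb : ∀ x, ‖c x‖ ≤ 1) (g : CS B) :
    CS B →ₗ[ℂ] ℂ where
  toFun w := ∫ x, conj (c x) * pf vol h g.1 w.1 x ∂(vm vol)
  map_add' w w' := by
    rw [← integral_add (integrable_cpf vol h hc hb g w) (integrable_cpf vol h hc hb g w')]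
    refine integral_congr_ae (Eventually.of_forall fun x => ?_)
    simp only [Submodule.coe_add, pf_add_right, mul_add]
  map_smul' a w := by
    rw [RingHom.id_apply, smul_eq_mul, ← integral_const_mul]
    refine integral_congr_ae (Eventually.of_forall fun x => ?_)
    simp only [Submodule.coe_smul, pf_smul_right]
    ring

theorem lamC_apply {c : M → ℂ} (hc : AEStronglyMeasurable c (vm vol)) (hb : ∀ x, ‖c x‖ ≤ 1)
    (g w : CS B) : lamC vol h hc hb g w = ∫ x, conj (c x) * pf vol h g.1 w.1 x ∂(vm vol) := rfl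

theorem tendsto_lamC {c : ℕ → M → ℂ} {c0 : M → ℂ} (hc : ∀ k, AEStronglyMeasurable (c k) (vm vol))
    (hb : ∀ k x, ‖c k x‖ ≤ 1) (hl : ∀ᵐ x ∂(vm vol), Tendsto (fun k => c k x) atTop (𝓝 (c0 x)))
    (g w : CS B) : Tendsto (fun k => ∫ x, conj (c k x) * pf vol h g.1 w.1 x ∂(vm vol)) atTop
      (𝓝 (∫ x, conj (c0 x) * pf vol h g.1 w.1 x ∂(vm vol))) := by
  have h1 : Integrable (fun x => pf vol h g.1 w.1 x) (vm vol) := by
    simpa only [Complex.ofReal_one, one_mul] using integrable_pf vol h wg_one g w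
  refine tendsto_integral_of_dominated_convergence _
    (fun k => (integrable_cpf vol h (hc k) (hb k) g w).1) h1.norm
    (fun k => Eventually.of_forall fun x => ?_) ?_
  · rw [norm_mul, Complex.norm_conj]
    exact mul_le_of_le_one_left (norm_nonneg _) (hb k x)
  · filter_upwards [hl] with x hx
    exact ((Complex.continuous_conj.tendsto _).comp hx).mul_const _

end scal

theorem lamC_low {c : M → ℂ} (hc : AEStronglyMeasurable c (vm vol)) (hb : ∀ x, ‖c x‖ ≤ 1)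
    (v1 w : MV N) (h1 : Cs v1.1) (hw : Cs w.1) :
    lamC vol (HB K h) hc hb (lowC K v1 h1) (lowC K w hw) =
      ∫ x, conj (c x) * gl vol (inG K h w.1 v1.1) x ∂(vm vol) :=
  integral_congr_ae (Eventually.of_forall fun x => congrArg (fun t => conj (c x) * t)
    (pf_low vol K h v1 w x))

theorem inner_scal {c : M → ℂ} {v v1 : MV N} (hv : Cs v.1) (h1 : Cs v1.1)
    (he : ∀ i, ∀ x ∈ (A.e i).source, v.1 i x = c x • v1.1 i x) (w : CS (BN N)) :
    (cH vol K h).inner (lowC K v hv) w =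
      ∫ x, conj (c x) * pf vol (HB K h) (lowC K v1 h1).1 w.1 x ∂(vm vol) := by
  rw [c1_inner]
  refine integral_congr_ae (Eventually.of_forall fun x => ?_)
  have e : (lowC K v hv).1.1 (ix A x) x = c x • (lowC K v1 h1).1.1 (ix A x) x := by
    show (low K N v).1 _ x = c x • (low K N v1).1 _ x
    rw [low_apply, low_apply, he _ x (ix_mem x), Matrix.mulVec_smul, iB_smul]
  beta_reduce
  rw [pf_def, pf_def, e, star_smul, smul_dotProduct, smul_eq_mul, Complex.star_def]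
  ring

/-- data `c ν μ • v₁` with `c ν μ → c₁ ν → c₀` almost everywhere -/
theorem hs_scal (W : WS K h vol Φ lam eps C0) (H : DS K h vol Φ lam eps D κ v) (P : Part A)
    (hcut : Cut K) (hD : 0 ≤ D) {ρ : M → ℝ} (hm : Measurable ρ) (h0 : ∀ x, 0 ≤ ρ x)
    (hb : ∀ C, IsCompact C → ∃ c, ∀ x ∈ C, ρ x ≤ c)
    (hl : ∀ᵐ x ∂(vm vol), ∀ δ > 0, ∀ᶠ ν in atTop, ∃ m, Real.exp (Φ ν m x) ≤ ρ x + δ)
    {v1 : MV N} (h1 : Cs v1.1) {c : ℕ → ℕ → M → ℂ} {c1 : ℕ → M → ℂ} {c0 : M → ℂ}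
    (he : ∀ ν μ i, ∀ x ∈ (A.e i).source, (v ν μ).1 i x = c ν μ x • v1.1 i x)
    (cm : ∀ ν μ, AEStronglyMeasurable (c ν μ) (vm vol)) (cb : ∀ ν μ x, ‖c ν μ x‖ ≤ 1)
    (cm1 : ∀ ν, AEStronglyMeasurable (c1 ν) (vm vol)) (cb1 : ∀ ν x, ‖c1 ν x‖ ≤ 1)
    (cm0 : AEStronglyMeasurable c0 (vm vol)) (cb0 : ∀ x, ‖c0 x‖ ≤ 1)
    (l1 : ∀ ν, ∀ᵐ x ∂(vm vol), Tendsto (fun μ => c ν μ x) atTop (𝓝 (c1 ν x)))
    (l0 : ∀ᵐ x ∂(vm vol), Tendsto (fun ν => c1 ν x) atTop (𝓝 (c0 x))) (u : CS (BN N)) :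
    ‖lamC vol (HB K h) cm0 cb0 (lowC K v1 h1) (TsC K h u)‖ ^ 2 ≤
      D * ∫ x, ρ x * pq vol (HB K h) (TsC K h u).1 x ∂(vm vol) := by
  refine hs_sing W H P hcut hD hm h0 hb hl u fun δ hδ => ?_
  have t0 := tendsto_lamC vol (HB K h) cm1 cb1 l0 (lowC K v1 h1) (TsC K h u)
  filter_upwards [Metric.tendsto_nhds.1 t0 _ (half_pos hδ)] with ν hν
  have t1 := tendsto_lamC vol (HB K h) (cm ν) (cb ν) (l1 ν) (lowC K v1 h1) (TsC K h u)
  refine Eventually.frequently ?_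
  filter_upwards [Metric.tendsto_nhds.1 t1 _ (half_pos hδ)] with μ hμ
  rw [inner_scal (H.vc ν μ) h1 (he ν μ), lamC_apply, ← dist_eq_norm]
  exact (dist_triangle _ _ _).trans (by linarith)

/-- Hahn-Banach: a functional bounded on the range of `δ` splits -/
theorem hahn_Ts {ρ : M → ℝ} (hm : Measurable ρ) (h0 : ∀ x, 0 ≤ ρ x)
    (hb : ∀ C, IsCompact C → ∃ c, ∀ x ∈ C, ρ x ≤ c) (hD : 0 ≤ D) (l : CS (BN N) →ₗ[ℂ] ℂ)
    (hl : ∀ u, ‖l (TsC K h u)‖ ^ 2 ≤ D * ∫ x, ρ x * pq vol (HB K h) (TsC K h u).1 x ∂(vm vol)) :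
    ∃ Y : CS (BN N) →ₗ[ℂ] ℂ, (∀ u, Y (TsC K h u) = l (TsC K h u)) ∧
      ∀ w, ‖Y w‖ ^ 2 ≤ D * ∫ x, ρ x * pq vol (HB K h) w.1 x ∂(vm vol) := by
  have e : ∀ w : CS (BN N), (Real.sqrt D * Jet.Abs.pn (pcore vol (HB K h) hm h0 hb) w) ^ 2 =
      D * ∫ x, ρ x * pq vol (HB K h) w.1 x ∂(vm vol) := fun w => by
    rw [mul_pow, Real.sq_sqrt hD, Jet.Abs.pn_sq]
    show D * (ipw vol (HB K h) ρ w w).re = _
    rw [ipw_self, Complex.ofReal_re]
  obtain ⟨Y, h1, h2⟩ := Jet.Abs.hahn (pcore vol (HB K h) hm h0 hb) (LinearMap.range (TsC K h)) l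
    (Real.sqrt_nonneg D) (by
      rintro _ ⟨u, rfl⟩
      refine (abs_le_of_sq_le_sq' ?_ (mul_nonneg (Real.sqrt_nonneg _) (Jet.Abs.pn_nonneg _ _))).2
      rw [e]
      exact hl u)
  refine ⟨Y, fun u => h1 _ ⟨u, rfl⟩, fun w => ?_⟩
  rw [← e]
  exact pow_le_pow_left₀ (norm_nonneg _) (h2 w) 2

/-- **step (1) of JET**: `⟨c₀ v₁, ·⟩ = Λ + Y`, `Λ ∘ δ = 0`, `|Y w|² ≤ D ∫ ρ |w|²` -/
theorem hs_hahn (W : WS K h vol Φ lam eps C0) (H : DS K h vol Φ lam eps D κ v) (P : Part A)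
    (hcut : Cut K) (hD : 0 ≤ D) {ρ : M → ℝ} (hm : Measurable ρ) (h0 : ∀ x, 0 ≤ ρ x)
    (hb : ∀ C, IsCompact C → ∃ c, ∀ x ∈ C, ρ x ≤ c)
    (hl : ∀ᵐ x ∂(vm vol), ∀ δ > 0, ∀ᶠ ν in atTop, ∃ m, Real.exp (Φ ν m x) ≤ ρ x + δ)
    {v1 : MV N} (h1 : Cs v1.1) {c : ℕ → ℕ → M → ℂ} {c0 : M → ℂ}
    (he : ∀ ν μ i, ∀ x ∈ (A.e i).source, (v ν μ).1 i x = c ν μ x • v1.1 i x)
    (cm : ∀ ν μ, AEStronglyMeasurable (c ν μ) (vm vol)) (cb : ∀ ν μ x, ‖c ν μ x‖ ≤ 1)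
    (cm0 : AEStronglyMeasurable c0 (vm vol)) (cb0 : ∀ x, ‖c0 x‖ ≤ 1)
    (l1 : ∀ ν, ∀ᵐ x ∂(vm vol), Tendsto (fun μ => c ν μ x) atTop (𝓝 (c0 x))) :
    ∃ Λ Y : CS (BN N) →ₗ[ℂ] ℂ, (∀ u, Λ (TsC K h u) = 0) ∧
      (∀ (w : MV N) (hw : Cs w.1), Λ (lowC K w hw) =
        ∫ x, conj (c0 x) * gl vol (inG K h w.1 v1.1) x ∂(vm vol) - Y (lowC K w hw)) ∧
      ∀ (w : MV N) (hw : Cs w.1), ‖Y (lowC K w hw)‖ ^ 2 ≤
        D * ∫ x, ρ x * (gl vol (inG K h w.1 w.1) x).re ∂(vm vol) := by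
  obtain ⟨Y, y1, y2⟩ := hahn_Ts hm h0 hb hD (lamC vol (HB K h) cm0 cb0 (lowC K v1 h1)) fun u =>
    hs_scal W H P hcut hD hm h0 hb hl h1 he cm cb (fun _ => cm0) (fun _ => cb0) cm0 cb0 l1
      (Eventually.of_forall fun _ => tendsto_const_nhds) u
  refine ⟨lamC vol (HB K h) cm0 cb0 (lowC K v1 h1) - Y, Y, fun u => ?_, fun w hw => ?_,
    fun w hw => (y2 _).trans (le_of_eq ?_)⟩
  · rw [LinearMap.sub_apply, y1, sub_self]
  · rw [LinearMap.sub_apply, lamC_low]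
  · congr 1
    exact integral_congr_ae (Eventually.of_forall fun x =>
      congrArg (fun t => ρ x * Complex.re t) (pf_low vol K h w w x))

end

end Crest.Agent.X261.Hs
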