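import Crest.Agent.X261.Hs.F
import Crest.Agent.X277.AN.LSE

/-!
# X261 / Hs (helper68): step (1) of JET

* `Ap` : smooth approximation of a singular weight;
* `ws_psi` : the weights `N₀ g + log (e^f + e^g)`;
* `step1` : the functional `Λ = ⟨v₁, ·⟩ - Y` which kills the range of `δ`.
-/

set_option autoImplicit false
set_option linter.unusedSectionVars false
set_option linter.style.haveILetI false

open Set Filter Topology Complex MeasureTheory
open scoped ContDiff Matrix ComplexConjugate ComplexOrder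

namespace Crest.Agent.X261.Hs

open Crest.Agent.R275 Crest.Agent.R275.Geo Crest.Agent.R275.Pai323 Crest.Agent.R275.Core144
open Crest.Agent.R273.Defs_333 Crest.Agent.R273.HM_333 Crest.Agent.R273.Kah_333
open Crest.Agent.R273.Vm_333 Crest.Agent.R273.NormC_505
open Crest.Agent.R273.Fock_243
open Crest.Agent.R273.LamN127 Crest.Agent.R273.DVec_733 Crest.Agent.R273.DMet_733
open Crest.Agent.R273.DMetB_733 Crest.Agent.R273.BKNa_37 Crest.Agent.R273.BKNb_37
open Crest.Agent.R273.HDN_505 (HB HB_pos)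
open Crest.Agent.T223.Hm (gl ix ix_mem Cs Cut hq gl_eq gl_sm gl_congr integral_gl)
open Crest.Agent.X261.Hc (Cq hq_eq_qf)
open Crest.Agent.X261.Jet.HL (Th WS nW pr)
open Crest.Agent.X277.AN (qf gf gq SX sx_of_sm sm_of_sx qx_conv db_fsm)
open Crest.Agent.X277.AN.Horm (cs_meas)

noncomputable section

/-! ### functions of one variable -/

/-- the convex function `N₀ t + log (1 + e^t)` -/
def kap (N0 : ℝ) (t : ℝ) : ℝ := N0 * t + Real.log (1 + Real.exp t)

theorem kap_cd (N0 : ℝ) : ContDiff ℝ ∞ (kap N0) :=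
  (contDiff_const.mul contDiff_id).add
    ((contDiff_const.add Real.contDiff_exp).log fun t => by positivity)

theorem kap_der (N0 t : ℝ) : HasDerivAt (kap N0) (N0 + Real.sigmoid t) t := by
  have h1 := ((Real.hasDerivAt_exp t).const_add 1).log (by positivity)
  have h2 := ((hasDerivAt_id t).const_mul N0).add h1
  have e : N0 * 1 + Real.exp t / (1 + Real.exp t) = N0 + Real.sigmoid t := by
    rw [Real.sigmoid_def, Real.exp_neg]
    have := Real.exp_pos t
    field_simp
    ring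
  rw [e] at h2
  exact h2

theorem kap_eq (N0 s t : ℝ) :
    (N0 + 1) * s + kap N0 (t - s) = N0 * t + Real.log (Real.exp s + Real.exp t) := by
  have e : Real.exp s + Real.exp t = Real.exp s * (1 + Real.exp (t - s)) := by
    rw [mul_add, mul_one, ← Real.exp_add, add_sub_cancel]
  rw [e, Real.log_mul (Real.exp_pos _).ne' (by positivity), Real.log_exp, kap]
  ring

theorem exp_kap (N0 s t : ℝ) : Real.exp ((N0 + 1) * s + kap N0 (t - s)) =
    Real.exp (N0 * t) * (Real.exp s + Real.exp t) := by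
  rw [kap_eq, Real.exp_add, Real.exp_log (by positivity)]

theorem kap_mono {N0 s t s' t' : ℝ} (h0 : 0 ≤ N0) (hs : s ≤ s') (ht : t ≤ t') :
    (N0 + 1) * s + kap N0 (t - s) ≤ (N0 + 1) * s' + kap N0 (t' - s') := by
  rw [kap_eq, kap_eq]
  gcongr

/-- the cut-off function: `1` on `(-∞, -a-2]`, `0` on `[-a-1, ∞)` -/
def chi (a t : ℝ) : ℝ := Real.smoothTransition (-a - 1 - t)

theorem chi_cd (a : ℝ) : ContDiff ℝ ∞ (chi a) :=
  Real.smoothTransition.contDiff.comp (contDiff_const.sub contDiff_id)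

theorem chi_zero {a t : ℝ} (h : -a - 1 ≤ t) : chi a t = 0 :=
  Real.smoothTransition.zero_of_nonpos (by linarith)

theorem chi_one {a t : ℝ} (h : t ≤ -a - 2) : chi a t = 1 :=
  Real.smoothTransition.one_of_one_le (by linarith)

theorem chi_norm (a t : ℝ) : ‖(chi a t : ℂ)‖ ≤ 1 := by
  rw [Complex.norm_real, chi, Real.norm_of_nonneg (Real.smoothTransition.nonneg _)]
  exact Real.smoothTransition.le_one _

theorem chi_norm' (a t : ℝ) : ‖1 - (chi a t : ℂ)‖ ≤ 1 := by
  have h1 : 0 ≤ chi a t := Real.smoothTransition.nonneg _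
  have h2 : chi a t ≤ 1 := Real.smoothTransition.le_one _
  rw [← Complex.ofReal_one, ← Complex.ofReal_sub, Complex.norm_real,
    Real.norm_of_nonneg (by linarith)]
  linarith

theorem chi_der0 {a t : ℝ} (h : t ∉ Icc (-a - 2) (-a - 1)) : deriv (chi a) t = 0 := by
  rw [mem_Icc, not_and_or, not_le, not_le] at h
  rcases h with h | h
  · have e : chi a =ᶠ[𝓝 t] fun _ => 1 := by
      filter_upwards [Iio_mem_nhds h] with s hs
      exact chi_one (le_of_lt hs)
    rw [e.deriv_eq, deriv_const]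
  · have e : chi a =ᶠ[𝓝 t] fun _ => 0 := by
      filter_upwards [Ioi_mem_nhds h] with s hs
      exact chi_zero (le_of_lt hs)
    rw [e.deriv_eq, deriv_const]

theorem chi_kap (N0 a : ℝ) : ∃ C, 0 ≤ C ∧ ∀ t, deriv (chi a) t ^ 2 * Real.exp (-kap N0 t) ≤
    C * (Real.sigmoid t * (1 - Real.sigmoid t)) := by
  have hp : ∀ t, 0 < Real.sigmoid t * (1 - Real.sigmoid t) := fun t =>
    mul_pos (Real.sigmoid_pos t) (sub_pos.2 (Real.sigmoid_lt_one t))
  have hc : Continuous fun t => deriv (chi a) t ^ 2 * Real.exp (-kap N0 t) /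
      (Real.sigmoid t * (1 - Real.sigmoid t)) :=
    ((((chi_cd a).continuous_deriv (by simp)).pow 2).mul
      (kap_cd N0).continuous.neg.rexp).div
      (continuous_sigmoid.mul (continuous_const.sub continuous_sigmoid)) fun t => (hp t).ne'
  obtain ⟨C, hC⟩ := (isCompact_Icc (a := -a - 2) (b := -a - 1)).bddAbove_image hc.continuousOn
  refine ⟨max C 0, le_max_right _ _, fun t => ?_⟩
  by_cases ht : t ∈ Icc (-a - 2) (-a - 1)
  · rw [← div_le_iff₀ (hp t)]
    exact (hC ⟨t, ht, rfl⟩).trans (le_max_left _ _)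
  · rw [chi_der0 ht]
    have := mul_nonneg (le_max_right C 0) (hp t).le
    simpa using this

variable {n : ℕ} {M : Type} [TopologicalSpace M] {A : Atl n M} {N L : LB A}

/-- multiplication of a polyvector field by a smooth function -/
def mulV {c : M → ℂ} (hc : A.Sm c) (v : MV N) : MV N :=
  ⟨fun i x => c x • v.1 i x, fun i T => (hc i).mul (v.2.1 i T),
    fun i x hx => by
      beta_reduce
      rw [v.2.2.1 i x hx, smul_zero],
    fun i j x hx => by
      beta_reduce
      rw [v.2.2.2 i j x hx, Matrix.mulVec_smul]⟩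

theorem mulV_apply {c : M → ℂ} (hc : A.Sm c) (v : MV N) (i : A.ι) (x : M) :
    (mulV hc v).1 i x = c x • v.1 i x := rfl

theorem mulV_cs {c : M → ℂ} (hc : A.Sm c) {v : MV N} (hv : Cs v.1) : Cs (mulV hc v).1 := by
  obtain ⟨C, hC, h0⟩ := hv
  exact ⟨C, hC, fun i x hx => by rw [mulV_apply, h0 i x hx, smul_zero]⟩

theorem sm_compC {φ : ℝ → ℝ} (hφ : ContDiff ℝ ∞ φ) {ψ : M → ℝ} (hψ : A.Sm ψ) :
    A.Sm fun x => (φ (ψ x) : ℂ) := fun i =>
  Complex.ofRealCLM.contDiff.comp_contDiffOn (hφ.comp_contDiffOn (hψ i))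

theorem dbV_mulV {φ : ℝ → ℝ} (hφ : ContDiff ℝ ∞ φ) {ψ : M → ℝ} (hψ : A.Sm ψ) (v : MV N)
    {i : A.ι} {x : M} (hx : x ∈ (A.e i).source) (k : Fin n) :
    dbV (mulV (sm_compC hφ hψ) v).1 i k x =
      ((deriv φ (ψ x) : ℝ) * conj (gf A ψ i x k) : ℂ) • v.1 i x + (φ (ψ x) : ℂ) • dbV v.1 i k x := by
  funext T
  exact db_fsm (s := fun j y => v.1 j y T) (sx_of_sm hψ hx) hx
    ((hφ.differentiable (by simp) _).hasDerivAt)
    (((v.2.1 i T).contDiffAt ((A.e i).open_target.mem_nhds ((A.e i).map_source hx))).differentiableAt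
      (by simp)) k

/-- curvature of `b f + k (g - f)` -/
theorem Th_conv (K : Kah A) {L' : LB A} (h : HM L) (h' : HM L') {b : ℝ} {i : A.ι} {x : M}
    (hx : x ∈ (A.e i).source) {ξ : Fin n → ℂ} (hcur : hq (cur h' i x) ξ = b * hq (cur h i x) ξ)
    {f g : M → ℝ} (hf : A.Sm f) (hg : A.Sm g) {k k' : ℝ → ℝ} {d2 : ℝ} (hk : ContDiff ℝ ∞ k)
    (h1 : ∀ s, HasDerivAt k (k' s) s) (h2 : HasDerivAt k' d2 (g x - f x)) (e : ℝ) :
    Th K h' (fun y => b * f y + k (g y - f y)) (b * e) i x ξ =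
      (b - k' (g x - f x)) * Th K h f e i x ξ + k' (g x - f x) * Th K h g e i x ξ +
        d2 * gq A (fun y => g y - f y) i x ξ := by
  simp only [Th, hq_eq_qf] at hcur ⊢
  rw [qx_conv (sx_of_sm hf hx) (sx_of_sm hg hx) hx hk.contDiffAt (Eventually.of_forall h1) h2, hcur]
  ring

theorem Th_mono (K : Kah A) (h : HM L) (f : M → ℝ) {e e' : ℝ} (he : e ≤ e') {i : A.ι} {x : M}
    (hx : x ∈ (A.e i).source) (ξ : Fin n → ℂ) : Th K h f e i x ξ ≤ Th K h f e' i x ξ := by
  have h0 : 0 ≤ hq (K.g i x) ξ :=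
    (Complex.le_def.1 ((K.pos i x hx).transpose.posSemidef.dotProduct_mulVec_nonneg ξ)).1
  exact add_le_add le_rfl (mul_le_mul_of_nonneg_right he h0)

variable [Countable A.ι] [T2Space M] [MeasurableSpace M] [BorelSpace M]

theorem pf_cs {B : FBun A} (vol : HM (KB A)⁻¹) (h : HDen B) (u w : Sec B) (x : M) :
    ‖pf vol h u w x‖ ^ 2 ≤ pq vol h u x * pq vol h w x := by
  have hv := (inv_pos.2 (vol.pos _ x (ix_mem (A := A) x))).le
  rw [pq, pq, pf_def, pf_def, pf_def, norm_mul, Complex.norm_real, Real.norm_of_nonneg hv, mul_pow,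
    Complex.re_ofReal_mul, Complex.re_ofReal_mul]
  refine (mul_le_mul_of_nonneg_left (cs_psd (h.psd _ x (ix_mem x)) _ _) (sq_nonneg _)).trans
    (le_of_eq ?_)
  ring

/-- weighted Cauchy-Schwarz inequality for `lamC` -/
theorem lamC_le {B : FBun A} (vol : HM (KB A)⁻¹) (h : HDen B) {c : M → ℂ}
    (hc : AEStronglyMeasurable c (vm vol)) (hb : ∀ x, ‖c x‖ ≤ 1) (g w : CS B) {a ρ : M → ℝ}
    (ha0 : ∀ x, 0 ≤ a x) (ha : Integrable (fun x => a x * pq vol h g.1 x) (vm vol))
    (hρ0 : ∀ x, 0 ≤ ρ x) (hρ : Integrable (fun x => ρ x * pq vol h w.1 x) (vm vol))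
    (hle : ∀ᵐ x ∂(vm vol), ‖c x‖ ^ 2 ≤ a x * ρ x) :
    ‖lamC vol h hc hb g w‖ ^ 2 ≤
      (∫ x, a x * pq vol h g.1 x ∂(vm vol)) * ∫ x, ρ x * pq vol h w.1 x ∂(vm vol) := by
  have h0 : ∀ x, 0 ≤ a x * pq vol h g.1 x := fun x => mul_nonneg (ha0 x) (pq_nonneg vol h _ x)
  refine cs_meas (integrable_cpf vol h hc hb g w) hρ
    (fun x => mul_nonneg (hρ0 x) (pq_nonneg vol h _ x)) ha.1.aemeasurable (integral_nonneg h0)
    (ofReal_integral_eq_lintegral_ofReal ha (Eventually.of_forall h0)).ge ?_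
  filter_upwards [hle] with x hx
  rw [norm_mul, Complex.norm_conj, mul_pow]
  refine (mul_le_mul hx (pf_cs vol h _ _ x) (sq_nonneg _) (mul_nonneg (ha0 x) (hρ0 x))).trans
    (le_of_eq ?_)
  ring

/-- smooth decreasing approximations `f ν μ → u + cr ν` of the singular weight `u` -/
structure Ap (K : Kah A) (h : HM L) (vol : HM (KB A)⁻¹) (u : M → ℝ) (f lam : ℕ → ℕ → M → ℝ)
    (eps : ℕ → ℝ) (cr : ℕ → M → ℝ) (C0 : ℝ) : Prop extends WS K h vol f lam eps C0 where
  um : Measurable u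
  ub : ∀ x, u x ≤ C0
  ul : ∀ ν, ∀ᵐ x ∂(vm vol), Tendsto (fun μ => f ν μ x) atTop (𝓝 (u x + cr ν x))
  c0 : ∀ ν x, 0 ≤ cr ν x
  cl : ∀ x, Tendsto (fun ν => cr ν x) atTop (𝓝 0)

variable {K : Kah A} {h : HM L} {vol : HM (KB A)⁻¹} {φ S : M → ℝ} {f g lf lg : ℕ → ℕ → M → ℝ}
  {eps : ℕ → ℝ} {cr : ℕ → M → ℝ} {C0 : ℝ}

theorem Ap.le_f (F : Ap K h vol φ f lf eps cr C0) (ν μ : ℕ) : ∀ᵐ x ∂(vm vol), φ x ≤ f ν μ x := by
  filter_upwards [F.ul ν] with x hx
  have h1 := (F.anti ν x).le_of_tendsto hx μ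
  linarith [F.c0 ν x]

/-- the weights of step (1) -/
def psi (N0 : ℝ) (f g : ℕ → ℕ → M → ℝ) (ν μ : ℕ) (x : M) : ℝ :=
  (N0 + 1) * f ν μ x + kap N0 (g ν μ x - f ν μ x)

/-- the losses of step (1) -/
def lmx (b : ℝ) (lf lg : ℕ → ℕ → M → ℝ) (ν μ : ℕ) (x : M) : ℝ := b * max (lf ν μ x) (lg ν μ x)

theorem psi_ge (F : WS K h vol f lf eps C0) (G : WS K h vol g lg eps C0) {N0 : ℝ} (h0 : 0 ≤ N0)
    {L' : LB A} (h' : HM L') (hcur : ∀ i, ∀ x ∈ (A.e i).source, ∀ ξ,
      hq (cur h' i x) ξ = (N0 + 1) * hq (cur h i x) ξ) (ν μ : ℕ) {i : A.ι} {x : M}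
    (hx : x ∈ (A.e i).source) (ξ : Fin n → ℂ) :
    Real.sigmoid (g ν μ x - f ν μ x) * (1 - Real.sigmoid (g ν μ x - f ν μ x)) *
      gq A (fun y => g ν μ y - f ν μ y) i x ξ ≤
    Th K h' (psi N0 f g ν μ) ((N0 + 1) * eps ν + lmx (N0 + 1) lf lg ν μ x) i x ξ := by
  have e := Th_conv K h h' hx (hcur i x hx ξ) (F.sm ν μ) (G.sm ν μ) (kap_cd N0) (kap_der N0)
    ((Real.hasDerivAt_sigmoid (g ν μ x - f ν μ x)).const_add N0)
    (eps ν + max (lf ν μ x) (lg ν μ x))
  rw [lmx, ← mul_add]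
  refine le_trans ?_ e.ge
  have p1 := (F.pos ν μ i x hx ξ).trans (Th_mono K h _
    (add_le_add le_rfl (le_max_left (lf ν μ x) (lg ν μ x))) hx ξ)
  have p2 := (G.pos ν μ i x hx ξ).trans (Th_mono K h _
    (add_le_add le_rfl (le_max_right (lf ν μ x) (lg ν μ x))) hx ξ)
  have s1 := Real.sigmoid_le_one (g ν μ x - f ν μ x)
  have s2 := Real.sigmoid_nonneg (g ν μ x - f ν μ x)
  have m1 := mul_nonneg (show 0 ≤ N0 + 1 - (N0 + Real.sigmoid (g ν μ x - f ν μ x)) by linarith) p1
  have m2 := mul_nonneg (add_nonneg h0 s2) p2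
  linarith

theorem ws_psi (F : WS K h vol f lf eps C0) (G : WS K h vol g lg eps C0) {N0 : ℝ} (h0 : 0 ≤ N0)
    {L' : LB A} (h' : HM L') (hcur : ∀ i, ∀ x ∈ (A.e i).source, ∀ ξ,
      hq (cur h' i x) ξ = (N0 + 1) * hq (cur h i x) ξ) :
    WS K h' vol (psi N0 f g) (lmx (N0 + 1) lf lg) (fun ν => (N0 + 1) * eps ν)
      ((N0 + 1) * C0 + kap N0 (C0 - C0)) where
  sm ν μ i := (contDiffOn_const.mul (F.sm ν μ i)).add
    ((kap_cd N0).comp_contDiffOn ((G.sm ν μ i).sub (F.sm ν μ i)))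
  anti ν x _ _ hab := kap_mono h0 (F.anti ν x hab) (G.anti ν x hab)
  le ν x := kap_mono h0 (F.le ν x) (G.le ν x)
  lm ν μ := ((F.lm ν μ).max (G.lm ν μ)).const_mul _
  l0 ν μ x := mul_nonneg (by linarith) ((F.l0 ν μ x).trans (le_max_left _ _))
  lb ν := by
    obtain ⟨a, ha⟩ := F.lb ν
    obtain ⟨b, hb⟩ := G.lb ν
    exact ⟨(N0 + 1) * max a b, fun μ x =>
      mul_le_mul_of_nonneg_left (max_le_max (ha μ x) (hb μ x)) (by linarith)⟩
  lim ν := by
    filter_upwards [F.lim ν, G.lim ν] with x h1 h2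
    have h3 := (h1.max h2).const_mul (N0 + 1)
    rwa [max_self, mul_zero] at h3
  e0 ν := mul_nonneg (by linarith) (F.e0 ν)
  elim := by
    have h3 := F.elim.const_mul (N0 + 1)
    rwa [mul_zero] at h3
  pos ν μ i x hx ξ := le_trans (mul_nonneg (mul_nonneg (Real.sigmoid_nonneg _)
    (sub_nonneg.2 (Real.sigmoid_le_one _))) (sq_nonneg _)) (psi_ge F G h0 h' hcur ν μ hx ξ)

theorem sq_add_le {a b : ℂ} {p q : ℝ} (ha : ‖a‖ ^ 2 ≤ p) (hb : ‖b‖ ^ 2 ≤ q) :
    ‖a + b‖ ^ 2 ≤ 2 * p + 2 * q := by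
  have h1 := pow_le_pow_left₀ (norm_nonneg _) (norm_add_le a b) 2
  nlinarith [sq_nonneg (‖a‖ - ‖b‖)]

theorem pq_low (K : Kah A) (h' : HM ((KB A)⁻¹ * N)) (w : MV N) (hw : Cs w.1) (x : M) :
    pq vol (HB K h') (lowC K w hw).1 x = (gl vol (inG K h' w.1 w.1) x).re :=
  congrArg Complex.re (pf_low vol K h' w w x)

/-- **step (1) of JET** -/
theorem step1 (P : Part A) (hcut : Cut K) (F : Ap K h vol φ f lf eps cr C0)
    (G : Ap K h vol S g lg eps cr C0) {N0 : ℝ} (h0 : 0 ≤ N0) (h' : HM ((KB A)⁻¹ * N))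
    (hcur : ∀ i, ∀ x ∈ (A.e i).source, ∀ ξ, hq (cur h' i x) ξ = (N0 + 1) * hq (cur h i x) ξ)
    (hle : ∀ᵐ x ∂(vm vol), S x ≤ φ x) (v1 : MV N) (h1 : Cs v1.1) (W : Set M)
    (hW : ∀ i, ∀ x ∈ W, x ∈ (A.e i).source → ∀ k, dbV v1.1 i k x = 0) (a : ℝ)
    (off : ∀ ν, ∀ᶠ μ in atTop, ∀ x ∉ W, f ν μ x - a ≤ g ν μ x)
    (hint : Integrable (fun x => Real.exp (-((N0 + 1) * φ x)) *
      (gl vol (inG K h' v1.1 v1.1) x).re) (vm vol)) :
    ∃ D, 0 ≤ D ∧ ∃ Λ Y : CS (BN N) →ₗ[ℂ] ℂ, (∀ u, Λ (TsC K h' u) = 0) ∧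
      (∀ (w : MV N) (hw : Cs w.1), Λ (lowC K w hw) = pr K h' vol v1.1 w.1 - Y (lowC K w hw)) ∧
      (∀ (w : MV N) (hw : Cs w.1), ‖Y (lowC K w hw)‖ ^ 2 ≤
        D * ∫ x, Real.exp (N0 * S x) * (gl vol (inG K h' w.1 w.1) x).re ∂(vm vol)) ∧
      ∀ (w : MV N) (hw : Cs w.1) (U : M → ℝ), Continuous U →
        (∀ᵐ x ∂(vm vol), (N0 + 1) * φ x ≤ U x) →
        ‖Λ (lowC K w hw)‖ ^ 2 ≤ D * nW K h' vol U w.1 := by
  classical
  obtain ⟨C, hC0, hC⟩ := chi_kap N0 a
  have hψ : ∀ ν μ, A.Sm fun x => g ν μ x - f ν μ x := fun ν μ i => (G.sm ν μ i).sub (F.sm ν μ i)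
  have hi : Integrable (fun x => Real.exp (-((N0 + 1) * φ x)) *
      pq vol (HB K h') (lowC K v1 h1).1 x) (vm vol) := by simpa only [pq_low] using hint
  set I := ∫ x, Real.exp (-((N0 + 1) * φ x)) * pq vol (HB K h') (lowC K v1 h1).1 x ∂(vm vol)
    with hI
  have hi0 : ∀ x, 0 ≤ Real.exp (-((N0 + 1) * φ x)) * pq vol (HB K h') (lowC K v1 h1).1 x :=
    fun x => mul_nonneg (Real.exp_pos _).le (pq_nonneg vol _ _ x)
  have hI0 : 0 ≤ I := integral_nonneg hi0
  set Ok : ℕ → ℕ → Prop := fun ν μ => ∀ x ∉ W, f ν μ x - a ≤ g ν μ x with hOk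
  set v : ℕ → ℕ → MV N := fun ν μ =>
    if Ok ν μ then mulV (sm_compC (chi_cd a) (hψ ν μ)) v1 else 0 with hv
  set c : ℕ → ℕ → M → ℂ := fun ν μ x =>
    if Ok ν μ then (chi a (g ν μ x - f ν μ x) : ℂ) else 0 with hc
  have H : DS K h' vol (psi N0 f g) (lmx (N0 + 1) lf lg) (fun ν => (N0 + 1) * eps ν) (C * I)
      (fun _ _ x => C * (Real.exp (-((N0 + 1) * φ x)) * pq vol (HB K h') (lowC K v1 h1).1 x)) v := by
    refine ⟨fun ν μ => ?_, fun _ _ => (hi.const_mul C).1.aemeasurable,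
      fun _ _ x => mul_nonneg hC0 (hi0 x), fun _ _ => ?_, fun ν μ => ?_⟩
    · simp only [hv]
      split_ifs
      · exact mulV_cs _ h1
      · exact ⟨∅, isCompact_empty, fun _ _ _ => rfl⟩
    · rw [hI, ← integral_const_mul]
      exact (ofReal_integral_eq_lintegral_ofReal (hi.const_mul C)
        (Eventually.of_forall fun x => mul_nonneg hC0 (hi0 x))).ge
    · filter_upwards [F.le_f ν μ] with x hfx
      have hx := ix_mem (A := A) x
      set i := ix A x with hi'
      have hp := (ws_psi F.toWS G.toWS h0 h' hcur).pos ν μ i x hx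
      have hv0 := vol.pos i x hx
      by_cases ok : Ok ν μ
      · refine ⟨i, hx, fun k => (deriv (chi a) (g ν μ x - f ν μ x) : ℝ) *
          conj (gf A (fun y => g ν μ y - f ν μ y) i x k), v1.1 i x, fun k => ?_, fun ξ => ?_⟩
        · simp only [hv, if_pos ok]
          rw [dbV_mulV (chi_cd a) (hψ ν μ) v1 hx k]
          by_cases hxW : x ∈ W
          · rw [hW i x hxW hx k, smul_zero, add_zero]
          · rw [chi_zero (t := g ν μ x - f ν μ x) (by linarith [ok x hxW]), Complex.ofReal_zero,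
              zero_smul, add_zero]
        · have e1 : ‖star ξ ⬝ᵥ fun k => ((deriv (chi a) (g ν μ x - f ν μ x) : ℝ) : ℂ) *
              conj (gf A (fun y => g ν μ y - f ν μ y) i x k)‖ ^ 2 =
              deriv (chi a) (g ν μ x - f ν μ x) ^ 2 * gq A (fun y => g ν μ y - f ν μ y) i x ξ := by
            rw [gq, ← Complex.norm_conj (∑ _, _), ← sq_abs (deriv _ _), ← mul_pow,
              ← Real.norm_eq_abs, ← Complex.norm_real, ← norm_mul, map_sum, Finset.mul_sum]
            congr 2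
            refine Finset.sum_congr rfl fun k _ => ?_
            simp only [Pi.star_apply, Complex.star_def, map_mul]
            ring
          have e2 : pq vol (HB K h') (lowC K v1 h1).1 x = (vol.w i x)⁻¹ * (h'.w i x *
              (star (v1.1 i x) ⬝ᵥ (GK K i x *ᵥ v1.1 i x)).re) := by
            rw [pq_eq vol _ _ hx]
            have h2 := R273.Lim_505.HB_hd K h' v1 v1 hx
            rw [show (HB K h').hd (lowC K v1 h1).1.1 (lowC K v1 h1).1.1 i x = _ from h2, inG,
              Complex.re_ofReal_mul]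
            rfl
          have e3 : 0 ≤ h'.w i x * (star (v1.1 i x) ⬝ᵥ (GK K i x *ᵥ v1.1 i x)).re := by
            have := mul_nonneg hv0.le (pq_nonneg vol (HB K h') (lowC K v1 h1).1 x)
            rwa [e2, mul_inv_cancel_left₀ hv0.ne'] at this
          have e4 := psi_ge F.toWS G.toWS h0 h' hcur ν μ hx ξ
          have e5 : Real.exp (-psi N0 f g ν μ x) ≤
              Real.exp (-((N0 + 1) * φ x)) * Real.exp (-kap N0 (g ν μ x - f ν μ x)) := by
            rw [← Real.exp_add, psi]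
            refine Real.exp_le_exp.2 ?_
            have := mul_le_mul_of_nonneg_left hfx (show 0 ≤ N0 + 1 by linarith)
            linarith
          have e6 := hC (g ν μ x - f ν μ x)
          have e7 : 0 ≤ gq A (fun y => g ν μ y - f ν μ y) i x ξ := sq_nonneg _
          rw [e1, e2]
          generalize h'.w i x = hw at e3 ⊢
          generalize (star (v1.1 i x) ⬝ᵥ (GK K i x *ᵥ v1.1 i x)).re = t at e3 ⊢
          generalize Th K h' _ _ i x ξ = T at e4 ⊢
          generalize gq A _ i x ξ = q at e4 e7 ⊢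
          generalize deriv (chi a) _ = d at e6 ⊢
          generalize Real.sigmoid _ * (1 - Real.sigmoid _) = s at e4 e6
          have e8 := Real.exp_pos (-((N0 + 1) * φ x))
          generalize Real.exp (-((N0 + 1) * φ x)) = E at e5 e8 ⊢
          generalize Real.exp (-kap N0 _) = E' at e5 e6
          generalize Real.exp (-psi N0 f g ν μ x) = E'' at e5 ⊢
          calc hw * E'' * t * (d ^ 2 * q) = E'' * (hw * t * (d ^ 2 * q)) := by ring
            _ ≤ E * E' * (hw * t * (d ^ 2 * q)) :=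
              mul_le_mul_of_nonneg_right e5 (mul_nonneg e3 (mul_nonneg (sq_nonneg _) e7))
            _ = E * (hw * t) * (d ^ 2 * E' * q) := by ring
            _ ≤ E * (hw * t) * (C * s * q) := mul_le_mul_of_nonneg_left
              (mul_le_mul_of_nonneg_right e6 e7) (mul_nonneg e8.le e3)
            _ = E * (hw * t) * C * (s * q) := by ring
            _ ≤ E * (hw * t) * C * T := mul_le_mul_of_nonneg_left e4
              (mul_nonneg (mul_nonneg e8.le e3) hC0)
            _ = _ := by field_simp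
      · refine ⟨i, hx, 0, 0, fun k => ?_, fun ξ => ?_⟩
        · simp only [hv, if_neg ok]
          funext T
          rw [smul_zero]
          exact T223.Hm.dd_const (s := Complex.I) (a := k) (i := i) (x := x) 0 
        · rw [dotProduct_zero, norm_zero]
          have := mul_nonneg (mul_nonneg (mul_nonneg hC0 (hi0 x)) hv0.le) (hp ξ)
          simpa using this
  set ρ : M → ℝ := fun x => Real.exp ((N0 + 1) * φ x + kap N0 (S x - φ x)) with hρ
  have ρm : Measurable ρ :=
    ((F.um.const_mul _).add ((kap_cd N0).continuous.measurable.comp (G.um.sub F.um))).exp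
  have ρ0 : ∀ x, 0 ≤ ρ x := fun x => (Real.exp_pos _).le
  have ρb : ∀ C', IsCompact C' → ∃ c, ∀ x ∈ C', ρ x ≤ c := fun _ _ =>
    ⟨_, fun x _ => Real.exp_le_exp.2 (kap_mono h0 (F.ub x) (G.ub x))⟩
  have cm0 : Measurable fun x => (chi a (S x - φ x) : ℂ) :=
    Complex.measurable_ofReal.comp ((chi_cd a).continuous.measurable.comp (G.um.sub F.um))
  have cm1 : Measurable fun x => 1 - (chi a (S x - φ x) : ℂ) := cm0.const_sub 1
  have lψ : ∀ ν, ∀ᵐ x ∂(vm vol), Tendsto (fun μ => g ν μ x - f ν μ x) atTop (𝓝 (S x - φ x)) :=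
    fun ν => by
      filter_upwards [F.ul ν, G.ul ν] with x p1 p2
      have p3 := p2.sub p1
      rwa [add_sub_add_right_eq_sub] at p3
  obtain ⟨Y, y1, y2⟩ := hahn_Ts ρm ρ0 ρb (mul_nonneg hC0 hI0)
    (lamC vol (HB K h') cm0.aestronglyMeasurable (fun x => chi_norm a _) (lowC K v1 h1)) fun u =>
    hs_scal (ws_psi F.toWS G.toWS h0 h' hcur) H P hcut (mul_nonneg hC0 hI0) ρm ρ0 ρb (by
      filter_upwards [ae_all_iff.2 F.ul, ae_all_iff.2 lψ] with x p1 p2 δ hδ
      have t1 : Tendsto (fun ν => Real.exp ((N0 + 1) * (φ x + cr ν x) + kap N0 (S x - φ x))) atTop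
          (𝓝 (Real.exp ((N0 + 1) * (φ x + 0) + kap N0 (S x - φ x)))) :=
        ((((F.cl x).const_add _).const_mul _).add_const _).rexp
      rw [add_zero] at t1
      filter_upwards [t1.eventually (eventually_lt_nhds (lt_add_of_pos_right _ hδ))] with ν hν
      have t2 : Tendsto (fun μ => Real.exp (psi N0 f g ν μ x)) atTop
          (𝓝 (Real.exp ((N0 + 1) * (φ x + cr ν x) + kap N0 (S x - φ x)))) :=
        (((p1 ν).const_mul _).add (((kap_cd N0).continuous.tendsto _).comp (p2 ν))).rexp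
      exact ((t2.eventually (eventually_lt_nhds hν)).exists).imp fun m hm => hm.le)
      h1 (c := c) (c1 := fun _ x => (chi a (S x - φ x) : ℂ)) (fun ν μ i x _ => by
        simp only [hv, hc]
        split_ifs
        · rfl
        · rw [zero_smul]
          rfl) (fun ν μ => by
        simp only [hc]
        split_ifs
        · exact (continuous_of_sm (sm_compC (chi_cd a) (hψ ν μ))).aestronglyMeasurable
        · exact aestronglyMeasurable_const) (fun ν μ x => by
        simp only [hc]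
        split_ifs
        · exact chi_norm a _
        · simp) (fun _ => cm0.aestronglyMeasurable) (fun _ x => chi_norm a _)
      cm0.aestronglyMeasurable (fun x => chi_norm a _) (fun ν => by
        filter_upwards [lψ ν] with x hx
        refine (((Complex.continuous_ofReal.comp (chi_cd a).continuous).tendsto _).comp hx).congr' ?_
        filter_upwards [off ν] with μ hμ
        simp only [hc]
        rw [if_pos hμ]
        rfl) (Eventually.of_forall fun _ => tendsto_const_nhds) u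
  set E : ℝ := Real.exp (N0 * (a + 2) + C0) with hE
  have hE0 : 0 < E := Real.exp_pos _
  have hX := Real.exp_pos C0
  refine ⟨2 * (E * I) + 2 * I + 2 * (C * I * (2 * Real.exp C0)) + 2 * (C * I * 2), by positivity,
    lamC vol (HB K h') cm0.aestronglyMeasurable (fun x => chi_norm a _) (lowC K v1 h1) - Y,
    lamC vol (HB K h') cm1.aestronglyMeasurable (fun x => chi_norm' a _) (lowC K v1 h1) + Y,
    fun u => ?_, fun w hw => ?_, fun w hw => ?_, fun w hw U hU hUl => ?_⟩
  · rw [LinearMap.sub_apply, y1, sub_self]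
  · rw [LinearMap.sub_apply, LinearMap.add_apply, pr_low vol K h' v1 w h1 hw, c1_inner,
      ← sub_sub, sub_left_inj, eq_sub_iff_add_eq, lamC_apply, lamC_apply, ← integral_add
        (integrable_cpf vol _ cm0.aestronglyMeasurable (fun x => chi_norm a _) _ _)
        (integrable_cpf vol _ cm1.aestronglyMeasurable (fun x => chi_norm' a _) _ _)]
    refine integral_congr_ae (Eventually.of_forall fun x => ?_)
    simp only [map_sub, map_one]
    ring
  · have i1 : Integrable (fun x => Real.exp (N0 * S x) * pq vol (HB K h') (lowC K w hw).1 x)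
        (vm vol) := integrable_pq vol _ (G.um.const_mul _).exp (fun x => (Real.exp_pos _).le)
      (fun _ _ => ⟨_, fun x _ => Real.exp_le_exp.2 (mul_le_mul_of_nonneg_left (G.ub x) h0)⟩) _
    simp only [← pq_low K h' w hw]
    set J := ∫ x, Real.exp (N0 * S x) * pq vol (HB K h') (lowC K w hw).1 x ∂(vm vol) with hJ
    have hJ0 : 0 ≤ J := integral_nonneg fun x =>
      mul_nonneg (Real.exp_pos _).le (pq_nonneg vol _ _ x)
    have b1 := lamC_le vol (HB K h') cm1.aestronglyMeasurable (fun x => chi_norm' a _)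
      (lowC K v1 h1) (lowC K w hw) (a := fun x => E * Real.exp (-((N0 + 1) * φ x)))
      (fun x => by positivity) (by simpa only [mul_assoc] using hi.const_mul E)
      (fun x => (Real.exp_pos _).le) i1 (Eventually.of_forall fun x => by
        by_cases hx : S x - φ x ≤ -a - 2
        · rw [chi_one hx, Complex.ofReal_one, sub_self, norm_zero]
          simp only [ne_eq, OfNat.ofNat_ne_zero, not_false_eq_true, zero_pow]
          positivity
        · refine (pow_le_one₀ (norm_nonneg _) (chi_norm' a _)).trans ?_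
          rw [hE, ← Real.exp_add, ← Real.exp_add]
          refine Real.one_le_exp ?_
          have := mul_le_mul_of_nonneg_left (not_le.1 hx).le h0
          linarith [F.ub x])
    simp only [mul_assoc E] at b1
    rw [integral_const_mul, ← hI, ← hJ] at b1
    have b2 : ∫ x, ρ x * pq vol (HB K h') (lowC K w hw).1 x ∂(vm vol) ≤ 2 * Real.exp C0 * J := by
      rw [hJ, ← integral_const_mul]
      refine integral_mono (integrable_pq vol _ ρm ρ0 ρb _) (i1.const_mul _) fun x => ?_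
      show ρ x * _ ≤ 2 * Real.exp C0 * (Real.exp (N0 * S x) * _)
      rw [← mul_assoc]
      refine mul_le_mul_of_nonneg_right ?_ (pq_nonneg vol _ _ x)
      simp only [hρ]
      rw [exp_kap, mul_comm]
      refine mul_le_mul_of_nonneg_right ?_ (Real.exp_pos _).le
      linarith [Real.exp_le_exp.2 (F.ub x), Real.exp_le_exp.2 (G.ub x)]
    have b3 := (y2 (lowC K w hw)).trans (mul_le_mul_of_nonneg_left b2 (mul_nonneg hC0 hI0))
    rw [LinearMap.add_apply]
    refine (sq_add_le b1 b3).trans ?_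
    have := mul_nonneg hI0 hJ0
    have := mul_nonneg hC0 this
    nlinarith
  · have i1 : Integrable (fun x => Real.exp (U x) * pq vol (HB K h') (lowC K w hw).1 x)
        (vm vol) := integrable_pq vol _ hU.measurable.exp (fun x => (Real.exp_pos _).le)
      (fun C' hC' => by
        obtain ⟨b, hb⟩ := hC'.bddAbove_image hU.rexp.continuousOn
        exact ⟨b, fun x hx => hb ⟨x, hx, rfl⟩⟩) _
    rw [nW_low vol K h' U w hw]
    set J := ∫ x, Real.exp (U x) * pq vol (HB K h') (lowC K w hw).1 x ∂(vm vol) with hJ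
    have hJ0 : 0 ≤ J := integral_nonneg fun x =>
      mul_nonneg (Real.exp_pos _).le (pq_nonneg vol _ _ x)
    have b1 := lamC_le vol (HB K h') cm0.aestronglyMeasurable (fun x => chi_norm a _)
      (lowC K v1 h1) (lowC K w hw) (fun x => (Real.exp_pos _).le) hi
      (fun x => (Real.exp_pos _).le) i1 (by
        filter_upwards [hUl] with x hx
        refine (pow_le_one₀ (norm_nonneg _) (chi_norm a _)).trans ?_
        rw [← Real.exp_add]
        exact Real.one_le_exp (by linarith))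
    rw [← hI, ← hJ] at b1
    have b2 : ∫ x, ρ x * pq vol (HB K h') (lowC K w hw).1 x ∂(vm vol) ≤ 2 * J := by
      rw [hJ, ← integral_const_mul]
      refine integral_mono_ae (integrable_pq vol _ ρm ρ0 ρb _) (i1.const_mul _) ?_
      filter_upwards [hUl, hle] with x hx hx'
      show ρ x * _ ≤ 2 * (Real.exp (U x) * _)
      rw [← mul_assoc]
      refine mul_le_mul_of_nonneg_right ((Real.exp_le_exp.2 (kap_mono h0 le_rfl hx')).trans ?_)
        (pq_nonneg vol _ _ x)
      rw [exp_kap, mul_add, ← Real.exp_add, ← two_mul]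
      exact mul_le_mul_of_nonneg_left (Real.exp_le_exp.2 (by linarith)) zero_le_two
    have b3 := (y2 (lowC K w hw)).trans (mul_le_mul_of_nonneg_left b2 (mul_nonneg hC0 hI0))
    rw [← norm_neg] at b3
    rw [LinearMap.sub_apply, sub_eq_add_neg]
    refine (sq_add_le b1 b3).trans ?_
    have q1 := mul_nonneg hI0 hJ0
    have q2 := mul_nonneg hC0 q1
    have q3 := mul_nonneg hE0.le q1
    have q4 := mul_nonneg hX.le q2
    nlinarith

end

end Crest.Agent.X261.Hs
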