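import Crest.Agent.X261.Reg.Defs
import Crest.Agent.X261.Cov.U
import Crest.Agent.X261.Top.Defs
import Crest.Agent.X277.AN.IntT

/-!
# X261 / Hs (helper68): bounded geometry on compact manifolds and their covers

* `exists_bg`, `pb_fin` : the data `BG` and `PB` on a compact manifold;
* `pullBG`, `pb_pull` : the same data on a cover;
* `dn_conn`, `ae_ne_bot`, `usc_of_psh` : singular weights on a connected manifold;
* `unif_inv`, `unif_ge` : the uniformity condition.
-/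

set_option autoImplicit false
set_option linter.unusedSectionVars false

open Set Filter Topology Metric MeasureTheory
open scoped ContDiff ComplexConjugate

namespace Crest.Agent.X261.Hs

open Crest.Agent.R275.Geo Crest.Agent.R273.UCov_914
open Crest.Agent.R275.Core144 (LB KB)
open Crest.Agent.R273.Defs_333 (HM)
open Crest.Agent.R273.Kah_333 (hsf Kah)
open Crest.Agent.R273.Vm_333 (vm)
open Crest.Agent.R273.RMan4_798 (pullKah)
open Crest.Agent.R273.ExpI3_772 (lam)
open Crest.Agent.R281.Kp_487 (KP wt_contDiffAt wt_smooth Tm_hol)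
open Crest.Agent.X277.AN (Mat qf Nn gf gq SX sx_of_sm sm_of_sx nn_kah exists_hsf_bound
  exists_gq_bound gf_comp hsf_congr gf_congr lint_vm_chart)
open Crest.Agent.X261.Psh Crest.Agent.X261.Reg
open Crest.Agent.X261.Cov.B (cst co_eq_cst finite_co exists_psi_ne)
open Crest.Agent.X261.Cov.U (exists_lip exists_ge exists_pos_le)

noncomputable section

variable {n : ℕ} {X : Type} [TopologicalSpace X] {A : Atl n X}

theorem cpt_img {i : A.ι} {C : Set X} (hC : IsCompact C) (h : C ⊆ (A.e i).source) :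
    IsCompact (A.e i '' C) := hC.image_of_continuousOn ((A.e i).continuousOn.mono h)

theorem lev_ineq {c B h g : ℝ} {t p : ℂ} {C1 C3 : ℝ} (h1 : 0 ≤ C1 * g + h)
    (h3 : ‖p‖ ^ 2 ≤ C3 * g) (hB : (C1 + 4 * C3) * g ≤ B * g) :
    0 ≤ c ^ 2 * ‖t‖ ^ 2 + 2 * (conj t * (((2 * c : ℝ) : ℂ) * p)).re + (h + B * g) := by
  have e1 : |(conj t * (((2 * c : ℝ) : ℂ) * p)).re| ≤ ‖t‖ * (2 * |c| * ‖p‖) := by
    refine (Complex.abs_re_le_norm _).trans (le_of_eq ?_)
    rw [norm_mul, norm_mul, Complex.norm_conj, Complex.norm_real, Real.norm_eq_abs, abs_mul, abs_two]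
  have e2 := (abs_le.1 e1).1
  rw [← sq_abs c]
  nlinarith [sq_nonneg (|c| * ‖t‖ - 2 * ‖p‖)]

/-- bounded geometry of a compact manifold -/
theorem exists_bg [CompactSpace X] [T2Space X] [Finite A.ι] (P : Part A) (K : Kah A) :
    Nonempty (BG A K.g) := by
  have := Fintype.ofFinite A.ι
  have hsq : ∀ j, A.Sm fun y => P.χ j y ^ 2 := fun j i => (P.χ_sm j i).pow 2
  choose C1 _ h1 using fun j => exists_hsf_bound K (hsq j)
  choose C3 _ h3 using fun j => exists_gq_bound K (P.χ_sm j)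
  choose C4 h4 using fun j =>
    (isCompact_range (R273.NormC_505.continuous_of_sm (hsq j))).bddAbove
  obtain ⟨B, hB1, hB⟩ := exists_ge fun j => max (C1 j + 4 * C3 j) (C4 j)
  choose δ hδ hδ' using fun j => (cpt_img (P.χ_cpt j) (P.χ_sub j)).exists_cthickening_subset_open
    (A.e j).open_target (image_subset_iff.2 fun x hx => (A.e j).map_source (P.χ_sub j hx))
  obtain ⟨r, hr0, hr⟩ := exists_pos_le hδ
  have hK : ∀ p : A.ι × A.ι, IsCompact (A.e p.1 '' (tsupport (P.χ p.1) ∩ tsupport (P.χ p.2))) :=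
    fun p => cpt_img ((P.χ_cpt p.1).inter (P.χ_cpt p.2)) fun x hx => P.χ_sub _ hx.1
  choose ε hε hε' using fun p : A.ι × A.ι => (hK p).exists_cthickening_subset_open
    (isOpen_ov p.1 p.2) (image_subset_iff.2 fun x hx => ⟨(A.e p.1).map_source (P.χ_sub _ hx.1), by
      rw [(A.e p.1).left_inv (P.χ_sub _ hx.1)]
      exact P.χ_sub _ hx.2⟩)
  choose L hL using fun p : A.ι × A.ι => exists_lip (f := fun w => A.e p.2 ((A.e p.1).symm w))
    ((hK p).cthickening (r := ε p)) fun z hz => by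
      have h5 := Tm_hol (A := A) ⟨(A.e p.1).map_target (hε' p hz).1, (hε' p hz).2⟩
      rwa [(A.e p.1).right_inv (hε' p hz).1] at h5
  obtain ⟨Λ, hΛ1, hΛ⟩ := exists_ge fun p => max (L p) (r / ε p)
  refine ⟨⟨P.χ, P.χ_sm, P.χ_cpt, P.χ_sub, fun _ _ => toFinite _, fun x => ?_, nn_kah K,
    Fintype.card A.ι, fun _ s _ => s.card_le_univ, B, hB1,
    fun j x => (h4 j ⟨x, rfl⟩).trans ((le_max_right _ _).trans (hB j)), fun j i x hx t ξ => ?_,
    r, hr0, fun j x hx => ?_, Λ, hΛ1, fun i j x hi hj z hz => ?_⟩⟩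
  · obtain ⟨j, hj⟩ := exists_psi_ne P x
    exact ⟨j, (P.χ_one j x (subset_tsupport _ hj)).self_of_nhds⟩
  · have e1 := gf_comp (φ := fun t => t ^ 2) (sx_of_sm (P.χ_sm j) hx) hx
      (by simpa using hasDerivAt_pow 2 (P.χ j x))
    have e2 := (h1 j).2 i x hx ξ
    rw [Pi.smul_apply, Pi.smul_apply, X277.AN.qf_smul] at e2
    rw [e1, X277.AN.pr_smul]
    exact lev_ineq e2 (h3 j i x hx ξ) (mul_le_mul_of_nonneg_right
      ((le_max_left _ _).trans (hB j)) (nn_kah K i x hx ξ))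
  · exact ((closedBall_subset_closedBall (hr j)).trans
      (closedBall_subset_cthickening (mem_image_of_mem _ hx) _)).trans (hδ' j)
  · have h6 : r / Λ ≤ ε (i, j) := by
      have h7 := (le_max_right _ _).trans (hΛ (i, j))
      rw [div_le_iff₀ (hε _)] at h7
      rw [div_le_iff₀ (by linarith)]
      linarith
    have h8 : closedBall (A.e i x) (ε (i, j)) ⊆ cthickening (ε (i, j)) _ :=
      closedBall_subset_cthickening (mem_image_of_mem (A.e i) (show x ∈ _ ∩ _ from ⟨hi, hj⟩)) _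
    have hz' := h8 (closedBall_subset_closedBall h6 hz)
    refine ⟨(hε' (i, j) hz').2, ?_⟩
    have h9 := hL (i, j) z hz' (A.e i x) (h8 (mem_closedBall_self (hε _).le))
    rw [(A.e i).left_inv (P.χ_sub i hi)] at h9
    rw [dist_eq_norm, dist_eq_norm]
    exact h9.trans (mul_le_mul_of_nonneg_right ((le_max_left _ _).trans (hΛ (i, j))) (norm_nonneg _))

theorem pb_fin [Finite A.ι] {g : Mat A} (G : BG A g) (H : KP A) : ∃ L, G.PB H L := by
  have hs : ∀ j, cthickening G.r (A.e j '' tsupport (G.χ j)) ⊆ (A.e j).target := fun j => by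
    rw [(cpt_img (G.cpt j) (G.sub j)).cthickening_eq_biUnion_closedBall G.r0.le]
    refine iUnion₂_subset ?_
    rintro _ ⟨x, hx, rfl⟩
    exact G.ball j x hx
  choose L hL using fun j => exists_lip ((cpt_img (G.cpt j) (G.sub j)).cthickening (r := G.r))
    fun z hz => wt_contDiffAt H j (hs j hz)
  obtain ⟨C, hC1, hC⟩ := exists_ge L
  refine ⟨C, by linarith, fun j x hx z hz => ?_⟩
  have h8 := closedBall_subset_cthickening (mem_image_of_mem (A.e j) hx) G.r
  rw [dist_eq_norm]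
  exact (hL j z (h8 hz) _ (h8 (mem_closedBall_self G.r0.le))).trans
    (mul_le_mul_of_nonneg_right (hC j) (norm_nonneg _))

/-! ### covers -/

section cover

variable {Γ : Type} [Group Γ] (D : MonD A Γ) (F : Type) [MulAction Γ F]

open Classical in
/-- the lift of a function supported in the chart `p.1` to the sheet `p` -/
def lif (χ : A.ι → X → ℝ) (p : A.ι × F) (e : D.cov F) : ℝ :=
  if D.co p.1 e = p.2 then χ p.1 (D.pr e) else 0

variable {χ : A.ι → X → ℝ}

open Classical in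
theorem lif_eq (hs : ∀ j, tsupport (χ j) ⊆ (A.e j).source) (p q : A.ι × F) {e : D.cov F}
    (he : e ∈ D.sheet q.1 q.2) :
    lif D F χ p e = if cst D q.1 p.1 • q.2 = p.2 then χ p.1 (D.pr e) else 0 := by
  by_cases h : D.pr e ∈ (A.e p.1).source
  · rw [lif, co_eq_cst D he h]
  · have h0 : χ p.1 (D.pr e) = 0 := image_eq_zero_of_notMem_tsupport fun h1 => h (hs _ h1)
    rw [lif, h0, ite_self, ite_self]

theorem tsupp_lif [T2Space X] (hc : ∀ j, IsCompact (tsupport (χ j)))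
    (hs : ∀ j, tsupport (χ j) ⊆ (A.e j).source) (p : A.ι × F) :
    tsupport (lif D F χ p) ⊆ D.pt p.1 p.2 '' tsupport (χ p.1) := by
  refine closure_minimal (fun e he => ?_) (D.isCompact_pt F p.2 (hc _) (hs _)).isClosed
  by_cases h : D.co p.1 e = p.2
  · have h1 : D.pr e ∈ tsupport (χ p.1) := subset_tsupport _ fun h0 => he (by
      rw [lif, if_pos h, h0])
    exact ⟨_, h1, D.pt_of_mem ⟨hs _ h1, h⟩⟩
  · exact absurd (if_neg h) he

theorem mem_of_lif [T2Space X] (hc : ∀ j, IsCompact (tsupport (χ j)))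
    (hs : ∀ j, tsupport (χ j) ⊆ (A.e j).source) {p : A.ι × F} {e : D.cov F}
    (he : e ∈ tsupport (lif D F χ p)) : e ∈ D.sheet p.1 p.2 ∧ D.pr e ∈ tsupport (χ p.1) := by
  obtain ⟨x, hx, rfl⟩ := tsupp_lif D F hc hs p he
  exact ⟨D.pt_mem_sheet _ (hs _ hx), hx⟩

/-- bounded geometry of a cover -/
def pullBG [T2Space X] [Finite A.ι] {K : Kah A} (G : BG A K.g) :
    BG (D.atl F) (pullKah D F K).g where
  χ := lif D F G.χ
  sm p q := by
    classical
    refine ContDiffOn.congr (f := fun z => if cst D q.1 p.1 • q.2 = p.2 then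
      G.χ p.1 ((A.e q.1).symm z) else 0) ?_ fun z hz =>
        lif_eq D F G.sub p q (((D.atl F).e q).map_target hz)
    split_ifs
    · exact G.sm p.1 q.1
    · exact contDiffOn_const
  cpt p := (D.isCompact_pt F p.2 (G.cpt _) (G.sub _)).of_isClosed_subset (isClosed_tsupport _)
    (tsupp_lif D F G.cpt G.sub p)
  sub p e he := (mem_of_lif D F G.cpt G.sub he).1
  lf C hC := by
    refine ((finite_univ (α := A.ι)).prod (finite_co D hC)).subset ?_
    rintro p ⟨e, h1, h2⟩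
    exact ⟨mem_univ _, e, h1, _, h2⟩
  one e := by
    obtain ⟨j, hj⟩ := G.one (D.pr e)
    exact ⟨(j, D.co j e), (if_pos rfl).trans hj⟩
  nn := nn_kah _
  m := G.m
  card e s hs := by
    classical
    have h1 := Finset.card_image_of_injOn (s := s) (f := fun p : (D.atl F).ι => p.1)
      fun p hp q hq h => Prod.ext h (by
        rw [← (mem_of_lif D F G.cpt G.sub (hs p hp)).1.2,
          ← (mem_of_lif D F G.cpt G.sub (hs q hq)).1.2]
        exact congrArg (fun j => D.co j e) h)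
    rw [← h1]
    refine G.card (D.pr e) _ fun j hj => ?_
    obtain ⟨p, hp, rfl⟩ := Finset.mem_image.1 hj
    exact (mem_of_lif D F G.cpt G.sub (hs p hp)).2
  B := G.B
  B1 := G.B1
  bd p e := by
    unfold lif
    split_ifs
    · exact G.bd _ _
    · linarith [G.B1]
  lev p q e he t ξ := by
    classical
    have ev : ∀ᶠ y in 𝓝 e, y ∈ D.sheet q.1 q.2 := (D.isOpen_sheet _ _).mem_nhds he
    by_cases h : cst D q.1 p.1 • q.2 = p.2
    · have e1 : (fun y => lif D F G.χ p y ^ 2) =ᶠ[𝓝 e] fun y => G.χ p.1 (D.pr y) ^ 2 :=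
        ev.mono fun y hy => by simp only [lif_eq D F G.sub p q hy, if_pos h]
      have e0 : lif D F G.χ p e ^ 2 = _ := e1.self_of_nhds
      rw [e0, gf_congr he e1, hsf_congr he e1]
      exact G.lev p.1 q.1 (D.pr e) he.1 t ξ
    · have e1 : (fun y => lif D F G.χ p y ^ 2) =ᶠ[𝓝 e] fun _ => 0 :=
        ev.mono fun y hy => by simp [lif_eq D F G.sub p q hy, if_neg h]
      have e2 : gf (D.atl F) (fun _ => (0 : ℝ)) q e = 0 := X277.AN.gr_const 0
      have e0 : lif D F G.χ p e ^ 2 = _ := e1.self_of_nhds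
      rw [e0, gf_congr he e1, hsf_congr he e1, X277.AN.qh_const, e2]
      have := mul_nonneg (zero_le_one.trans G.B1) (nn_kah (pullKah D F K) q e he ξ)
      simpa [X277.AN.pr] using this
  r := G.r
  r0 := G.r0
  ball p e he := G.ball p.1 (D.pr e) (mem_of_lif D F G.cpt G.sub he).2
  Λ := G.Λ
  Λ1 := G.Λ1
  tr q p e hq hp z hz := by
    obtain ⟨a1, a2⟩ := mem_of_lif D F G.cpt G.sub hq
    obtain ⟨b1, b2⟩ := mem_of_lif D F G.cpt G.sub hp
    obtain ⟨c1, c2⟩ := G.tr q.1 p.1 (D.pr e) a2 b2 z hz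
    have hzt : z ∈ (A.e q.1).target := G.ball q.1 _ a2
      (closedBall_subset_closedBall (div_le_self G.r0.le G.Λ1) hz)
    refine ⟨⟨c1, ?_⟩, c2⟩
    rw [co_eq_cst D (((D.atl F).e q).map_target hzt) c1, ← co_eq_cst D a1 b1.1, b1.2]

theorem pb_pull [T2Space X] [Finite A.ι] {K : Kah A} (G : BG A K.g) {L : LB A} (h : HM L) :
    ∃ c, (pullBG D F G).PB (kp (D.pullHM (F := F) h)) c := by
  obtain ⟨c, h0, hc⟩ := pb_fin G (kp h)
  exact ⟨c, h0, fun p e he z hz => hc p.1 (D.pr e) (mem_of_lif D F G.cpt G.sub he).2 z hz⟩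

end cover

/-! ### singular weights -/

section psh

variable {M : Type} [TopologicalSpace M] {B : Atl n M} {H : KP B} {u : M → EReal}

theorem uj_eq_bot {j : B.ι} {z : Cn n} : uj H u j z = ⊥ ↔ u ((B.e j).symm z) = ⊥ := by
  rw [uj, EReal.add_eq_bot_iff]
  simp

/-- on a connected manifold a weight which is not `≡ -∞` is finite on a dense set -/
theorem dn_conn [PreconnectedSpace M] (hu : PshW H u) (h0 : ∃ x, u x ≠ ⊥) : Dn univ u := by
  have ho : IsOpen {x | ∀ᶠ y in 𝓝 x, u y = ⊥} := isOpen_setOfPred_eventually_nhds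
  have hc : IsClosed {x | ∀ᶠ y in 𝓝 x, u y = ⊥} := by
    refine isClosed_of_closure_subset fun x hx => ?_
    obtain ⟨j, hj⟩ := B.cover x
    obtain ⟨r, hr, hb⟩ := Metric.mem_nhds_iff.1
      ((B.e j).open_target.mem_nhds ((B.e j).map_source hj))
    have hN : (B.e j).source ∩ B.e j ⁻¹' ball (B.e j x) r ∈ 𝓝 x :=
      ((B.e j).isOpen_inter_preimage isOpen_ball).mem_nhds ⟨hj, mem_ball_self hr⟩
    by_cases h1 : ∃ z ∈ ball (B.e j x) r, uj H u j z ≠ ⊥
    · obtain ⟨y, hy, hy'⟩ := mem_closure_iff_nhds.1 hx _ hN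
      have h2 := ((hu j).mono hb).dn_of_conn isOpen_ball (convex_ball _ _).isPreconnected h1 _ hy.2
      exact absurd ((X277.AN.ev_chart hy.1 hy').mono fun z hz => not_not.2 (uj_eq_bot.2 hz)) h2
    · push Not at h1
      filter_upwards [hN] with y hy
      have h2 := uj_eq_bot.1 (h1 _ hy.2)
      rwa [(B.e j).left_inv hy.1] at h2
  rcases isClopen_iff.1 ⟨hc, ho⟩ with h1 | h1
  · intro x _ hx
    have h2 : x ∈ {x | ∀ᶠ y in 𝓝 x, u y = ⊥} := hx.mono fun y hy => not_not.1 hy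
    rw [h1] at h2
    exact h2
  · obtain ⟨x, hx⟩ := h0
    have h2 : x ∈ {x | ∀ᶠ y in 𝓝 x, u y = ⊥} := h1 ▸ mem_univ x
    exact absurd h2.self_of_nhds hx

theorem dn_chart (hd : Dn univ u) (j : B.ι) : Dn (B.e j).target fun z => u ((B.e j).symm z) := by
  intro z hz hc
  refine hd ((B.e j).symm z) (mem_univ _) ?_
  have h1 : ContinuousAt (B.e j) ((B.e j).symm z) := (B.e j).continuousAt ((B.e j).map_target hz)
  have h2 : ∀ᶠ w in 𝓝 (B.e j ((B.e j).symm z)), ¬ u ((B.e j).symm w) ≠ ⊥ := by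
    rwa [(B.e j).right_inv hz]
  filter_upwards [h1.eventually h2, (B.e j).open_source.mem_nhds ((B.e j).map_target hz)]
    with y hy hy'
  rwa [(B.e j).left_inv hy'] at hy

theorem dn_uj (hd : Dn univ u) (j : B.ι) : Dn (B.e j).target (uj H u j) := fun z hz =>
  (dn_chart hd j z hz).mono fun _ hw h => hw (uj_eq_bot.1 h)

theorem ae_of_charts [Countable B.ι] [T2Space M] [MeasurableSpace M] [BorelSpace M]
    (vol : HM (KB B)⁻¹) {p : M → Prop}
    (hp : ∀ j, ∀ᵐ z ∂(lam n), z ∈ (B.e j).target → p ((B.e j).symm z)) : ∀ᵐ x ∂(vm vol), p x := by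
  have h1 : ∀ j, ∀ᵐ x ∂(vm vol), x ∈ (B.e j).source → p x := fun j => by
    obtain ⟨N, hN, hm, h0⟩ := exists_measurable_superset_of_null (ae_iff.1 (hp j))
    have h2 := lint_vm_chart (i := j) vol (hm.inter (B.e j).open_target.measurableSet)
      inter_subset_right fun _ => 1
    rw [setLIntegral_measure_zero _ _ (measure_mono_null inter_subset_left h0), lintegral_one,
      Measure.restrict_apply_univ] at h2
    refine measure_mono_null (fun x hx => ?_) h2
    rw [mem_compl_iff, mem_ofPred_eq, Classical.not_imp] at hx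
    refine ⟨hx.1, hN ?_, (B.e j).map_source hx.1⟩
    rw [mem_ofPred_eq, (B.e j).left_inv hx.1]
    exact fun h => hx.2 (h ((B.e j).map_source hx.1))
  filter_upwards [ae_all_iff.2 h1] with x hx
  obtain ⟨j, hj⟩ := B.cover x
  exact hx j hj

theorem ae_ne_bot [Countable B.ι] [T2Space M] [MeasurableSpace M] [BorelSpace M]
    (vol : HM (KB B)⁻¹) (hu : PshW H u) (hd : Dn univ u) : ∀ᵐ x ∂(vm vol), u x ≠ ⊥ := by
  refine ae_of_charts vol fun j => ?_
  filter_upwards [(hu j).dn_ae (lam n) (B.e j).open_target (dn_uj hd j)] with z hz hz' h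
  exact hz hz' (uj_eq_bot.2 h)

theorem usc_of_psh (hu : PshW H u) : UpperSemicontinuous u := by
  intro x a ha
  obtain ⟨j, hj⟩ := B.cover x
  obtain ⟨b, h1, h2⟩ := EReal.lt_iff_exists_real_btwn.1 ha
  obtain ⟨c, h3, h4⟩ := EReal.lt_iff_exists_real_btwn.1 h1
  have h5 : c < b := EReal.coe_lt_coe_iff.1 h4
  have hz := (B.e j).map_source hj
  have h6 : uj H u j (B.e j x) < ((c + H.wt j (B.e j x) : ℝ) : EReal) := by
    rw [uj, (B.e j).left_inv hj, add_coe_lt_iff, add_sub_cancel_right]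
    exact h3
  have h7 := (hu j).uscAt (B.e j).open_target hz _ h6
  have h8 : ∀ᶠ z in 𝓝 (B.e j x), c + H.wt j (B.e j x) - b < H.wt j z :=
    (wt_contDiffAt H j hz).continuousAt.eventually (eventually_gt_nhds (by linarith))
  filter_upwards [((B.e j).continuousAt hj).eventually (h7.and h8),
    (B.e j).open_source.mem_nhds hj] with y hy hy'
  have h9 := hy.1
  rw [uj, (B.e j).left_inv hy', add_coe_lt_iff] at h9
  exact (h9.trans (EReal.coe_lt_coe_iff.2 (by linarith [hy.2]))).trans h2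

theorem unif_cpt {E : Type*} [PseudoMetricSpace E] {C : Set E} (hC : IsCompact C) {f : E → EReal}
    (hd : Dn C f) {δ : ℝ} (hδ : 0 < δ) :
    ∃ c : ℝ, ∀ x ∈ C, ∃ z ∈ closedBall x δ, ((-c : ℝ) : EReal) ≤ f z := by
  obtain ⟨t, htC, htf, hcov⟩ := hC.finite_cover_balls (half_pos hδ)
  have := htf.to_subtype
  have h1 : ∀ y : t, ∃ (z : E) (c : ℝ), z ∈ ball y.1 (δ / 2) ∧ ((-c : ℝ) : EReal) ≤ f z := fun y => by
    obtain ⟨z, hz, hz'⟩ := ((hd y (htC y.2)).and_eventually (ball_mem_nhds y.1 (half_pos hδ))).exists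
    obtain ⟨c, -, hc⟩ := EReal.lt_iff_exists_real_btwn.1 (bot_lt_iff_ne_bot.2 hz)
    exact ⟨z, -c, hz', by rw [neg_neg]; exact hc.le⟩
  choose z c hz hc using h1
  obtain ⟨c0, -, hc0⟩ := exists_ge c
  refine ⟨c0, fun x hx => ?_⟩
  obtain ⟨y, hy, hxy⟩ := mem_iUnion₂.1 (hcov hx)
  refine ⟨z ⟨y, hy⟩, ?_, (EReal.coe_le_coe_iff.2 (neg_le_neg (hc0 _))).trans (hc ⟨y, hy⟩)⟩
  have h2 := mem_ball.1 (hz ⟨y, hy⟩)
  have h3 := mem_ball.1 hxy
  rw [mem_closedBall]
  linarith [dist_triangle_right (z ⟨y, hy⟩) x y]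

theorem unif_fin {g : Mat B} (G : BG B g) (hd : Dn univ u) {J : Set B.ι} (hJ : J.Finite) :
    ∃ c : ℝ, ∀ j ∈ J, ∀ x ∈ tsupport (G.χ j), ∃ z ∈ closedBall (B.e j x) (G.r / 2),
      ((-c : ℝ) : EReal) ≤ u ((B.e j).symm z) := by
  have := hJ.to_subtype
  choose c hc using fun j : J => unif_cpt (cpt_img (G.cpt j) (G.sub j))
    ((dn_chart hd j.1).mono (image_subset_iff.2 fun x hx => (B.e j).map_source (G.sub j hx)))
    (half_pos G.r0)
  obtain ⟨c0, -, hc0⟩ := exists_ge c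
  refine ⟨c0, fun j hj x hx => ?_⟩
  obtain ⟨z, hz, hz'⟩ := hc ⟨j, hj⟩ _ (mem_image_of_mem _ hx)
  exact ⟨z, hz, (EReal.coe_le_coe_iff.2 (neg_le_neg (hc0 _))).trans hz'⟩

theorem Unif.mono {g : Mat B} {G : BG B g} {C C' : ℝ} (h : G.Unif u C) (hC : C ≤ C') :
    G.Unif u C' :=
  ⟨fun x => (h.1 x).trans (EReal.coe_le_coe_iff.2 hC), fun j x hx =>
    (h.2 j x hx).imp fun _ hz => ⟨hz.1, (EReal.coe_le_coe_iff.2 (neg_le_neg hC)).trans hz.2⟩⟩

/-- a weight which is bounded below by a uniform one off a compact set is uniform -/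
theorem unif_ge {g : Mat B} (G : BG B g) {v : M → EReal} {C : ℝ} (hv : G.Unif v C)
    (hd : Dn univ u) (hle : ∀ x, u x ≤ C) {Z : Set M} (hZ : IsCompact Z) {a : ℝ}
    (ha : ∀ x ∉ Z, v x - (a : EReal) ≤ u x) : ∃ c, G.Unif u c := by
  obtain ⟨c, hc⟩ := unif_fin G hd (G.lf Z hZ)
  refine ⟨max C (max c (C + a)), fun x => (hle x).trans (EReal.coe_le_coe_iff.2 (le_max_left _ _)),
    fun j x hx => ?_⟩
  by_cases hj : (Z ∩ (B.e j).source).Nonempty
  · obtain ⟨z, hz, hz'⟩ := hc j hj x hx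
    exact ⟨z, hz, (EReal.coe_le_coe_iff.2
      (neg_le_neg ((le_max_left _ _).trans (le_max_right _ _)))).trans hz'⟩
  · obtain ⟨z, hz, hz'⟩ := hv.2 j x hx
    have hzt := G.ball j x hx (closedBall_subset_closedBall (half_le_self G.r0.le) hz)
    refine ⟨z, hz, le_trans ?_ (ha _ fun h => hj ⟨_, h, (B.e j).map_target hzt⟩)⟩
    refine le_trans ?_ (EReal.sub_le_sub hz' le_rfl)
    rw [← EReal.coe_sub, EReal.coe_le_coe_iff]
    linarith [(le_max_right c (C + a)).trans (le_max_right C _)]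

end psh

/-- invariant weights are uniform -/
theorem unif_inv [T2Space X] [Finite A.ι] {Γ : Type} [Group Γ] (D : MonD A Γ) {K : Kah A}
    (G : BG A K.g) {u : D.cov Γ → EReal} (hd : Dn univ u) (hi : ∀ (g : Γ) x, u (g • x) = u x)
    {C : ℝ} (hle : ∀ x, u x ≤ C) : ∃ c, (pullBG D Γ G).Unif u c := by
  choose c hc using fun j : A.ι => unif_cpt (cpt_img (G.cpt j) (G.sub j))
    ((dn_chart (B := D.atl Γ) hd (j, 1)).mono
      (image_subset_iff.2 fun x hx => (A.e j).map_source (G.sub j hx))) (half_pos G.r0)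
  obtain ⟨c0, -, hc0⟩ := exists_ge c
  refine ⟨max C c0, fun x => (hle x).trans (EReal.coe_le_coe_iff.2 (le_max_left _ _)),
    fun p e he => ?_⟩
  obtain ⟨z, hz, hz'⟩ := hc p.1 _ (mem_image_of_mem _ (mem_of_lif D Γ G.cpt G.sub he).2)
  refine ⟨z, hz, (EReal.coe_le_coe_iff.2
    (neg_le_neg ((hc0 _).trans (le_max_right _ _)))).trans (hz'.trans (le_of_eq ?_))⟩
  show u (D.pt p.1 1 _) = u (D.pt p.1 p.2 _)
  rw [← hi p.2 (D.pt p.1 p.2 _), D.deck_pt, mul_inv_cancel]

end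

end Crest.Agent.X261.Hs
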