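import Crest.Agent.X261.Hs.G
import Crest.Agent.X261.Hs.H
import Crest.Agent.X261.Reg.Main

/-!
# X261 / Hs (helper68): the smooth approximations of the weights of `Pol`

* `ap_rg` : `Ap` from the regularization `rg`;
* `pol_dn`, `pol_dnS` : the weights of `Pol` are finite on a dense set;
* `pol_ap` : the approximations of `φ` and `S ρ` on the cover.
-/

set_option autoImplicit false
set_option linter.unusedSectionVars false

open Set Filter Topology Metric MeasureTheory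
open scoped ContDiff ComplexConjugate ENNReal

namespace Crest.Agent.X261.Hs

open Crest.Agent.R275.Geo Crest.Agent.R273.UCov_914
open Crest.Agent.R275.Core144 (LB KB)
open Crest.Agent.R273.Defs_333 (HM)
open Crest.Agent.R273.Kah_333 (hsf Kah)
open Crest.Agent.R273.Vm_333 (vm)
open Crest.Agent.R273.RMan4_798 (pullKah)
open Crest.Agent.X261.Psh Crest.Agent.X261.Reg
open Crest.Agent.X261.Top (Fol Pol eN)
open Crest.Agent.X261.Jet.HL (Th WS)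

noncomputable section

variable {n : ℕ}

section abs

variable {M : Type} [TopologicalSpace M] {B : Atl n M} [Countable B.ι] [T2Space M]
  [MeasurableSpace M] [BorelSpace M]

theorem nat_pos' (ν : ℕ) : (0 : ℝ) < (ν : ℝ) + 1 := by positivity

/-- the regularizations of a uniform weight `u ≤ 0` -/
theorem ap_rg (K : Kah B) (G : BG B K.g) {L : LB B} (h : HM L) (vol : HM (KB B)⁻¹)
    {u : M → EReal} (hu : PshW (kp h) u) {c C : ℝ} (hL : G.PB (kp h) c) (hU : G.Unif u C)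
    (h0 : ∀ x, u x ≤ 0) :
    Ap K h vol (fun x => (u x).toReal) (fun ν μ => G.rg (kp h) (ν + 1) μ u)
      (fun ν μ => G.lam (kp h) (ν + 1) μ u) (fun ν => G.eps (ν + 1)) (fun ν => G.cor (ν + 1))
      (c * G.r + |Real.log (G.m * G.B)|) := by
  have hd := hU.dn hu
  have hae := ae_ne_bot vol hu hd
  have ht : Tendsto (fun ν : ℕ => (ν : ℝ) + 1) atTop atTop :=
    tendsto_atTop_add_const_right _ _ tendsto_natCast_atTop_atTop
  have hc := mul_nonneg hL.1 G.r0.le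
  refine ⟨⟨fun ν μ => G.rg_sm hu hd _ μ, fun ν x => G.rg_anti hu hd (nat_pos' ν) x, fun ν x => ?_,
    fun ν μ => G.measurable_lam hu hd _ μ, fun ν μ x => G.lam_nonneg _ _ _ _ x,
    fun ν => ⟨_, fun μ x => G.lam_le hu hL hU (nat_pos' ν) μ x⟩,
    fun ν => hae.mono fun x hx => G.lam_tendsto hu hd (nat_pos' ν) hx,
    fun ν => G.eps_nonneg (nat_pos' ν), G.tendsto_eps ht, fun ν μ i x hx ξ => ?_⟩,
    hu.measurable.ereal_toReal, fun x => ?_,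
    fun ν => hae.mono fun x hx => G.rg_tendsto_real hu hd (nat_pos' ν) hx,
    fun ν x => G.cor_nonneg (nat_pos' ν) x, fun x => ?_⟩
  · have h1 := G.rg_le_const (C := 0) hu hd hL (nat_pos' ν) 0 h0 x
    have h2 : Real.log (G.m * G.B) / ((ν : ℝ) + 1) ≤ |Real.log (G.m * G.B)| :=
      (div_le_div_of_nonneg_right (le_abs_self _) (nat_pos' ν).le).trans
        (div_le_self (abs_nonneg _) (by linarith [(Nat.cast_nonneg ν : (0 : ℝ) ≤ ν)]))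
    linarith
  · rw [Th_eq]
    exact G.rg_cur hu hd (nat_pos' ν) μ hx ξ
  · exact (EReal.toReal_nonpos (h0 x)).trans (add_nonneg hc (abs_nonneg _))
  · exact squeeze_zero (fun ν => G.cor_nonneg (nat_pos' ν) x) (fun ν => G.cor_le (nat_pos' ν) x)
      (ht.const_div_atTop _)

theorem off_rg {g : X277.AN.Mat B} (G : BG B g) {H : R281.Kp_487.KP B} {u u' : M → EReal}
    (hu : PshW H u) (hd : Dn univ u) (hu' : PshW H u') (hd' : Dn univ u') {Z W : Set M}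
    (hZ : IsCompact Z) (hW : IsOpen W) (hZW : Z ⊆ W) {a : ℝ}
    (ha : ∀ x ∉ Z, u x - (a : EReal) ≤ u' x) {p : ℝ} (hp : 0 < p) :
    ∀ᶠ μ in atTop, ∀ x ∉ W, G.rg H p μ u x - a ≤ G.rg H p μ u' x := by
  filter_upwards [G.ev_far hZ hW hZW] with μ hμ x hx
  rw [sub_le_iff_le_add]
  refine G.rg_mono hu' hd' hu hd hp μ fun y hy => ?_
  exact (EReal.sub_le_iff_le_add (Or.inl (EReal.coe_ne_bot a)) (Or.inl (EReal.coe_ne_top a))).1
    (ha y (hμ x hx y hy))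

end abs

variable {X : Type} [TopologicalSpace X] {A : Atl n X} {Γ : Type} [Group Γ] {D : MonD A Γ} {p : ℕ}
  {F : Fol D p} {h : HM F.L}

theorem pol_dn [ConnectedSpace (D.cov Γ)] (Q : Pol F h) : Dn univ Q.φ := by
  refine dn_conn (H := kp (D.pullHM (F := Γ) h)) Q.φ_psh ?_
  by_contra hc
  push Not at hc
  obtain ⟨V, hV, hi⟩ := Q.int 1 one_pos
  simp only [hc, eN, EReal.coe_one, one_mul, EReal.neg_bot, EReal.exp_top,
    setLIntegral_const] at hi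
  rw [ENNReal.top_mul (Measure.measure_pos_of_mem_nhds _ hV).ne'] at hi
  exact lt_irrefl _ hi

theorem pol_dnS [ConnectedSpace (D.cov Γ)] (hp : 1 ≤ p) (Q : Pol F h) {ρ : ℝ}
    (hρ : ρ ∈ Ioo (0 : ℝ) 1) : Dn univ (Q.S ρ) := by
  refine dn_conn (H := kp (D.pullHM (F := Γ) h)) (Q.S_psh ρ hρ) ?_
  obtain ⟨a, ha⟩ := Q.S_ge ρ hρ
  have := X277.AN.nontrivial_Cn hp
  obtain ⟨y, hy⟩ := exists_norm_eq (Cn p) (c := (ρ + 1) / 2) (by linarith [hρ.1])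
  have hy' : y ∈ F.T.π Q.x₀ '' F.T.T Q.x₀ := by
    rw [F.T.π_img _ Q.x₀_mem, mem_ball_zero_iff, hy]
    linarith [hρ.2]
  obtain ⟨x, hx, rfl⟩ := hy'
  have hO : IsOpen (F.T.T Q.x₀ ∩ (fun y => ‖F.T.π Q.x₀ y‖) ⁻¹' Ioi ρ) :=
    (F.T.π_cont _ Q.x₀_mem).norm.isOpen_inter_preimage (F.T.T_opn _ Q.x₀_mem) isOpen_Ioi
  obtain ⟨z, h1, h2⟩ := ((pol_dn Q x (mem_univ x)).and_eventually
    (hO.mem_nhds ⟨hx, by rw [mem_preimage, hy, mem_Ioi]; linarith [hρ.2]⟩)).exists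
  refine ⟨z, fun h3 => h1 ?_⟩
  have h4 := ha z fun h5 => lt_asymm h5.2 h2.2
  rw [h3, le_bot_iff, sub_eq_add_neg, EReal.add_eq_bot_iff, ← EReal.coe_neg] at h4
  exact h4.resolve_right (EReal.coe_ne_bot _)

/-- **the approximations of the weights of `Pol`** -/
theorem pol_ap [CompactSpace X] [T2Space X] [Finite A.ι] (P : Part A) (K0 : Kah A)
    [Countable (D.atl Γ).ι] [ConnectedSpace (D.cov Γ)] [MeasurableSpace (D.cov Γ)]
    [BorelSpace (D.cov Γ)] (hp : 1 ≤ p) (Q : Pol F h) {ρ : ℝ} (hρ : ρ ∈ Ioo (0 : ℝ) 1)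
    (vol : HM (KB (D.atl Γ))⁻¹) {W : Set (D.cov Γ)} (hW : IsOpen W)
    (hsub : {x | x ∈ F.T.T Q.x₀ ∧ ‖F.T.π Q.x₀ x‖ ≤ ρ} ⊆ W) :
    ∃ (f lf g lg : ℕ → ℕ → D.cov Γ → ℝ) (eps : ℕ → ℝ) (cr : ℕ → D.cov Γ → ℝ) (C0 : ℝ),
      Ap (pullKah D Γ K0) (D.pullHM (F := Γ) h) vol (fun x => (Q.φ x).toReal) f lf eps cr C0 ∧
      Ap (pullKah D Γ K0) (D.pullHM (F := Γ) h) vol (fun x => (Q.S ρ x).toReal) g lg eps cr C0 ∧
      (∀ᵐ x ∂(vm vol), Q.φ x ≠ ⊥ ∧ Q.S ρ x ≠ ⊥) ∧ (∀ ν μ x, Q.φ x ≤ f ν μ x) ∧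
      (∀ᵐ x ∂(vm vol), (Q.S ρ x).toReal ≤ (Q.φ x).toReal) ∧
      ∃ a : ℝ, ∀ ν, ∀ᶠ μ in atTop, ∀ x ∉ W, f ν μ x - a ≤ g ν μ x := by
  obtain ⟨G⟩ := exists_bg P K0
  obtain ⟨c, hc⟩ := pb_pull D Γ G h
  have h1 : PshW (kp (D.pullHM (F := Γ) h)) Q.φ := Q.φ_psh
  have h2 : PshW (kp (D.pullHM (F := Γ) h)) (Q.S ρ) := Q.S_psh ρ hρ
  have d1 := pol_dn Q
  have d2 := pol_dnS hp Q hρ
  have hS0 : ∀ x, Q.S ρ x ≤ 0 := fun x => (Q.S_le ρ hρ x).trans (Q.φ_le x)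
  obtain ⟨C, hC⟩ := unif_inv D G d1 Q.φ_inv (C := 0) Q.φ_le
  obtain ⟨a, ha⟩ := Q.S_ge ρ hρ
  have hZ := F.T.π_prop _ Q.x₀_mem ρ hρ.2
  have ha' : ∀ x ∉ {x | x ∈ F.T.T Q.x₀ ∧ ‖F.T.π Q.x₀ x‖ ≤ ρ}, Q.φ x - (a : EReal) ≤ Q.S ρ x :=
    fun x hx => ha x fun h3 => hx ⟨h3.1, h3.2.le⟩
  obtain ⟨C', hC'⟩ := unif_ge (pullBG D Γ G) hC d2
    (fun x => (Q.S_le ρ hρ x).trans (hC.1 x)) hZ ha'
  have e1 := ae_ne_bot vol h1 d1
  have e2 := ae_ne_bot vol h2 d2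
  refine ⟨_, _, _, _, _, _, _, ap_rg _ (pullBG D Γ G) _ vol h1 hc hC Q.φ_le,
    ap_rg _ (pullBG D Γ G) _ vol h2 hc hC' hS0, e1.and e2,
    fun ν μ x => (pullBG D Γ G).le_rg' h1 d1 (nat_pos' ν) μ x, ?_, a,
    fun ν => off_rg _ h1 d1 h2 d2 hZ hW hsub ha' (nat_pos' ν)⟩
  filter_upwards [e2] with x hx
  exact EReal.toReal_le_toReal (Q.S_le ρ hρ x) hx (h1.lt_top x).ne

end

end Crest.Agent.X261.Hs
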